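import Vale.Agent.P291Z.Lat.L5
import Vale.Agent.P291Z.GL1

/-!
# The spaces of triples and the convolution spaces are nice; the maps between them
-/

set_option linter.all false

namespace Vale.Agent.P291Z

open Set Function Topology Filter Matrix Quiv QL Lt

attribute [local instance 2000] HahnSeries.instAlgebra

theorem Lt.closedEmb_of {X Y Z : Type*} [TopologicalSpace X] [TopologicalSpace Y]
    [TopologicalSpace Z] {F : X → Y} (G : Y → Z) (hF : Continuous F) (hG : Continuous G)
    (h : IsEmbedding (G ∘ F)) {S : Set Y} (hS : IsClosed S) (h1 : ∀ x, F x ∈ S)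
    (h2 : ∀ y ∈ S, ∃ x, F x = y) : IsClosedEmbedding F :=
  ⟨IsEmbedding.of_comp hF hG h, by
    rw [show range F = S from Subset.antisymm (range_subset_iff.2 h1) h2]; exact hS⟩

/-- `X` injects continuously into a Euclidean space -/
def Lt.FD (X : Type) [TopologicalSpace X] : Prop :=
  ∃ (D : ℕ) (f : X → Fin D → ℝ), Continuous f ∧ Injective f

theorem Lt.FD.of_inj {X Y : Type} [TopologicalSpace X] [TopologicalSpace Y] (h : FD Y) {f : X → Y}
    (hc : Continuous f) (hi : Injective f) : FD X := by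
  obtain ⟨D, g, h1, h2⟩ := h
  exact ⟨D, g ∘ f, h1.comp hc, h2.comp hi⟩

theorem Lt.fd_real (X : Type) [NormedAddCommGroup X] [NormedSpace ℝ X] [FiniteDimensional ℝ X] :
    FD X :=
  let e : X ≃L[ℝ] (Fin (Module.finrank ℝ X) → ℝ) :=
    ContinuousLinearEquiv.ofFinrankEq (Module.finrank_fin_fun ℝ).symm
  ⟨_, e, e.continuous, e.injective⟩

theorem Lt.FD.prod {X Y : Type} [TopologicalSpace X] [TopologicalSpace Y] (h : FD X) (h' : FD Y) :
    FD (X × Y) := by
  obtain ⟨D, g, h1, h2⟩ := h
  obtain ⟨D', g', h3, h4⟩ := h'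
  exact (fd_real _).of_inj (h1.prodMap h3) (h2.prodMap h4)

theorem Lt.FD.pi {ι : Type} [Finite ι] {X : ι → Type} [∀ i, TopologicalSpace (X i)]
    (h : ∀ i, FD (X i)) : FD (∀ i, X i) := by
  choose D g h1 h2 using h
  have := Fintype.ofFinite ι
  exact (fd_real (∀ i, Fin (D i) → ℝ)).of_inj (f := fun x i => g i (x i))
    (continuous_pi fun i => (h1 i).comp (continuous_apply i))
    fun x y e => funext fun i => h2 i (congrFun e i)

theorem Lt.fd_complex (X : Type) [NormedAddCommGroup X] [NormedSpace ℂ X]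
    [FiniteDimensional ℂ X] : FD X :=
  let e : X ≃L[ℂ] (Fin (Module.finrank ℂ X) → ℂ) :=
    ContinuousLinearEquiv.ofFinrankEq (Module.finrank_fin_fun ℂ).symm
  (FD.pi fun _ => fd_real ℂ).of_inj e.continuous e.injective

theorem IsRep.fd {G W : Type} [Group G] [TopologicalSpace G] [AddCommGroup W] [Module ℂ W]
    [TopologicalSpace W] [DistribMulAction G W] {r : ℕ} (h : IsRep G W r) : FD W :=
  h.lin.elim fun e => (FD.pi fun _ => fd_real ℂ).of_inj e.continuous e.injective

theorem Lt.fd_BL {I E : Type} [Finite I] (Q : Quiv I E) (n : ℕ) : FD (BL Q n) :=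
  (FD.pi fun i => fd_complex _).of_inj isClosedEmbedding_prjQ.continuous
    isClosedEmbedding_prjQ.injective

theorem Lt.fd_Gr {I E : Type} [Finite I] (Q : Quiv I E) (n : ℕ) (χ : I → ℤ) : FD (Gr Q n χ) :=
  (fd_BL Q n).of_inj isClosedEmbedding_Gr.continuous isClosedEmbedding_Gr.injective

section ext

variable {I E : Type} {Q : Quiv I E} [Fintype I] [Fintype E]

theorem Lt.ext_ext (ψ ψ' : Q.N ℂ →ₗ[ℂ] Q.N ℂ) (x : Q.N KK) :
    ext ψ KK (ext ψ' KK x) = ext (ψ ∘ₗ ψ') KK x := by
  rw [eq_sum_bas x]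
  simp only [map_sum, map_smul, ext_incl, LinearMap.comp_apply]

theorem Lt.ext_id (x : Q.N KK) : ext LinearMap.id KK x = x := by
  conv_rhs => rw [eq_sum_bas x]
  rfl

theorem Lt.Pres.add {L : Q.Lat} {x y : Q.N KK} (hx : Pres L x) (hy : Pres L y) :
    Pres L (x + y) := by
  have h0 := QL.Pres.sub hx hx
  rw [sub_self] at h0
  have := QL.Pres.sub hx (QL.Pres.sub h0 hy)
  rwa [zero_sub, sub_neg_eq_add] at this

theorem Lt.pres_congr {n d : ℕ} (hd : 2 * n ≤ d) {L : Q.Lat} (hL : QBd n L) {x y : Q.N KK}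
    (h : ∀ c, Ge d (co (x - y) c)) : Pres L x ↔ Pres L y := by
  have h1 := pres_of_ord hd (qbd_iff.1 hL).1 (qbd_iff.1 hL).2 h
  exact ⟨fun hx => by simpa using QL.Pres.sub hx h1, fun hy => by simpa using Lt.Pres.add h1 hy⟩

theorem Lt.poly_congr {d : ℕ} {s s' : ℕ → Q.N ℂ} (h : ∀ k < d, s k = s' k) :
    poly d s = poly d s' :=
  Finset.sum_congr rfl fun k hk => by rw [h k (Finset.mem_range.1 hk)]

theorem Lt.coef_poly (d : ℕ) (s : ℕ → Q.N ℂ) (k : ℕ) :
    coef (poly d s) k = if k < d then s k else 0 := co_ext fun c => by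
  rw [co_coef, coeff_co_poly]
  split_ifs with h
  · rw [Finset.sum_eq_single k, if_pos rfl]
    · exact fun j _ hj => if_neg (by omega)
    · exact fun h1 => absurd (Finset.mem_range.2 h) h1
  · rw [co_zero]
    exact Finset.sum_eq_zero fun j hj => if_neg (by have := Finset.mem_range.1 hj; omega)

theorem Lt.ge_poly_sub {d d' : ℕ} (h : d ≤ d') (s : ℕ → Q.N ℂ) (c : QL.Ix Q) :
    Ge d (co (poly d' s - poly d s) c) := by
  have := ord_sub_poly (ge_co_poly d' s) d c
  rwa [poly_congr (d := d) (s := fun k => if k < d then coef (poly d' s) k else 0) (s' := s)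
    fun k hk => by rw [if_pos hk, coef_poly, if_pos (by omega)]] at this

theorem Lt.pres_poly_iff {n d d' : ℕ} (hd : 2 * n ≤ d) (h : d ≤ d') {L : Q.Lat} (hL : QBd n L)
    (s : ℕ → Q.N ℂ) : Pres L (poly d' s) ↔ Pres L (poly d s) := pres_congr hd hL (ge_poly_sub h s)

end ext

namespace Flav

variable {I E Φ : Type} {Q : Quiv I E} [Fintype Φ] [Fintype I] [Fintype E] {A : Flav Q Φ}
  {n : ℕ} {χ : I → ℤ} {n' : ℕ} {χ' : I → ℤ} {d d' : ℕ}

section RS

theorem RS.qbd (x : A.RS n χ d) : QBd n x.1.1 := Rel.qbd_one x.2.1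

theorem continuous_lt : Continuous (lt : A.RS n χ d → Q.Lat) :=
  continuous_fst.comp continuous_subtype_val

theorem RS.continuous_lat : Continuous fun x : A.RS n χ d => x.1.1 := continuous_lt

theorem RS.continuous_sec (k : ℕ) : Continuous fun x : A.RS n χ d => x.1.2 k :=
  (continuous_apply k).comp (continuous_snd.comp continuous_subtype_val)

theorem RS.isEmbedding_val : IsEmbedding fun x : A.RS n χ d => x.1 := IsEmbedding.subtypeVal

theorem RS.continuous_of {X : Type*} [TopologicalSpace X] {f : X → A.RS n χ d}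
    (h1 : Continuous fun x => (f x).1.1) (h2 : ∀ k, Continuous fun x => (f x).1.2 k) :
    Continuous f := RS.isEmbedding_val.continuous_iff.2 (h1.prodMk (continuous_pi h2))

theorem RS.ext {x y : A.RS n χ d} (h1 : x.1.1 = y.1.1) (h2 : ∀ k < d, x.1.2 k = y.1.2 k) :
    x = y := Subtype.ext (Prod.ext h1 (funext fun k => by
  rcases lt_or_ge k d with h | h
  · exact h2 k h
  · rw [x.2.2.1 k h, y.2.2.1 k h]))

/-- the point of the affine Grassmannian -/
noncomputable def RS.gr : A.RS n χ d →[GG (Q.nn Φ)] Gr Q n χ where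
  toFun x := ⟨x.1.1, x.2.1⟩
  map_smul' _ _ := rfl

theorem RS.continuous_gr : Continuous (RS.gr : A.RS n χ d → Gr Q n χ) :=
  continuous_lt.subtype_mk _

/-- extension by zero -/
noncomputable def ex0 (s : Fin d → A.NN) (k : ℕ) : A.NN := if h : k < d then s ⟨k, h⟩ else 0

theorem continuous_ex0 (k : ℕ) : Continuous fun s : Fin d → A.NN => ex0 s k := by
  unfold ex0
  split_ifs
  exacts [continuous_apply _, continuous_const]

theorem RS.ex0_eq (x : A.RS n χ d) : ex0 (fun k : Fin d => x.1.2 k) = x.1.2 := funext fun k => by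
  unfold ex0
  split_ifs with h
  exacts [rfl, (x.2.2.1 k (not_lt.1 h)).symm]

theorem RS.isClosedEmbedding :
    IsClosedEmbedding fun x : A.RS n χ d => (RS.gr x, fun k : Fin d => x.1.2 k) := by
  have hs : ∀ k, Continuous fun y : Gr Q n χ × (Fin d → A.NN) => ex0 y.2 k :=
    fun k => (continuous_ex0 k).comp continuous_snd
  have hl : Continuous fun y : Gr Q n χ × (Fin d → A.NN) => y.1.1 :=
    continuous_subtype_val.comp continuous_fst
  refine closedEmb_of (fun y => (y.1.1, ex0 y.2))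
    (RS.continuous_gr.prodMk (continuous_pi fun k => RS.continuous_sec k))
    (hl.prodMk (continuous_pi hs)) ?_
    (isClosed_pres hl (fun y => Rel.qbd_one y.1.2) (cn_poly d hs)) (fun x => ?_) fun y hy => ?_
  · have e : ((fun y : Gr Q n χ × (Fin d → A.NN) => (y.1.1, ex0 y.2)) ∘
        fun x : A.RS n χ d => (RS.gr x, fun k : Fin d => x.1.2 k)) = fun x => x.1 :=
      funext fun x => Prod.ext rfl (RS.ex0_eq x)
    rw [e]
    exact RS.isEmbedding_val
  · exact (congrArg (fun s => Pres x.1.1 (poly d s)) (RS.ex0_eq x)).mpr x.2.2.2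
  · exact ⟨⟨(y.1.1, ex0 y.2), y.1.2, fun k hk => dif_neg (not_lt.2 hk), hy⟩,
      Prod.ext rfl (funext fun k => dif_pos k.2)⟩

instance : Nice (A.RS n χ d) := Nice.of_closed RS.isClosedEmbedding

instance : ContinuousSMul (GG (Q.nn Φ)) (A.RS n χ d) :=
  ⟨RS.continuous_of (continuous_smul_lat continuous_fst (continuous_lt.comp continuous_snd)
    fun x => RS.qbd x.2) fun k => continuous_fst.smul ((RS.continuous_sec k).comp continuous_snd)⟩

theorem RS.fd : FD (A.RS n χ d) :=
  ((fd_Gr Q n χ).prod (FD.pi fun _ => A.isRep_NN.fd)).of_inj RS.isClosedEmbedding.continuous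
    RS.isClosedEmbedding.injective

variable (A n χ d)

/-- the inclusion of bounded parts -/
noncomputable def incNE : A.RS n χ d →[GG (Q.nn Φ)] A.RS (n + 1) χ d where
  toFun x := ⟨x.1, Rel_succ x.2.1, x.2.2⟩
  map_smul' _ _ := rfl

/-- the zero section -/
noncomputable def incDE : A.RS n χ d →[GG (Q.nn Φ)] A.RS n χ (d + 1) where
  toFun x := ⟨x.1, x.2.1, fun k hk => x.2.2.1 k (Nat.le_of_succ_le hk),
    (poly_succ (x.2.2.1 d le_rfl)).symm ▸ x.2.2.2⟩
  map_smul' _ _ := rfl

/-- the coefficient of `t^k` -/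
noncomputable def secE (k : ℕ) : A.RS n χ d →[GG (Q.nn Φ)] A.NN where
  toFun x := x.1.2 k
  map_smul' _ _ := rfl

theorem incN_eq (M : ℕ) : A.incN M = smap (A.incNE n χ d) M := rfl

theorem incD_eq (M : ℕ) : A.incD M = smap (A.incDE n χ d) M := rfl

theorem continuous_secE (k : ℕ) : Continuous (A.secE n χ d k) := RS.continuous_sec k

theorem incNE_val (x : A.RS n χ d) : (A.incNE n χ d x).1 = x.1 := Subtype.coe_mk x.1 _

theorem range_incNE : range (A.incNE n χ d) = {x | QBd n x.1.1} :=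
  Subset.antisymm (range_subset_iff.2 fun x => by
    rw [mem_setOf_eq, incNE_val]; exact RS.qbd x) fun y hy =>
    ⟨⟨y.1, rel_one_iff.2 ⟨hy, Rel.ch_one y.2.1⟩, y.2.2⟩, rfl⟩

theorem isClosedEmbedding_incNE : IsClosedEmbedding (A.incNE n χ d) := by
  have e : (fun y : A.RS (n + 1) χ d => y.1) ∘ A.incNE n χ d = fun x => x.1 :=
    funext (A.incNE_val n χ d)
  have h : IsEmbedding ((fun y : A.RS (n + 1) χ d => y.1) ∘ A.incNE n χ d) := by
    rw [e]; exact RS.isEmbedding_val
  refine ⟨IsEmbedding.of_comp (RS.isEmbedding_val.continuous_iff.2 h.continuous)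
    RS.isEmbedding_val.continuous h, ?_⟩
  rw [range_incNE]
  refine (congrArg IsClosed (Set.ext fun y => ?_)).mp (isClosed_rel (n := n) (χ := χ)
    continuous_const (fun _ => qbd_one) (RS.continuous_lat (n := n + 1)) RS.qbd)
  exact ⟨Rel.qbd_one, fun hy => rel_one_iff.2 ⟨hy, Rel.ch_one y.2.1⟩⟩

theorem range_incDE : range (A.incDE n χ d) = A.secE n χ (d + 1) d ⁻¹' {0} :=
  Subset.antisymm (range_subset_iff.2 fun x => x.2.2.1 d le_rfl) fun y hy =>
    ⟨⟨y.1, y.2.1, fun k hk => (eq_or_lt_of_le hk).elim (fun e => e ▸ hy) (y.2.2.1 k),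
      poly_succ (s := y.1.2) hy ▸ y.2.2.2⟩, rfl⟩

theorem isClosedEmbedding_incDE : IsClosedEmbedding (A.incDE n χ d) :=
  ⟨IsEmbedding.of_comp (RS.continuous_of (RS.continuous_lat (d := d)) (RS.continuous_sec (d := d)))
    (RS.isEmbedding_val (d := d + 1)).continuous (RS.isEmbedding_val (d := d)), by
    rw [range_incDE]
    exact isClosed_singleton.preimage (A.continuous_secE _ _ _ _)⟩

variable {n d}

/-- truncation -/
noncomputable def dropE (hd : 2 * n ≤ d) (h : d ≤ d') :
    A.RS n χ d' →[GG (Q.nn Φ)] A.RS n χ d where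
  toFun x := ⟨(x.1.1, fun k => if k < d then x.1.2 k else 0), x.2.1,
    fun k hk => if_neg (not_lt.2 hk), (congrArg (Pres x.1.1) (poly_congr fun k hk =>
      if_pos hk)).mpr ((pres_poly_iff hd h (RS.qbd x) _).1 x.2.2.2)⟩
  map_smul' g x := RS.ext rfl fun k hk => by
    change (if k < d then g • x.1.2 k else 0) = g • (if k < d then x.1.2 k else 0)
    rw [if_pos hk, if_pos hk]

theorem continuous_dropE (hd : 2 * n ≤ d) (h : d ≤ d') : Continuous (A.dropE χ hd h) :=
  RS.continuous_of (RS.continuous_lat (d := d')) fun k => by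
    change Continuous fun x : A.RS n χ d' => if k < d then x.1.2 k else 0
    split_ifs
    exacts [RS.continuous_sec k, continuous_const]

theorem dropE_incDE (hd : 2 * n ≤ d) (x : A.RS n χ d) :
    A.dropE χ hd d.le_succ (A.incDE n χ d x) = x := RS.ext rfl fun _ hk => if_pos hk

/-- `R / t^(d+1) N(O)` is the product of `R / t^d N(O)` and `N` -/
theorem isHomeomorph_dropE (hd : 2 * n ≤ d) : IsHomeomorph fun x : A.RS n χ (d + 1) =>
    (A.dropE χ hd d.le_succ x, A.secE n χ (d + 1) d x) := by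
  refine isHomeomorph_iff_exists_inverse.2 ⟨(A.continuous_dropE χ hd _).prodMk
    (A.continuous_secE _ _ _ _), fun y => ⟨(y.1.1.1, fun k => if k = d then y.2 else y.1.1.2 k),
      y.1.2.1, fun k hk => (if_neg (by omega)).trans (y.1.2.2.1 k (by omega)),
      (pres_poly_iff hd d.le_succ (RS.qbd y.1) _).2 ((congrArg (Pres y.1.1.1)
        (poly_congr fun k hk => if_neg hk.ne)).mpr y.1.2.2.2)⟩,
    fun x => RS.ext rfl fun k hk => ?_, fun y => Prod.ext (RS.ext rfl fun k hk => ?_) (if_pos rfl),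
    RS.continuous_of ((RS.continuous_lat (d := d)).comp continuous_fst) fun k => ?_⟩
  · change (if k = d then x.1.2 d else if k < d then x.1.2 k else 0) = _
    split_ifs with h1 h2
    exacts [by rw [h1], rfl, by omega]
  · exact (if_pos hk).trans (if_neg hk.ne)
  · change Continuous fun y : A.RS n χ d × A.NN => if k = d then y.2 else y.1.1.2 k
    split_ifs
    exacts [continuous_snd, (RS.continuous_sec k).comp continuous_fst]

end RS

section R2

theorem R2.isEmbedding_val : IsEmbedding fun x : A.R2 n χ n' χ' d => x.1 := IsEmbedding.subtypeVal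

theorem R2.continuous_fst : Continuous fun x : A.R2 n χ n' χ' d => x.1.1 :=
  _root_.continuous_fst.comp continuous_subtype_val

theorem R2.continuous_snd : Continuous fun x : A.R2 n χ n' χ' d => x.1.2 :=
  _root_.continuous_snd.comp continuous_subtype_val

theorem continuous_lt₂ : Continuous (lt₂ : A.R2 n χ n' χ' d → Q.Lat) :=
  continuous_lt.comp R2.continuous_fst

theorem R2.rel (x : A.R2 n χ n' χ' d) : Rel (n + n') (χ + χ') (lat 1) x.1.2 :=
  Rel_trans x.1.1.2.1 x.2.1

theorem R2.qbd (x : A.R2 n χ n' χ' d) : QBd (n + n') x.1.2 := Rel.qbd_one (R2.rel x)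

theorem R2.continuous_of {X : Type*} [TopologicalSpace X] {f : X → A.R2 n χ n' χ' d}
    (h1 : Continuous fun x => (f x).1.1) (h2 : Continuous fun x => (f x).1.2) : Continuous f :=
  R2.isEmbedding_val.continuous_iff.2 (h1.prodMk h2)

theorem R2.isClosedEmbedding : IsClosedEmbedding fun x : A.R2 n χ n' χ' d =>
    (x.1.1, (⟨x.1.2, R2.qbd x⟩ : BL Q (n + n'))) := by
  have hl : Continuous fun y : A.RS n χ d × BL Q (n + n') => y.2.1 :=
    continuous_subtype_val.comp _root_.continuous_snd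
  exact closedEmb_of (fun y => (y.1, y.2.1))
    (R2.continuous_fst.prodMk (R2.continuous_snd.subtype_mk _)) (_root_.continuous_fst.prodMk hl)
    R2.isEmbedding_val ((isClosed_rel (n := n') (χ := χ') (continuous_lt.comp _root_.continuous_fst)
      (fun y => RS.qbd y.1) hl fun y => y.2.2).inter (isClosed_pres hl (fun y => y.2.2)
      (cn_poly d fun k => (RS.continuous_sec k).comp _root_.continuous_fst)))
    (fun x => x.2) fun y hy => ⟨⟨(y.1, y.2.1), hy⟩, rfl⟩

instance : Nice (A.R2 n χ n' χ' d) := Nice.of_closed R2.isClosedEmbedding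

instance : ContinuousSMul (GG (Q.nn Φ)) (A.R2 n χ n' χ' d) :=
  ⟨R2.continuous_of (continuous_fst.smul (R2.continuous_fst.comp continuous_snd))
    (continuous_smul_lat continuous_fst (R2.continuous_snd.comp continuous_snd)
      fun x => R2.qbd x.2)⟩

theorem R2.fd : FD (A.R2 n χ n' χ' d) :=
  (RS.fd.prod (fd_BL Q _)).of_inj R2.isClosedEmbedding.continuous R2.isClosedEmbedding.injective

variable (A n χ n' χ' d)

/-- the multiplication map -/
noncomputable def mmE : A.R2 n χ n' χ' d →[GG (Q.nn Φ)] A.RS (n + n') (χ + χ') d where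
  toFun x := ⟨(x.1.2, x.1.1.1.2), Rel_trans x.1.1.2.1 x.2.1, x.1.1.2.2.1, x.2.2⟩
  map_smul' _ _ := rfl

/-- the first projection -/
noncomputable def pr1E : A.R2 n χ n' χ' d →[GG (Q.nn Φ)] A.RS n χ d where
  toFun x := x.1.1
  map_smul' _ _ := rfl

theorem mm_eq (M : ℕ) : A.mm M = smap (A.mmE n χ n' χ' d) M := rfl

theorem continuous_mmE : Continuous (A.mmE n χ n' χ' d) :=
  RS.continuous_of R2.continuous_snd fun k => (RS.continuous_sec (n := n) k).comp R2.continuous_fst

theorem isClosedEmbedding_mmE :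
    IsClosedEmbedding fun x : A.R2 n χ n' χ' d => (RS.gr x.1.1, A.mmE n χ n' χ' d x) := by
  have hl : Continuous fun y : Gr Q n χ × A.RS (n + n') (χ + χ') d => y.1.1 :=
    continuous_subtype_val.comp continuous_fst
  exact closedEmb_of (fun y => ((y.1.1, y.2.1.2), y.2.1.1))
    ((RS.continuous_gr.comp R2.continuous_fst).prodMk (A.continuous_mmE _ _ _ _ _))
    ((hl.prodMk (continuous_pi fun k => (RS.continuous_sec k).comp continuous_snd)).prodMk
      (continuous_lt.comp continuous_snd))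
    ((RS.isEmbedding_val.prodMap IsEmbedding.id).comp R2.isEmbedding_val)
    ((isClosed_rel (n := n') (χ := χ') hl (fun y => Rel.qbd_one y.1.2)
      (continuous_lt.comp continuous_snd) fun y => RS.qbd y.2).inter
      (isClosed_pres hl (fun y => Rel.qbd_one y.1.2)
        (cn_poly d fun k => (RS.continuous_sec k).comp continuous_snd)))
    (fun x => ⟨x.2.1, x.1.1.2.2.2⟩) fun y hy =>
      ⟨⟨(⟨(y.1.1, y.2.1.2), y.1.2, y.2.2.2.1, hy.2⟩, y.2.1.1), hy.1, y.2.2.2.2⟩, rfl⟩

theorem isPr_mmE : IsPr (A.mmE n χ n' χ' d) :=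
  (IsPr.of_isProperMap isProperMap_snd_of_compactSpace).comp
    (IsPr.of_isClosedEmbedding (A.isClosedEmbedding_mmE n χ n' χ' d))

theorem isPr_pr1E : IsPr (A.pr1E n χ n' χ' d) :=
  (IsPr.of_isProperMap (isProperMap_fst_of_compactSpace (Y := BL Q (n + n')))).comp
    (IsPr.of_isClosedEmbedding R2.isClosedEmbedding)

end R2

end Flav

end Vale.Agent.P291Z
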