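import Vale.Agent.P291Z.Lat.L6
import Vale.Agent.P291Z.Coul1Lem
import Vale.Agent.P291Z.T15

/-!
# The bundles of frames, the maps `shift`, `iota`, `sig`
-/

set_option linter.all false

namespace Vale.Agent.P291Z

open Set Function Topology Filter Matrix Quiv QL Lt

attribute [local instance 2000] HahnSeries.instAlgebra

attribute [-instance] CStarMatrix.instHMulOfFintypeOfMulOfAddCommMonoid

namespace Lt

theorem FD.hasDim {X : Type} [TopologicalSpace X] (h : FD X) : ∃ D, HasDim X D := by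
  obtain ⟨D, f, h1, h2⟩ := h
  exact ⟨D, fun _ => ⟨univ, univ_mem, f, h1.continuousOn, h2.injOn⟩⟩

variable {v n : ℕ}

/-- a constant matrix -/
noncomputable abbrev cm {α β : Type} (x : Matrix α β ℂ) : Matrix α β KK := x.map HahnSeries.C

theorem cm_apply {α β : Type} (x : Matrix α β ℂ) (a : α) (b : β) :
    cm x a b = HahnSeries.C (x a b) := rfl

/-- the Laurent polynomial matrix with given coefficients -/
noncomputable def lau {α β : Type} (g : Finset.Icc (-n : ℤ) n → Matrix α β ℂ) : Matrix α β KK :=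
  ∑ k : Finset.Icc (-n : ℤ) n, tp k.1 • cm (g k)

theorem lau_mul {α β γ : Type} [Fintype β] (g : Finset.Icc (-n : ℤ) n → Matrix α β ℂ)
    (x : Matrix β γ ℂ) : lau (fun k => g k * x) = lau g * cm x := by
  rw [lau, lau, Matrix.sum_mul]
  exact Finset.sum_congr rfl fun k _ => by rw [ksmul_mul, ← Matrix.map_mul]

theorem lau_add {α β : Type} (g g' : Finset.Icc (-n : ℤ) n → Matrix α β ℂ) :
    lau (fun k => g k + g' k) = lau g + lau g' := by
  rw [lau, lau, lau, ← Finset.sum_add_distrib]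
  refine Finset.sum_congr rfl fun k _ => ?_
  ext1 a b
  simp [mul_add]

theorem coeff_lau {α β : Type} (g : Finset.Icc (-n : ℤ) n → Matrix α β ℂ) (a : α) (b : β) (k : ℤ) :
    (lau g a b).coeff k = if h : k ∈ Finset.Icc (-n : ℤ) n then g ⟨k, h⟩ a b else 0 := by
  have e : lau g a b = ∑ j : Finset.Icc (-n : ℤ) n, tp j.1 * HahnSeries.C (g j a b) := by
    rw [lau, Matrix.sum_apply]
    rfl
  rw [e, HahnSeries.coeff_sum]
  simp only [coeff_tp_mul, coeff_C, sub_eq_zero]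
  split_ifs with h
  · rw [Finset.sum_eq_single ⟨k, h⟩, if_pos rfl]
    · exact fun j _ hj => if_neg fun e => hj (Subtype.ext e.symm)
    · simp
  · exact Finset.sum_eq_zero fun j _ => if_neg fun e : k = j.1 => h (e ▸ j.2)

theorem lau_inj {α β : Type} {g g' : Finset.Icc (-n : ℤ) n → Matrix α β ℂ} (h : lau g = lau g') :
    g = g' := by
  ext k a b
  have := congrArg (fun m => (m a b).coeff k) h
  simpa only [coeff_lau, dif_pos k.2] using this

theorem laur_apply {I E : Type} {Q : Quiv I E} (g : Finset.Icc (-n : ℤ) n → Q.En ℂ) (i : I) :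
    laur g i = lau fun k => g k i := Finset.sum_apply _ _ _

theorem mulVec_C {α : Type} [Fintype α] (g : Matrix (Fin v) α KK) (x : α → ℂ) :
    g *ᵥ (fun a => HahnSeries.C (x a)) = ∑ a, x a • gᵀ a := by
  funext b
  rw [Finset.sum_apply]
  exact Finset.sum_congr rfl fun a _ => (mul_comm _ _).trans HahnSeries.C_mul_eq_smul

/-- an adapted parametrization of the matrices whose columns lie in a lattice -/
theorem Bd.exists_param {L : Sb v} (h : Bd n L) {G : Finset.Icc (-n : ℤ) n → Matrix (Fin v) (Fin v) ℂ}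
    (hG : la1 (lau G) = L) :
    ∃ B : Finset.Icc (-n : ℤ) n → Matrix (Fin v) (Fin (v * n - ch1 L).toNat) ℂ,
      (∀ (x : Matrix (Fin v) (Fin v) ℂ) (y : Matrix (Fin (v * n - ch1 L).toNat) (Fin v) ℂ),
        (∀ k, G k * x + B k * y = 0) → x = 0 ∧ y = 0) ∧
      (∀ g : Finset.Icc (-n : ℤ) n → Matrix (Fin v) (Fin v) ℂ,
        la1 (lau g) ≤ L ↔ ∃ (x : Matrix (Fin v) (Fin v) ℂ)
          (y : Matrix (Fin (v * n - ch1 L).toNat) (Fin v) ℂ), g = fun k => G k * x + B k * y) ∧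
      ∀ (x : Matrix (Fin v) (Fin v) ℂ) (y : Matrix (Fin (v * n - ch1 L).toNat) (Fin v) ℂ),
        la1 (lau fun k => G k * x + B k * y) = L ↔ x.det ≠ 0 := by
  have hd : (lau G).det ≠ 0 := det_ne_of_ge_le (h.1.trans hG.ge)
  have h1 : Bd (n + 1) (Lt.mu1 (tp 1 • 1) L) :=
    ⟨(ge_mono (by push_cast; omega)).trans ((mu1_tp_ge 1 n).ge.trans (mu1_mono _ h.1)),
      (mu1_mono _ h.2).trans ((mu1_tp_ge _ _).le.trans (ge_mono (by push_cast; omega)))⟩
  have h2 : Module.finrank ℂ (red (n + 1) (Lt.mu1 (tp 1 • 1) L)) = (v * n - ch1 L).toNat := by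
    have h3 := h1.rk_eq
    rw [h.ch1_mu1 (det_tp_smul_one 1).1, (det_tp_smul_one 1).2, rk] at h3
    push_cast at h3
    rw [mul_add, mul_one] at h3
    omega
  let e := Module.finBasisOfFinrankEq ℂ _ h2
  let B : Finset.Icc (-n : ℤ) n → Matrix (Fin v) (Fin (v * n - ch1 L).toNat) ℂ :=
    fun k => Matrix.of fun a j => (em (n + 1) (e j) a).coeff k
  have hle : Lt.mu1 (tp 1 • 1) L ≤ ge v (1 + -n) := (mu1_mono _ h.2).trans (mu1_tp_ge _ _).le
  have hB : ∀ j, (lau B)ᵀ j = em (n + 1) (e j) := fun j => by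
    funext a
    ext k
    refine (coeff_lau B a j k).trans ?_
    split_ifs with hk
    · rfl
    · rw [Finset.mem_Icc] at hk
      rcases lt_or_ge k (-n) with h3 | h3
      · exact (hle (e j).2 a k (by omega)).symm
      · exact (coeff_em_of_le _ a (by push_cast; omega)).symm
  have hmem : ∀ y, y ∈ Lt.mu1 (tp 1 • 1) L ↔ (lau G)⁻¹ *ᵥ y ∈ ge v 1 := fun y => by
    rw [← hG, la1_eq, ← mu1_tp_comm, mu1_tp_ge, add_zero, mem_mu1_iff hd]
  have hB1 : GeM 1 ((lau G)⁻¹ * lau B) := fun a j => by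
    have := (hmem _).1 (e j).2 a
    rwa [← hB j] at this
  have hform : ∀ (x : Matrix (Fin v) (Fin v) ℂ) (y : Matrix (Fin (v * n - ch1 L).toNat) (Fin v) ℂ),
      (lau G)⁻¹ * lau (fun k => G k * x + B k * y) =
      cm x + (lau G)⁻¹ * lau B * cm y := fun x y => by
    rw [lau_add, lau_mul, lau_mul, Matrix.mul_add, ← Matrix.mul_assoc, ← Matrix.mul_assoc,
      nonsing_inv_mul _ (isUnit_det hd), Matrix.one_mul]
  have hge : ∀ (x : Matrix (Fin v) (Fin v) ℂ) (y : Matrix (Fin (v * n - ch1 L).toNat) (Fin v) ℂ),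
      GeM 0 ((lau G)⁻¹ * lau fun k => G k * x + B k * y) ∧
      (((lau G)⁻¹ * lau fun k => G k * x + B k * y).map fun f => f.coeff 0) = x := fun x y => by
    have h3 : GeM (1 + 0) ((lau G)⁻¹ * lau B * cm y) := hB1.mul fun _ _ => ge_C _
    rw [hform]
    refine ⟨fun a b => (ge_C _).add ((h3 a b).mono (by omega)), ?_⟩
    ext a b
    rw [map_apply, Matrix.add_apply, HahnSeries.coeff_add, h3 a b 0 (by omega), add_zero,
      cm_apply, coeff_C, if_pos rfl]
  have hcol : ∀ (y : Matrix (Fin (v * n - ch1 L).toNat) (Fin v) ℂ) b,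
      (lau B * cm y)ᵀ b = em (n + 1) (∑ j, y j b • e j : red (n + 1) _) := fun y b => by
    rw [Submodule.coe_sum, map_sum]
    refine (mulVec_C (lau B) fun j => y j b).trans (Finset.sum_congr rfl fun j _ => ?_)
    rw [hB, Submodule.coe_smul, map_smul]
  refine ⟨B, fun x y h0 => ?_, fun g => ⟨fun hg => ?_, ?_⟩, fun x y => ?_⟩
  · have hz : lau (fun _ : Finset.Icc (-n : ℤ) n => (0 : Matrix (Fin v) (Fin v) ℂ)) = 0 := by
      ext a b k
      rw [coeff_lau]
      split_ifs <;> rfl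
    have h3 := (hge x y).2
    rw [funext h0, hz, Matrix.mul_zero] at h3
    have h4 : x = 0 := h3.symm.trans (by ext; rfl)
    refine ⟨h4, ?_⟩
    simp only [h4, Matrix.mul_zero, zero_add] at h0
    have h5 := lau_mul B y
    rw [funext h0, hz] at h5
    ext j b
    have h6 := hcol y b
    rw [← h5] at h6
    have h7 := congrArg (tr (n + 1)) h6
    rw [tr_em] at h7
    exact Fintype.linearIndependent_iff.1 e.linearIndependent (fun j => y j b)
      (Subtype.ext (h7.symm.trans (map_zero _))) j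
  · have h3 : GeM 0 ((lau G)⁻¹ * lau g) := (la1_le_la1 hd).1 (hg.trans hG.ge)
    let x : Matrix (Fin v) (Fin v) ℂ := ((lau G)⁻¹ * lau g).map fun f => f.coeff 0
    let R := lau fun k => g k + G k * -x
    have h4 : ∀ b, Rᵀ b ∈ Lt.mu1 (tp 1 • 1) L := fun b => (hmem _).2 fun a k hk => by
      have h5 : (lau G)⁻¹ * R = (lau G)⁻¹ * lau g + cm (-x) := by
        simp only [R]
        rw [lau_add, lau_mul, Matrix.mul_add, ← Matrix.mul_assoc,
          nonsing_inv_mul _ (isUnit_det hd), Matrix.one_mul]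
      change (((lau G)⁻¹ * R) a b).coeff k = 0
      rw [h5, Matrix.add_apply, HahnSeries.coeff_add, cm_apply, coeff_C]
      split_ifs with h6
      · rw [h6]; exact add_neg_cancel _
      · rw [h3 a b k (by omega), add_zero]
    let y : Matrix (Fin (v * n - ch1 L).toNat) (Fin v) ℂ :=
      Matrix.of fun j b => e.repr ⟨tr (n + 1) (Rᵀ b), (h1.mem_iff_red.1 (h4 b)).2⟩ j
    have h5 : R = lau B * cm y := by
      refine transpose_injective (funext fun b => ?_)
      rw [hcol, show (∑ j, y j b • e j : red (n + 1) _) = _ from e.sum_repr _]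
      funext a
      ext k
      rw [coeff_em]
      split_ifs with hk
      · rfl
      · rw [Finset.mem_Ico] at hk
        exact ((coeff_lau (n := n) _ a b k).trans
          (dif_neg (by rw [Finset.mem_Icc]; push_cast at hk; omega)))
    rw [← lau_mul] at h5
    refine ⟨x, y, funext fun k => ?_⟩
    rw [← congrFun (lau_inj h5) k, Matrix.mul_neg, add_comm, neg_add_cancel_right]
  · rintro ⟨x, y, rfl⟩
    exact ((la1_le_la1 hd).2 (hge x y).1).trans hG.le
  · obtain ⟨h3, h4⟩ := hge x y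
    have h5 := h3.det.2
    rw [h4] at h5
    have h6 : lau (fun k => G k * x + B k * y) =
        lau G * ((lau G)⁻¹ * lau fun k => G k * x + B k * y) := by
      rw [← Matrix.mul_assoc, mul_nonsing_inv _ (isUnit_det hd), Matrix.one_mul]
    constructor
    · intro h7
      have h8 : (lau fun k => G k * x + B k * y).det ≠ 0 := det_ne_of_ge_le (h.1.trans h7.ge)
      obtain ⟨h9, h10⟩ := order_det_mul (det_inv_ne hd) h8
      rw [order_det_inv hd, order_eq_of_la1_eq h8 hd (h7.trans hG.symm), neg_add_cancel] at h10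
      rw [← h5, ← h10]
      exact fun e0 => h9 (HahnSeries.coeff_order_eq_zero.1 e0)
    · intro h7
      obtain ⟨h8, h9⟩ := order_eq_of_ge h3.det.1 (h5.symm ▸ h7)
      rw [h6, la1_mul, la1_eq, h3.mu1_eq h8 h9, ← la1_eq, hG]

end Lt

namespace Flav

variable {I E Φ : Type} {Q : Quiv I E} [Fintype Φ] [Fintype I] [Fintype E] {A : Flav Q Φ}
  {n : ℕ} {χ : I → ℤ} {n' : ℕ} {χ' : I → ℤ} {d d' : ℕ}

instance (m : ℕ) : Nice (WW Q Φ m) := (isRep_WW m).nice

instance (m : ℕ) : ContinuousSMul (GG (Sum.elim (Q.nn Φ) (Q.nn Φ))) (WW Q Φ m) := (isRep_WW m).cont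

/-- the number of additional rows in the parametrization of the bundle of frames -/
def exV (Q : Quiv I E) (Φ : Type) (m : ℕ) (χ : I → ℤ) : I ⊕ Φ → ℕ :=
  Sum.elim (fun i => (Q.v i * m - χ i).toNat) fun _ => 0

/-- the rank of the bundle of frames -/
def rkV (Q : Quiv I E) (Φ : Type) [Fintype Φ] (m : ℕ) (χ : I → ℤ) : ℕ :=
  ∑ j, (Q.nn Φ j + exV Q Φ m χ j) * Q.nn Φ j

/-- the parametrization of the fibres of the bundle of frames -/
theorem exists_paramV {m : ℕ} {L : Q.Lat} (hL : Quiv.Rel m χ (lat 1) L) :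
    ∃ ψ : (∀ j, Matrix (Fin (Q.nn Φ j) ⊕ Fin (exV Q Φ m χ j)) (Fin (Q.nn Φ j)) ℂ) →ₗ[ℂ] WW Q Φ m,
      Injective ψ ∧ (∀ w, lat (laur w.1) ≤ L ↔ w ∈ range ψ) ∧
      (∀ (g : GG (Sum.elim (Q.nn Φ) (Q.nn Φ))) x, fstG _ _ g = 1 →
        ψ (fun j => x j * ((sndG _ _ g)⁻¹ j : Matrix _ _ ℂ)) = g • ψ x) ∧
      ∀ x, (lat (laur (ψ x).1) = L ∧ ∀ a, (ψ x).2 a ≠ 0) ↔ ∀ j, (x j).toRows₁.det ≠ 0 := by
  obtain ⟨G, hG⟩ := (Rel.qbd_one hL).exists_laur
  obtain rfl : ch L = χ := funext (Rel.ch_one hL)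
  choose B h1 h2 h3 using fun i => (Rel.qbd_one hL i).exists_param (G := fun k => G k i)
    ((congrArg la1 (laur_apply G i).symm).trans (congrFun hG i))
  let T : (∀ j, Matrix (Fin (Q.nn Φ j) ⊕ Fin (exV Q Φ m (ch L) j)) (Fin (Q.nn Φ j)) ℂ) →
      ∀ i, Matrix (Fin (Q.v i)) (Fin (Q.v i)) ℂ := fun x i => (x (Sum.inl i)).toRows₁
  let U : (∀ j, Matrix (Fin (Q.nn Φ j) ⊕ Fin (exV Q Φ m (ch L) j)) (Fin (Q.nn Φ j)) ℂ) →
      ∀ i, Matrix (Fin (Q.v i * m - ch1 (L i)).toNat) (Fin (Q.v i)) ℂ :=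
    fun x i => (x (Sum.inl i)).toRows₂
  let ψ : (∀ j, Matrix (Fin (Q.nn Φ j) ⊕ Fin (exV Q Φ m (ch L) j)) (Fin (Q.nn Φ j)) ℂ) →
      WW Q Φ m := fun x => (fun k i => G k i * T x i + B i k * U x i,
        fun a => x (Sum.inr a) (Sum.inl (0 : Fin 1)) (0 : Fin 1))
  have ha : ∀ x y, ψ (x + y) = ψ x + ψ y := fun x y =>
    Prod.ext (funext fun k => funext fun i => by
      change G k i * (T x i + T y i) + B i k * (U x i + U y i) =
        G k i * T x i + B i k * U x i + (G k i * T y i + B i k * U y i)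
      rw [Matrix.mul_add, Matrix.mul_add, add_add_add_comm]) rfl
  have hs : ∀ (c : ℂ) x, ψ (c • x) = c • ψ x := fun c x =>
    Prod.ext (funext fun k => funext fun i => by
      change G k i * (c • T x i) + B i k * (c • U x i) = c • (G k i * T x i + B i k * U x i)
      rw [Matrix.mul_smul, Matrix.mul_smul, smul_add]) rfl
  refine ⟨⟨⟨ψ, ha⟩, hs⟩,
    ?_, fun w => ⟨fun hw => ?_, ?_⟩, fun g x hg => Prod.ext (funext fun k => funext fun i => ?_)
      (funext fun a => ?_), fun x => ?_⟩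
  · rw [injective_iff_map_eq_zero]
    intro x hx
    funext j
    rcases j with i | a
    · obtain ⟨h4, h5⟩ := h1 i (T x i) (U x i)
        fun k => congrFun (congrFun (congrArg Prod.fst hx) k) i
      ext (b | b) c
      · exact congrFun (congrFun h4 b) c
      · exact congrFun (congrFun h5 b) c
    · ext (b | b) c
      · obtain rfl : b = (0 : Fin 1) := Subsingleton.elim (α := Fin 1) _ _
        obtain rfl : c = (0 : Fin 1) := Subsingleton.elim (α := Fin 1) _ _
        exact congrFun (congrArg Prod.snd hx) a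
      · exact b.elim0
  · choose x y hxy using fun i => (h2 i fun k => w.1 k i).1
      ((congrArg la1 (laur_apply w.1 i).symm).le.trans (hw i))
    exact ⟨fun j => match j with
      | Sum.inl i => fromRows (x i) (y i)
      | Sum.inr a => Matrix.of fun _ _ => w.2 a,
      Prod.ext (funext fun k => funext fun i => (congrFun (hxy i) k).symm) rfl⟩
  · rintro ⟨x, rfl⟩ i
    exact (congrArg la1 (laur_apply _ i)).le.trans ((h2 i _).2 ⟨T x i, U x i, rfl⟩)
  · change G k i * (T x i * ga Q Φ (sndG _ _ g⁻¹) i) + B i k * (U x i * ga Q Φ (sndG _ _ g⁻¹) i) =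
      ga Q Φ (fstG _ _ g) i * (G k i * T x i + B i k * U x i) * ga Q Φ (sndG _ _ g⁻¹) i
    rw [hg, map_one, Pi.one_apply, Matrix.one_mul, Matrix.add_mul, Matrix.mul_assoc,
      Matrix.mul_assoc]
  · change _ = (fl Q Φ (fstG _ _ g) a : ℂ) * x (Sum.inr a) (Sum.inl (0 : Fin 1)) (0 : Fin 1) *
      fl Q Φ (sndG _ _ g⁻¹) a
    rw [hg, map_one, Pi.one_apply, Units.val_one, one_mul]
    exact (Fin.sum_univ_one fun c : Fin 1 => x (Sum.inr a) (Sum.inl (0 : Fin 1)) c *
      ((sndG _ _ g⁻¹ (Sum.inr a)).1 : Matrix (Fin 1) (Fin 1) ℂ) c (0 : Fin 1)).trans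
      (congrArg (x (Sum.inr a) (Sum.inl (0 : Fin 1)) (0 : Fin 1) * ·)
      (det_fin_one ((sndG _ _ g⁻¹ (Sum.inr a)).1 : Matrix (Fin 1) (Fin 1) ℂ)).symm)
  · rw [Sum.forall]
    have e : ∀ i, lat (laur (ψ x).1) i = la1 (lau fun k => G k i * T x i + B i k * U x i) :=
      fun i => congrArg la1 (laur_apply (ψ x).1 i)
    refine and_congr ⟨fun h i => (h3 i (T x i) (U x i)).1 ((e i).symm.trans (congrFun h i)),
      fun h => funext fun i => (e i).trans ((h3 i (T x i) (U x i)).2 (h i))⟩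
      (forall_congr' fun a => ?_)
    exact (congrArg (· ≠ 0)
      (det_fin_one ((x (Sum.inr a)).toRows₁ : Matrix (Fin 1) (Fin 1) ℂ))).to_iff.symm

section bundles

variable {Z : Type} [MulAction (GG (Q.nn Φ)) Z] {ℓ : Z → Q.Lat}
  (hℓ : ∀ (g : GG (Q.nn Φ)) z, ℓ (g • z) = g • ℓ z) (Z' : Type) [MulAction (GG (Q.nn Φ)) Z'] (m : ℕ)

/-- the inclusion of the open part -/
noncomputable def voE : VO ℓ hℓ Z' m →[GG (Sum.elim (Q.nn Φ) (Q.nn Φ))] VV ℓ hℓ Z' m where
  toFun x := x.1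
  map_smul' _ _ := rfl

theorem range_voE : range (voE hℓ Z' m) =
    {x | lat (laur x.1.2.1) = ℓ x.1.1.1 ∧ ∀ a, x.1.2.2 a ≠ 0} := Subtype.range_val

variable {m}

/-- the hypothesis `IndFib` of the induction isomorphism -/
theorem indFib_VV (hr : ∀ z, Quiv.Rel m χ (lat 1) (ℓ z)) (y : Pr (Q.nn Φ) (Q.nn Φ) Z Z') :
    ∃ (a : I ⊕ Φ → ℕ) (ψ : (∀ j, Matrix (Fin (Q.nn Φ j) ⊕ Fin (a j)) (Fin (Q.nn Φ j)) ℂ) →ₗ[ℂ]
      WW Q Φ m), Injective ψ ∧ (∀ w, (y, w) ∈ VV ℓ hℓ Z' m ↔ w ∈ range ψ) ∧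
      (∀ (g : GG (Sum.elim (Q.nn Φ) (Q.nn Φ))) x, fstG _ _ g = 1 →
        ψ (fun j => x j * ((sndG _ _ g)⁻¹ j : Matrix _ _ ℂ)) = g • ψ x) ∧
      ∀ x h, (⟨(y, ψ x), h⟩ : VV ℓ hℓ Z' m) ∈ range (voE hℓ Z' m) ↔
        ∀ j, (x j).toRows₁.det ≠ 0 := by
  obtain ⟨ψ, h1, h2, h3, h4⟩ := exists_paramV (Φ := Φ) (hr y.1)
  exact ⟨_, ψ, h1, h2, h3, fun x h => by rw [range_voE]; exact h4 x⟩

variable [TopologicalSpace Z] [TopologicalSpace Z'] (hc : Continuous ℓ)
  (hr : ∀ z, Quiv.Rel m χ (lat 1) (ℓ z))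
include hc hr

theorem isSubVB_VV : IsSubVB (VV ℓ hℓ Z' m) (rkV Q Φ m χ) := by
  refine ⟨isClosed_lat_le (X := (Z × Z') × WW Q Φ m) (ce_laur (continuous_fst.comp continuous_snd))
    (hc.comp (continuous_fst.comp continuous_fst)) fun x => Rel.qbd_one (hr _), fun y => ?_⟩
  obtain ⟨ψ, h1, h2, -⟩ := exists_paramV (Φ := Φ) (hr y.1)
  refine ⟨LinearMap.range ψ, ?_, h2⟩
  rw [LinearMap.finrank_range_of_inj h1]
  simp [rkV, Module.finrank_pi_fintype, Module.finrank_matrix]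

theorem isOpenEmbedding_voE : IsOpenEmbedding (voE hℓ Z' m) := by
  refine IsOpen.isOpenEmbedding_subtypeVal (s := {x : VV ℓ hℓ Z' m |
    lat (laur x.1.2.1) = ℓ x.1.1.1 ∧ ∀ a, x.1.2.2 a ≠ 0}) (IsOpen.inter ?_ ?_)
  · have h1 : Continuous fun x : VV ℓ hℓ Z' m => x.1.2.1 :=
      continuous_fst.comp (continuous_snd.comp continuous_subtype_val)
    have h2 : Continuous fun x : VV ℓ hℓ Z' m => ℓ x.1.1.1 :=
      hc.comp (continuous_fst.comp (continuous_fst.comp continuous_subtype_val))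
    exact isOpen_iff_mem_nhds.2 fun x hx => eventually_lat_eq (ce_laur h1) h2
      (fun x => Rel.qbd_one (hr _)) (fun x => x.2) hx
  · change IsOpen {x : VV ℓ hℓ Z' m | ∀ a, x.1.2.2 a ≠ 0}
    rw [setOf_forall]
    have h1 : Continuous fun x : VV ℓ hℓ Z' m => x.1.2.2 :=
      continuous_snd.comp (continuous_snd.comp continuous_subtype_val)
    exact isOpen_iInter_of_finite fun a => isOpen_ne_fun ((continuous_apply a).comp h1)
      continuous_const

theorem nice_VV [Nice Z] [Nice Z'] : Nice (VV ℓ hℓ Z' m) :=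
  Nice.of_isLocallyClosed (isSubVB_VV hℓ Z' hc hr).closed.isLocallyClosed

theorem nice_VO [Nice Z] [Nice Z'] : Nice (VO ℓ hℓ Z' m) :=
  haveI := nice_VV hℓ Z' hc hr
  Nice.of_open (isOpenEmbedding_voE hℓ Z' hc hr)

omit hc hr

instance [ContinuousSMul (GG (Q.nn Φ)) Z] [ContinuousSMul (GG (Q.nn Φ)) Z'] :
    ContinuousSMul (GG (Sum.elim (Q.nn Φ) (Q.nn Φ))) (VV ℓ hℓ Z' m) := inferInstance

instance [ContinuousSMul (GG (Q.nn Φ)) Z] [ContinuousSMul (GG (Q.nn Φ)) Z'] :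
    ContinuousSMul (GG (Sum.elim (Q.nn Φ) (Q.nn Φ))) (VO ℓ hℓ Z' m) :=
  ⟨(continuous_fst.smul (continuous_subtype_val.comp continuous_snd)).subtype_mk _⟩

variable {hℓ Z'}

theorem VO.isEmbedding_val : IsEmbedding fun x : VO ℓ hℓ Z' m => x.1.1 :=
  IsEmbedding.subtypeVal.comp IsEmbedding.subtypeVal

theorem VO.continuous_w : Continuous fun x : VO ℓ hℓ Z' m => x.1.1.2 :=
  continuous_snd.comp VO.isEmbedding_val.continuous

theorem VO.continuous_fst : Continuous fun x : VO ℓ hℓ Z' m => x.1.1.1.1 :=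
  _root_.continuous_fst.comp (_root_.continuous_fst.comp VO.isEmbedding_val.continuous)

theorem VO.continuous_snd : Continuous fun x : VO ℓ hℓ Z' m => x.1.1.1.2 :=
  _root_.continuous_snd.comp (_root_.continuous_fst.comp VO.isEmbedding_val.continuous)

end bundles

variable {Z' : Type} [MulAction (GG (Q.nn Φ)) Z'] [TopologicalSpace Z'] [Nice Z']

instance : Nice (VV (lt : A.RS n χ d → _) lt_smul Z' n) :=
  nice_VV _ _ continuous_lt fun x => x.2.1

instance : Nice (VO (lt : A.RS n χ d → _) lt_smul Z' n) :=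
  nice_VO _ _ continuous_lt fun x => x.2.1

instance : Nice (VV (lt₂ : A.R2 n χ n' χ' d → _) lt₂_smul Z' n) :=
  nice_VV _ _ continuous_lt₂ fun x => x.1.1.2.1

instance : Nice (VO (lt₂ : A.R2 n χ n' χ' d → _) lt₂_smul Z' n) :=
  nice_VO _ _ continuous_lt₂ fun x => x.1.1.2.1

theorem continuous_tr {X : Type*} [TopologicalSpace X] {w : X → WW Q Φ n} (hw : Continuous w)
    (h0 : ∀ x a, (w x).2 a ≠ 0)
    (hd : ∀ x i, (laur (w x).1 i).det ≠ 0 ∧ (laur (w x).1 i).det.order = χ i)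
    {s : X → ℕ → A.NN} (hs : ∀ k, Continuous fun x => s x k) (k : ℕ) :
    Continuous fun x => tr (w x) (h0 x) d (s x) k := by
  have h1 := ce_laur (continuous_fst.comp hw)
  have h2 : Continuous fun x => (fun a => Units.mk0 _ (h0 x a) : Φ → ℂˣ) :=
    continuous_pi fun a => Units.continuous_iff.2
      ⟨(continuous_apply a).comp (continuous_snd.comp hw),
        ((continuous_apply a).comp (continuous_snd.comp hw)).inv₀ fun x => h0 x a⟩
  have h3 := (CN.gauge (h1.inv hd) ((h1.inv hd).inv (c := -χ) fun x i =>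
    ⟨Lt.det_inv_ne (hd x i).1, (order_det_inv (hd x i).1).trans (congrArg _ (hd x i).2)⟩)
    (cn_poly d hs)).coef k
  exact A.continuous_rho.comp (h2.inv.prodMk h3)

theorem Vq.det (x : A.Vq n χ n' χ' d) (i : I) :
    (laur x.1.1.2.1 i).det ≠ 0 ∧ (laur x.1.1.2.1 i).det.order = χ i :=
  Rel.det x.1.1.1.1.1.1.2.1 x.2.1 i

theorem Vp.det (x : A.Vp n χ n' χ' d d') (i : I) :
    (laur x.1.1.2.1 i).det ≠ 0 ∧ (laur x.1.1.2.1 i).det.order = χ i :=
  Rel.det x.1.1.1.1.2.1 x.2.1 i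

variable (A)

theorem continuous_shift (hd : 2 * n' ≤ d') :
    Continuous (A.shift hd : A.Vq n χ n' χ' d → A.RS n' χ' d') := by
  refine RS.continuous_of (continuous_mulL ((ce_laur (continuous_fst.comp VO.continuous_w)).inv
    Vq.det) (c := -χ) (fun x i => ⟨Lt.det_inv_ne (Vq.det x i).1,
      (order_det_inv (Vq.det x i).1).trans (congrArg _ (Vq.det x i).2)⟩)
    (R2.continuous_snd.comp VO.continuous_fst) fun x => R2.qbd _) fun k => ?_
  change Continuous fun x : A.Vq n χ n' χ' d =>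
    if k < d' then tr x.1.1.2 x.2.2 d x.1.1.1.1.1.1.1.2 k else 0
  split_ifs
  · exact continuous_tr VO.continuous_w _ Vq.det
      (fun k => (RS.continuous_sec k).comp (R2.continuous_fst.comp VO.continuous_fst)) k
  · exact continuous_const

variable (n χ n' χ' d d')

/-- `sig` as an equivariant map -/
noncomputable def sigE : A.Vp n χ n' χ' d d' →[GG (Sum.elim (Q.nn Φ) (Q.nn Φ))]
    Snd (Q.nn Φ) (Q.nn Φ) (Fin d' → A.NN) where
  toFun := A.sig
  map_smul' := A.sig_smul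

theorem continuous_sigE : Continuous (A.sigE n χ n' χ' d d') :=
  haveI : IsTopologicalAddGroup A.NN := inferInstanceAs (IsTopologicalAddGroup (Q.N ℂ))
  continuous_pi fun k : Fin d' => (continuous_tr VO.continuous_w _ Vp.det
    (fun k => (RS.continuous_sec k).comp VO.continuous_fst) k).sub
    ((RS.continuous_sec k).comp VO.continuous_snd)

variable {n' d'}

/-- `iota` as an equivariant map -/
noncomputable def iotaE (hd : 2 * n' ≤ d') : A.Vq n χ n' χ' d →[GG (Sum.elim (Q.nn Φ) (Q.nn Φ))]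
    A.Vp n χ n' χ' d d' where
  toFun := A.iota hd
  map_smul' := A.iota_smul hd

theorem continuous_iotaE (hd : 2 * n' ≤ d') : Continuous (A.iotaE n χ χ' d hd) :=
  VO.isEmbedding_val.continuous_iff.2 (((R2.continuous_fst.comp VO.continuous_fst).prodMk
    (A.continuous_shift hd)).prodMk VO.continuous_w)

variable {A n χ χ' d} in
theorem pres_of_tr (hd : 2 * n' ≤ d') {g : Q.En KK} (hg : ∀ i, (g i).det ≠ 0) (f : Φ → ℂˣ)
    {x : Q.N KK} (hx : Pres (lat g) x) {L : Q.Lat} (hL : QBd n' L) {s : ℕ → Q.N ℂ}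
    (hs : ∀ k < d', s k = A.ρ f⁻¹ (coef (Q.gauge g⁻¹ x) k)) (h : Pres L (poly d' s)) :
    Pres (mulL g L) x := by
  have h1 := QL.Pres.gauge (det_inv_ne_zero hg) hx
  rw [mulL_lat, inv_mul_of_det hg, pres_one_iff] at h1
  have h2 := ord_sub_poly (ord_ext (A.ρ f⁻¹) h1) d'
  rw [poly_congr (d := d') (s' := s) fun k hk => by rw [if_pos hk, coef_ext, hs k hk]] at h2
  have h3 := (pres_congr hd hL h2).2 h
  obtain ⟨a, ha⟩ := hL.exists_laur
  rw [← ha] at h3
  have h4 := (comm_rho A f).pres (ha.symm ▸ hL : QBd n' (lat (laur a))).det_ne h3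
  rw [ha, ext_ext, ← Module.End.mul_eq_comp, ← map_mul, mul_inv_cancel, map_one,
    Module.End.one_eq_id, Lt.ext_id] at h4
  have h5 := QL.Pres.gauge hg h4
  rwa [← LinearMap.comp_apply (Q.gauge g), ← gauge_mul, mul_inv_of_det hg, gauge_one] at h5

theorem range_iotaE (hd : 2 * n' ≤ d') :
    range (A.iotaE n χ χ' d hd) = A.sigE n χ n' χ' d d' ⁻¹' {0} := by
  refine Subset.antisymm (range_subset_iff.2 fun x => funext fun k : Fin d' =>
    sub_eq_zero.2 (if_pos k.2).symm) fun y hy => ?_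
  have hg := fun i => (Vp.det y i).1
  have h1 : Quiv.Rel n' χ' y.1.1.1.1.1.1 (mulL (laur y.1.1.2.1) y.1.1.1.2.1.1) := by
    have := rel_mulL hg y.1.1.1.2.2.1
    rwa [mulL_lat, mul_one, y.2.1] at this
  have h2 : ∀ k < d', y.1.1.1.2.1.2 k = tr y.1.1.2 y.2.2 d y.1.1.1.1.1.2 k :=
    fun k hk => (sub_eq_zero.1 (congrFun hy ⟨k, hk⟩)).symm
  refine ⟨⟨⟨((⟨(y.1.1.1.1, mulL (laur y.1.1.2.1) y.1.1.1.2.1.1), h1, pres_of_tr hd hg _
    (y.2.1.symm ▸ y.1.1.1.1.2.2.2) (RS.qbd _) h2 y.1.1.1.2.2.2.2⟩, ()), y.1.1.2), y.1.2⟩, y.2⟩,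
    Subtype.ext (Subtype.ext (Prod.ext (Prod.ext rfl (RS.ext ?_ fun k hk => ?_)) rfl))⟩
  · exact (mulL_mul _ _ _).symm.trans ((congrArg (mulL · _) (inv_mul_of_det hg)).trans (mulL_one _))
  · exact (if_pos hk).trans (h2 k hk).symm

theorem isClosedEmbedding_iotaE (hd : 2 * n' ≤ d') : IsClosedEmbedding (A.iotaE n χ χ' d hd) := by
  haveI : T2Space (Snd (Q.nn Φ) (Q.nn Φ) (Fin d' → A.NN)) :=
    inferInstanceAs (T2Space (Fin d' → A.NN))
  refine ⟨?_, ?_⟩
  · let G : A.Vp n χ n' χ' d d' → ((A.RS n χ d × Q.Lat) × Unit) × WW Q Φ n := fun y =>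
      (((y.1.1.1.1, mulL (laur y.1.1.2.1) y.1.1.1.2.1.1), ()), y.1.1.2)
    have hG : Continuous G := ((VO.continuous_fst.prodMk (continuous_mulL
      (ce_laur (continuous_fst.comp VO.continuous_w)) Vp.det
      (RS.continuous_lat.comp VO.continuous_snd) fun x => RS.qbd _)).prodMk
        continuous_const).prodMk VO.continuous_w
    refine IsEmbedding.of_comp (A.continuous_iotaE n χ χ' d hd) hG ?_
    have e : G ∘ A.iotaE n χ χ' d hd = fun x => ((x.1.1.1.1.1, x.1.1.1.2), x.1.1.2) :=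
      funext fun x => Prod.ext (Prod.ext (Prod.ext rfl ((mulL_mul _ _ _).symm.trans
        ((congrArg (mulL · _) (mul_inv_of_det fun i => (Vq.det x i).1)).trans (mulL_one _)))) rfl)
        rfl
    rw [e]
    exact ((R2.isEmbedding_val.prodMap IsEmbedding.id).prodMap IsEmbedding.id).comp
      VO.isEmbedding_val
  · rw [range_iotaE]
    exact isClosed_singleton.preimage (A.continuous_sigE _ _ _ _ _ _)

end Flav

end Vale.Agent.P291Z
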