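import Vale.Agent.P291Z.Lat.L8

/-!
# The action of `G(O)` on the space of triples, charts of the cells
-/

set_option linter.all false

namespace Vale.Agent.P291Z

open Set Function Topology Filter Matrix Quiv QL Lt

attribute [local instance 2000] HahnSeries.instAlgebra

namespace Lt

variable {I E Φ : Type} [Fintype Φ] {Q : Quiv I E} {n d : ℕ} {χ : I → ℤ}

/-- elements of `G(O)` -/
def GO (g : Q.En KK) : Prop := ∀ i, GeM 0 (g i) ∧ (g i).det ≠ 0 ∧ (g i).det.order = 0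

theorem GO.det {g : Q.En KK} (h : GO g) (i : I) : (g i).det ≠ 0 := (h i).2.1

theorem GO.inv {g : Q.En KK} (h : GO g) : GO g⁻¹ := fun i =>
  ⟨(h i).1.inv (h i).2.1 (h i).2.2, det_inv_ne (h i).2.1,
    (order_det_inv (h i).2.1).trans (by rw [(h i).2.2, neg_zero])⟩

theorem GO.mul {g g' : Q.En KK} (h : GO g) (h' : GO g') : GO (g * g') := fun i =>
  ⟨(h i).1.mul (h' i).1, (order_det_mul (h i).2.1 (h' i).2.1).1,
    (order_det_mul (h i).2.1 (h' i).2.1).2.trans (by rw [(h i).2.2, (h' i).2.2, add_zero])⟩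

theorem go_one : GO (1 : Q.En KK) := fun _ => ⟨Iw.one.ge, Iw.one.det⟩

theorem go_cst (g : GG (Q.nn Φ)) : GO (cst (Flav.ga Q Φ g)) := fun i =>
  ⟨fun _ _ => ge_C _, det_cst_ga' g i⟩

theorem GO.mulL_one {g : Q.En KK} (h : GO g) : mulL g (lat 1) = lat 1 := funext fun i => by
  rw [mulL_apply, lat_one_apply, (h i).1.mu1_eq (h i).2.1 (h i).2.2]

theorem GO.rel {g : Q.En KK} (h : GO g) {L : Q.Lat} (hL : Quiv.Rel n χ (lat 1) L) :
    Quiv.Rel n χ (lat 1) (mulL g L) := by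
  have := rel_mulL h.det hL
  rwa [h.mulL_one] at this

theorem GO.qbd {g : Q.En KK} (h : GO g) {L : Q.Lat} (hL : QBd n L) : QBd n (mulL g L) :=
  Rel.qbd_one (h.rel (rel_one_iff.2 ⟨hL, fun _ => rfl⟩))

theorem GO.ge_gauge {g : Q.En KK} (h : GO g) {m : ℤ} {x : Q.N KK} (hx : ∀ c, Ge m (co x c)) :
    ∀ c, Ge m (co (Q.gauge g x) c)
  | Sum.inl ⟨e, a, b⟩ => by
    have h1 : GeM m (x.1 e) := fun a b => hx (Sum.inl ⟨e, a, b⟩)
    exact (((h _).1.mul h1).mul (h.inv _).1 a b).mono (by omega)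
  | Sum.inr ⟨i, a, b⟩ => by
    have h1 : GeM m (x.2 i) := fun a b => hx (Sum.inr ⟨i, a, b⟩)
    exact (h1.mul (h.inv _).1 a b).mono (by omega)

theorem gauge_gauge (g g' : Q.En KK) (x : Q.N KK) :
    Q.gauge g (Q.gauge g' x) = Q.gauge (g * g') x := by rw [gauge_mul]; rfl

/-- truncation modulo `t^d` -/
noncomputable def tc (d : ℕ) (x : Q.N KK) (k : ℕ) : Q.N ℂ := if k < d then coef x k else 0

theorem tc_of_lt (x : Q.N KK) {k : ℕ} (h : k < d) : tc d x k = coef x k := if_pos h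

theorem tc_of_le (x : Q.N KK) {k : ℕ} (h : d ≤ k) : tc d x k = 0 := if_neg (not_lt.2 h)

theorem ge_sub_tc {x : Q.N KK} (hx : ∀ c, Ge 0 (co x c)) (d : ℕ) (c : QL.Ix Q) :
    Ge d (co (x - poly d (tc d x)) c) := ord_sub_poly hx d c

theorem coef_congr {x y : Q.N KK} (h : ∀ c, Ge d (co (x - y) c)) {k : ℕ} (hk : k < d) :
    coef x k = coef y k := co_ext fun c => by
  have := h c k (by omega)
  rw [co_sub, HahnSeries.coeff_sub, sub_eq_zero] at this
  rw [co_coef, co_coef, this]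

theorem GO.coef_gauge_tc {g : Q.En KK} (h : GO g) {x : Q.N KK} (hx : ∀ c, Ge 0 (co x c)) {k : ℕ}
    (hk : k < d) : coef (Q.gauge g (poly d (tc d x))) k = coef (Q.gauge g x) k :=
  (coef_congr (fun c => by rw [← map_sub]; exact h.ge_gauge (ge_sub_tc hx d) c) hk).symm

/-! ### cells in the affine Grassmannian -/

/-- the coordinates of the cell of `μ` -/
abbrev CIQ (μ : Col Q → ℤ) : Type := Σ i, CI fun a => μ ⟨i, a⟩

/-- the element of the Iwahori group with given coordinates -/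
noncomputable def iwQ (μ : Col Q → ℤ) (c : CIQ μ → ℂ) : Q.En KK :=
  fun i => iw _ fun x => c ⟨i, x⟩

/-- the point of the cell with given coordinates -/
noncomputable def cellQ (μ : Col Q → ℤ) (c : CIQ μ → ℂ) : Q.Lat := mulL (iwQ μ c) (Lmu μ)

/-- the coordinates of a point of a cell -/
noncomputable def coordQ (μ : Col Q → ℤ) (L : Q.Lat) : CIQ μ → ℂ :=
  fun x => coord1 _ (L x.1) x.2

variable {μ : Col Q → ℤ}

theorem go_iwQ (c : CIQ μ → ℂ) : GO (iwQ μ c) := fun _ => ⟨(iw_iw _ _).ge, (iw_iw _ _).det⟩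

theorem iwQ_zero : iwQ μ 0 = 1 := funext fun _ => iw_zero _

theorem cellQ_zero : cellQ μ 0 = Lmu μ := funext fun _ => cell1_zero _

theorem lam_cellQ (c : CIQ μ → ℂ) : lam (cellQ μ c) = μ :=
  funext fun x => congrFun (lam1_cell1 _ _) x.2

theorem coordQ_cellQ (c : CIQ μ → ℂ) : coordQ μ (cellQ μ c) = c :=
  funext fun x => congrFun (coord1_cell1 _ fun y => c ⟨x.1, y⟩) x.2

theorem coordQ_Lmu : coordQ μ (Lmu μ) = 0 := by rw [← cellQ_zero, coordQ_cellQ]

theorem cellQ_injective : Injective (cellQ μ) := LeftInverse.injective coordQ_cellQ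

theorem QBd.cellQ_coordQ {L : Q.Lat} (h : QBd n L) (hl : lam L = μ) : cellQ μ (coordQ μ L) = L :=
  funext fun i => (h i).cell1_coord1 (funext fun a => congrFun hl ⟨i, a⟩)

theorem qbd_cellQ (h : ∀ c, |μ c| ≤ n) (c : CIQ μ → ℂ) : QBd n (cellQ μ c) :=
  (go_iwQ c).qbd (qbd_Lmu.2 h)

theorem rel_cellQ (h : μ ∈ Box Q n χ) (c : CIQ μ → ℂ) : Quiv.Rel n χ (lat 1) (cellQ μ c) :=
  (go_iwQ c).rel (rel_one_Lmu.2 h)

section fam

variable {X : Type*} [TopologicalSpace X]

theorem ce_iwQ {c : X → CIQ μ → ℂ} (hc : Continuous c) : CE fun x => iwQ μ (c x) :=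
  fun i => cm_iw _ (continuous_pi fun y => (continuous_apply (⟨i, y⟩ : CIQ μ)).comp hc)

theorem continuous_cellQ : Continuous (cellQ μ) := continuous_lat_iff.2 fun i =>
  cl_cell1 _ (continuous_pi fun y => continuous_apply (⟨i, y⟩ : CIQ μ))

theorem continuous_coordQ {ℓ : X → Q.Lat} (h : Continuous ℓ) (hb : ∀ x, QBd n (ℓ x))
    (hl : ∀ x, lam (ℓ x) = μ) : Continuous fun x => coordQ μ (ℓ x) :=
  continuous_pi fun y => (continuous_apply y.2).comp ((cl_of h y.1).coord1 (fun x => hb x y.1)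
    fun x => funext fun a => congrFun (hl x) ⟨y.1, a⟩)

theorem CE.inv_go {g : X → Q.En KK} (hg : CE g) (h : ∀ x, GO (g x)) : CE fun x => (g x)⁻¹ :=
  hg.inv (c := 0) fun x i => (h x i).2

end fam

section torus

variable [Fintype I]

/-- the action of the torus on the coordinates of a cell -/
noncomputable def twc (t : Tc (Q.nn Φ)) (c : CIQ μ → ℂ) : CIQ μ → ℂ :=
  fun x => tau t ⟨x.1, x.2.1.1⟩ * (tau t ⟨x.1, x.2.1.2⟩)⁻¹ * c x

theorem cst_mul_iwQ (t : Tc (Q.nn Φ)) (c : CIQ μ → ℂ) :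
    cst (Flav.ga Q Φ (toG _ t)) * iwQ μ c = iwQ μ (twc t c) * cst (Flav.ga Q Φ (toG _ t)) :=
  funext fun i => cd_mul_iw (fun a => tau_ne t ⟨i, a⟩) _ _

theorem toG_smul_cellQ (t : Tc (Q.nn Φ)) (c : CIQ μ → ℂ) :
    toG _ t • cellQ μ c = cellQ μ (twc t c) :=
  funext fun i => mu1_cd_cell1 (fun a => tau_ne t ⟨i, a⟩) _ _

theorem QBd.coordQ_toG {L : Q.Lat} (h : QBd n L) (hl : lam L = μ) (t : Tc (Q.nn Φ)) :
    coordQ μ (toG _ t • L) = twc t (coordQ μ L) := by
  conv_lhs => rw [← h.cellQ_coordQ hl]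
  rw [toG_smul_cellQ, coordQ_cellQ]

end torus

end Lt

namespace Flav

variable {I E Φ : Type} {Q : Quiv I E} [Fintype Φ] [Fintype I] [Fintype E] {A : Flav Q Φ}
  {n : ℕ} {χ : I → ℤ} {d : ℕ} (hd : 2 * n ≤ d)

/-- the action of `G(O)` on the space of triples -/
noncomputable def gact (g : Q.En KK) (hg : GO g) (x : A.RS n χ d) : A.RS n χ d :=
  ⟨(mulL g x.1.1, tc d (Q.gauge g (poly d x.1.2))), hg.rel x.2.1, fun _ hk => tc_of_le _ hk,
    (pres_congr hd (hg.qbd (RS.qbd x)) (ge_sub_tc (hg.ge_gauge (ge_co_poly d _)) d)).1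
      (QL.Pres.gauge hg.det x.2.2.2)⟩

theorem gact_lat {g : Q.En KK} (hg : GO g) (x : A.RS n χ d) :
    (gact hd g hg x).1.1 = mulL g x.1.1 := rfl

theorem gact_sec {g : Q.En KK} (hg : GO g) (x : A.RS n χ d) :
    (gact hd g hg x).1.2 = tc d (Q.gauge g (poly d x.1.2)) := rfl

theorem gact_gact {g g' : Q.En KK} (hg : GO g) (hg' : GO g') (x : A.RS n χ d) :
    gact hd g hg (gact hd g' hg' x) = gact hd (g * g') (hg.mul hg') x :=
  RS.ext (mulL_mul _ _ _).symm fun k hk => (tc_of_lt _ hk).trans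
    ((hg.coef_gauge_tc (hg'.ge_gauge (ge_co_poly d _)) hk).trans
      ((congrArg (coef · k) (gauge_gauge _ _ _)).trans (tc_of_lt _ hk).symm))

theorem gact_of_eq_one {g : Q.En KK} (hg : GO g) (h : g = 1) (x : A.RS n χ d) :
    gact hd g hg x = x := by
  subst h
  exact RS.ext (mulL_one _) fun k hk => by
    rw [gact_sec, tc_of_lt _ hk, gauge_one, LinearMap.id_apply]
    exact (coef_poly _ _ _).trans (if_pos hk)

theorem gact_inv_gact {g : Q.En KK} (hg : GO g) (x : A.RS n χ d) :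
    gact hd g⁻¹ hg.inv (gact hd g hg x) = x := by
  rw [gact_gact, gact_of_eq_one hd _ (inv_mul_of_det hg.det)]

theorem gact_gact_inv {g : Q.En KK} (hg : GO g) (x : A.RS n χ d) :
    gact hd g hg (gact hd g⁻¹ hg.inv x) = x := by
  rw [gact_gact, gact_of_eq_one hd _ (mul_inv_of_det hg.det)]

theorem continuous_gact {X : Type*} [TopologicalSpace X] {g : X → Q.En KK} (hg : CE g)
    (h : ∀ x, GO (g x)) {f : X → A.RS n χ d} (hf : Continuous f) :
    Continuous fun x => gact hd (g x) (h x) (f x) := by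
  refine RS.continuous_of (continuous_mulL hg (c := 0) (fun x i => (h x i).2)
    (RS.continuous_lat.comp hf) fun x => RS.qbd _) fun k => ?_
  simp only [gact_sec, tc]
  split_ifs
  · exact (CN.gauge hg (hg.inv_go h) (cn_poly d fun k => (RS.continuous_sec k).comp hf)).coef k
  · exact continuous_const

theorem smul_gact {g g' : Q.En KK} (hg : GO g) (hg' : GO g') (h : GG (Q.nn Φ))
    (e : cst (ga Q Φ h) * g = g' * cst (ga Q Φ h)) (x : A.RS n χ d) :
    h • gact hd g hg x = gact hd g' hg' (h • x) := by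
  refine RS.ext ((mulL_mul _ _ _).symm.trans ((congrArg (mulL · _) e).trans (mulL_mul _ _ _)))
    fun k hk => ?_
  have key : ∀ s : ℕ → Q.N ℂ, A.rep h (tc d (Q.gauge g (poly d s)) k) =
      tc d (Q.gauge g' (poly d fun k => A.rep h (s k))) k := fun s => by
    rw [tc_of_lt _ hk, tc_of_lt _ hk, poly_rep, gauge_gauge, ← e, ← gauge_gauge,
      ← (comm_rho A _).ext_gauge fun i => (hg.det i).isUnit, ← ext_gauge_cst (isUnit_det_ga _),
      coef_ext, coef_ext]
    rfl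
  exact key x.1.2

variable (A n χ d) in
/-- the fibre over `t^μ` -/
abbrev Fib (μ : Col Q → ℤ) : Type := {x : A.RS n χ d // x.1.1 = Lmu μ}

variable {μ : Col Q → ℤ}

/-- the chart of the cell of `μ` -/
noncomputable def chart (y : (CIQ μ → ℂ) × A.Fib n χ d μ) : A.RS n χ d :=
  gact hd (iwQ μ y.1) (go_iwQ _) y.2.1

theorem chart_lat (y : (CIQ μ → ℂ) × A.Fib n χ d μ) : (chart hd y).1.1 = cellQ μ y.1 :=
  congrArg (mulL _) y.2.2

theorem chart_zero (y : A.Fib n χ d μ) : chart hd (0, y) = y.1 :=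
  gact_of_eq_one hd _ iwQ_zero _

theorem continuous_chart : Continuous (chart hd : _ × A.Fib n χ d μ → _) :=
  continuous_gact hd (ce_iwQ continuous_fst) _ (continuous_subtype_val.comp continuous_snd)

/-- the inverse of the chart -/
noncomputable def unchart (x : {x : A.RS n χ d // lam x.1.1 = μ}) :
    (CIQ μ → ℂ) × A.Fib n χ d μ :=
  (coordQ μ x.1.1.1, ⟨gact hd (iwQ μ (coordQ μ x.1.1.1))⁻¹ (go_iwQ _).inv x.1, by
    rw [gact_lat]
    conv_lhs => rw [← (RS.qbd x.1).cellQ_coordQ x.2, coordQ_cellQ, cellQ, ← mulL_mul,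
      inv_mul_of_det (go_iwQ _).det, mulL_one]⟩)

theorem lam_chart (y : (CIQ μ → ℂ) × A.Fib n χ d μ) : lam (chart hd y).1.1 = μ := by
  rw [chart_lat, lam_cellQ]

theorem chart_unchart (x : {x : A.RS n χ d // lam x.1.1 = μ}) : chart hd (unchart hd x) = x.1 :=
  gact_gact_inv hd _ _

theorem unchart_chart (y : (CIQ μ → ℂ) × A.Fib n χ d μ) :
    unchart hd ⟨chart hd y, lam_chart hd y⟩ = y := by
  have e : coordQ μ (chart hd y).1.1 = y.1 := by rw [chart_lat, coordQ_cellQ]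
  refine Prod.ext e (Subtype.ext ?_)
  have key : ∀ c, c = y.1 → gact hd (iwQ μ c)⁻¹ (go_iwQ c).inv (chart hd y) = y.2.1 := by
    rintro _ rfl
    exact gact_inv_gact hd _ _
  exact key _ e

theorem continuous_unchart : Continuous (unchart hd : _ → _ × A.Fib n χ d μ) := by
  have h : Continuous fun x : {x : A.RS n χ d // lam x.1.1 = μ} => coordQ μ x.1.1.1 :=
    continuous_coordQ (RS.continuous_lat.comp continuous_subtype_val) (fun x => RS.qbd _)
      fun x => x.2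
  exact h.prodMk ((continuous_gact hd ((ce_iwQ h).inv_go fun _ => go_iwQ _) _
    continuous_subtype_val).subtype_mk _)

/-- the cell of `μ` is the product of an affine space and the fibre over `t^μ` -/
noncomputable def chartH :
    ((CIQ μ → ℂ) × A.Fib n χ d μ) ≃ₜ {x : A.RS n χ d // lam x.1.1 = μ} where
  toFun y := ⟨chart hd y, lam_chart hd y⟩
  invFun := unchart hd
  left_inv := unchart_chart hd
  right_inv x := Subtype.ext (chart_unchart hd x)
  continuous_toFun := (continuous_chart hd).subtype_mk _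
  continuous_invFun := continuous_unchart hd

theorem isEmbedding_chart : IsEmbedding (chart hd : _ × A.Fib n χ d μ → _) :=
  IsEmbedding.subtypeVal.comp (chartH hd).isEmbedding

theorem range_chart : range (chart hd : _ × A.Fib n χ d μ → _) = {x | lam x.1.1 = μ} :=
  Subset.antisymm (range_subset_iff.2 (lam_chart hd)) fun x hx => ⟨_, chart_unchart hd ⟨x, hx⟩⟩

omit hd in
theorem Fib.smul_mem (t : Tc (Q.nn Φ)) (y : A.Fib n χ d μ) : (toG _ t • y.1).1.1 = Lmu μ :=
  (congrArg (toG _ t • ·) y.2).trans (toG_smul_Lmu t μ)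

theorem toG_smul_chart (t : Tc (Q.nn Φ)) (y : (CIQ μ → ℂ) × A.Fib n χ d μ) :
    toG _ t • chart hd y = chart hd (twc t y.1, ⟨toG _ t • y.2.1, Fib.smul_mem t y.2⟩) :=
  smul_gact hd _ _ _ (cst_mul_iwQ t y.1) _

omit hd

theorem poly_add (s s' : ℕ → Q.N ℂ) : poly d (s + s') = poly d s + poly d s' :=
  co_ext fun c => HahnSeries.ext (funext fun k => by
    rw [co_add, HahnSeries.coeff_add, coeff_co_poly, coeff_co_poly, coeff_co_poly,
      ← Finset.sum_add_distrib]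
    refine Finset.sum_congr rfl fun j _ => ?_
    split_ifs
    exacts [co_add _ _ _, (add_zero _).symm])

variable (A d) in
/-- the fibre over `t^μ` as a vector space -/
noncomputable def Nmu (μ : Col Q → ℤ) : Submodule ℂ (Fin d → A.NN) where
  carrier := {s | ∀ c (k : Fin d), (k : ℕ) < exN μ c → co (R := ℂ) (s k) c = 0}
  zero_mem' c _ _ := co_zero c
  add_mem' h h' c k hk := (co_add _ _ _).trans (by rw [h c k hk, h' c k hk, add_zero])
  smul_mem' a _ h c k hk := (co_smul _ _ _).trans (by rw [h c k hk, mul_zero])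

theorem mem_Nmu {s : Fin d → A.NN} : s ∈ A.Nmu d μ ↔ Pres (Lmu μ) (poly d (ex0 s)) := by
  refine Iff.trans ?_ pres_Lmu_poly.symm
  exact forall_congr' fun c => ⟨fun h k hk h1 => (congrArg (co · c) (dif_pos hk)).trans
    (h ⟨k, hk⟩ h1), fun h k h1 => (congrArg (co · c) (dif_pos k.2)).symm.trans (h k k.2 h1)⟩

theorem mem_Nmu' {φ : Q.N ℂ ≃ₗ[ℂ] Q.N ℂ} (hφ : Comm φ.toLinearMap) {s : Fin d → A.NN} :
    s ∈ A.Nmu d μ ↔ ∀ c (k : Fin d), (k : ℕ) < exN μ c → co (φ.symm (s k)) c = 0 := by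
  refine mem_Nmu.trans ((pres_Lmu_poly' hφ).trans ?_)
  exact forall_congr' fun c => ⟨fun h k h1 =>
    (congrArg (fun y => co (φ.symm y) c) (dif_pos k.2)).symm.trans (h k k.2 h1),
    fun h k hk h1 => (congrArg (fun y => co (φ.symm y) c) (dif_pos hk)).trans (h ⟨k, hk⟩ h1)⟩

theorem ex0_smul (g : GG (Q.nn Φ)) (s : Fin d → A.NN) : ex0 (g • s) = g • ex0 s :=
  funext fun k => by
    change (if h : k < d then g • s ⟨k, h⟩ else 0) = g • (if h : k < d then s ⟨k, h⟩ else 0)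
    split_ifs
    exacts [rfl, (smul_zero g).symm]

theorem Nmu.smul_mem (t : Tc (Q.nn Φ)) {s : Fin d → A.NN} (h : s ∈ A.Nmu d μ) :
    toG _ t • s ∈ A.Nmu d μ := by
  obtain ⟨m, hm⟩ := exists_qbd_Lmu μ
  have := A.Pres_smul (toG _ t) (rel_one_iff.2 ⟨hm, fun _ => rfl⟩) (mem_Nmu.1 h)
  rwa [toG_smul_Lmu, ← ex0_smul, ← mem_Nmu] at this

/-- the inclusion of the fibre -/
noncomputable def fibE (hμ : μ ∈ Box Q n χ) (s : A.Nmu d μ) : A.RS n χ d :=
  ⟨(Lmu μ, ex0 s.1), rel_one_Lmu.2 hμ, fun _ hk => dif_neg (not_lt.2 hk), mem_Nmu.1 s.2⟩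

theorem fibE_sec (hμ : μ ∈ Box Q n χ) (s : A.Nmu d μ) (k : Fin d) : (fibE hμ s).1.2 k = s.1 k :=
  dif_pos k.2

theorem Fib.mem (y : A.Fib n χ d μ) : (fun k : Fin d => y.1.1.2 k) ∈ A.Nmu d μ := by
  rw [mem_Nmu, RS.ex0_eq]
  exact (congrArg (Pres · _) y.2).mp y.1.2.2.2

/-- the fibre over `t^μ` -/
noncomputable def fibH (hμ : μ ∈ Box Q n χ) : A.Nmu d μ ≃ₜ A.Fib n χ d μ where
  toFun s := ⟨fibE hμ s, rfl⟩
  invFun y := ⟨_, Fib.mem y⟩
  left_inv s := Subtype.ext (funext (fibE_sec hμ s))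
  right_inv y := Subtype.ext (RS.ext y.2.symm fun _ hk => dif_pos hk)
  continuous_toFun := (RS.continuous_of (f := fibE hμ) continuous_const fun k =>
    (continuous_ex0 k).comp continuous_subtype_val).subtype_mk _
  continuous_invFun := (continuous_pi fun k : Fin d =>
    (RS.continuous_sec k).comp continuous_subtype_val).subtype_mk _

theorem range_fibE (hμ : μ ∈ Box Q n χ) :
    range (fibE hμ : A.Nmu d μ → _) = {x | x.1.1 = Lmu μ} :=
  Subset.antisymm (range_subset_iff.2 fun _ => rfl) fun x hx =>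
    ⟨_, congrArg Subtype.val ((fibH hμ).right_inv ⟨x, hx⟩)⟩

theorem isClosedEmbedding_fibE (hμ : μ ∈ Box Q n χ) :
    IsClosedEmbedding (fibE hμ : A.Nmu d μ → _) :=
  (isClosed_Lmu RS.continuous_lat RS.qbd μ).isClosedEmbedding_subtypeVal.comp
    (fibH hμ).isClosedEmbedding

theorem toG_smul_fibE (hμ : μ ∈ Box Q n χ) (t : Tc (Q.nn Φ)) (s : A.Nmu d μ) :
    toG _ t • fibE hμ s = fibE hμ ⟨toG _ t • s.1, Nmu.smul_mem t s.2⟩ :=
  Subtype.ext (Prod.ext (toG_smul_Lmu t μ) (ex0_smul _ _).symm)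

/-- the chart of the cell of `μ` with source a vector space -/
noncomputable def chartN (hd : 2 * n ≤ d) (hμ : μ ∈ Box Q n χ) (y : (CIQ μ → ℂ) × A.Nmu d μ) :
    A.RS n χ d := chart hd (y.1, fibH hμ y.2)

variable (hd : 2 * n ≤ d) (hμ : μ ∈ Box Q n χ)

theorem chartN_lat (y : (CIQ μ → ℂ) × A.Nmu d μ) : (chartN hd hμ y).1.1 = cellQ μ y.1 := rfl

theorem chartN_zero (s : A.Nmu d μ) : chartN hd hμ (0, s) = fibE hμ s := chart_zero hd _

theorem isEmbedding_chartN : IsEmbedding (chartN hd hμ : _ × A.Nmu d μ → _) :=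
  (isEmbedding_chart hd).comp (IsEmbedding.id.prodMap (fibH hμ).isEmbedding)

theorem range_chartN : range (chartN hd hμ : _ × A.Nmu d μ → _) = {x | lam x.1.1 = μ} :=
  ((surjective_id.prodMap (fibH hμ).surjective).range_comp (chart hd)).trans (range_chart hd)

theorem toG_smul_chartN (t : Tc (Q.nn Φ)) (y : (CIQ μ → ℂ) × A.Nmu d μ) :
    toG _ t • chartN hd hμ y = chartN hd hμ (twc t y.1, ⟨toG _ t • y.2.1, Nmu.smul_mem t y.2.2⟩) :=
  (toG_smul_chart hd t _).trans (congrArg (fun z => chart hd (twc t y.1, z))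
    (Subtype.ext (toG_smul_fibE hμ t y.2)))

end Flav

end Vale.Agent.P291Z
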