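import Vale.Agent.P291Z.Coul0

/-!
# Laurent series: lower bounds for the exponents, families with continuous coefficients
-/

set_option linter.all false

namespace Vale.Agent.P291Z.Lt

open Set Function Topology Filter

/-- All exponents of `f` are at least `m`. -/
def Ge (m : ℤ) (f : KK) : Prop := ∀ k < m, f.coeff k = 0

theorem Ge.mono {m m' : ℤ} {f : KK} (h : Ge m f) (hm : m' ≤ m) : Ge m' f :=
  fun k hk => h k (hk.trans_le hm)

theorem Ge.zero (m : ℤ) : Ge m 0 := fun _ _ => rfl

theorem Ge.add {m : ℤ} {f g : KK} (hf : Ge m f) (hg : Ge m g) : Ge m (f + g) := fun k hk => by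
  rw [HahnSeries.coeff_add, hf k hk, hg k hk, add_zero]

theorem Ge.neg {m : ℤ} {f : KK} (hf : Ge m f) : Ge m (-f) := fun k hk => by
  rw [HahnSeries.coeff_neg, hf k hk, neg_zero]

theorem Ge.sub {m : ℤ} {f g : KK} (hf : Ge m f) (hg : Ge m g) : Ge m (f - g) := fun k hk => by
  rw [HahnSeries.coeff_sub, hf k hk, hg k hk, sub_zero]

theorem Ge.smul {m : ℤ} {f : KK} (hf : Ge m f) (c : ℂ) : Ge m (c • f) := fun k hk => by
  rw [HahnSeries.coeff_smul, hf k hk, smul_zero]

theorem Ge.sum {ι : Type*} {m : ℤ} {s : Finset ι} {f : ι → KK} (h : ∀ i ∈ s, Ge m (f i)) :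
    Ge m (∑ i ∈ s, f i) :=
  Finset.sum_induction f (Ge m) (fun _ _ => Ge.add) (Ge.zero m) h

theorem ge_order (f : KK) : Ge f.order f := fun _ hk => HahnSeries.coeff_eq_zero_of_lt_order hk

theorem Ge.le_order {m : ℤ} {f : KK} (h : Ge m f) (hf : f ≠ 0) : m ≤ f.order :=
  (HahnSeries.le_order_iff_forall hf).2 h

theorem order_eq_of_ge {m : ℤ} {f : KK} (h : Ge m f) (h0 : f.coeff m ≠ 0) :
    f ≠ 0 ∧ f.order = m := by
  have hf : f ≠ 0 := fun e => h0 (by rw [e]; rfl)
  exact ⟨hf, le_antisymm (HahnSeries.order_le_of_coeff_ne_zero h0) (h.le_order hf)⟩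

theorem coeff_mul_of_ge {a b : ℤ} {f g : KK} (hf : Ge a f) (hg : Ge b g) (k : ℤ) :
    (f * g).coeff k = ∑ j ∈ Finset.Icc a (k - b), f.coeff j * g.coeff (k - j) := by
  rw [HahnSeries.coeff_mul]
  refine Finset.sum_bij_ne_zero (fun p _ _ => p.1) ?_ ?_ ?_ ?_
  · intro p hp h0
    obtain ⟨h1, h2, h3⟩ := Finset.mem_addAntidiagonal.1 hp
    have h4 : ¬ p.1 < a := fun h => h1 (hf _ h)
    have h5 : ¬ p.2 < b := fun h => h2 (hg _ h)
    rw [Finset.mem_Icc]; omega
  · intro p hp _ q hq _ e
    obtain ⟨-, -, h3⟩ := Finset.mem_addAntidiagonal.1 hp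
    obtain ⟨-, -, h4⟩ := Finset.mem_addAntidiagonal.1 hq
    exact Prod.ext e (by omega)
  · intro j _ h0
    refine ⟨(j, k - j), Finset.mem_addAntidiagonal.2 ⟨left_ne_zero_of_mul h0,
      right_ne_zero_of_mul h0, by simp⟩, h0, rfl⟩
  · intro p hp _
    obtain ⟨-, -, h3⟩ := Finset.mem_addAntidiagonal.1 hp
    rw [show k - p.1 = p.2 by omega]

theorem Ge.mul {a b : ℤ} {f g : KK} (hf : Ge a f) (hg : Ge b g) : Ge (a + b) (f * g) :=
  fun k hk => by
    rw [coeff_mul_of_ge hf hg, Finset.Icc_eq_empty (by omega), Finset.sum_empty]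

theorem coeff_mul_lowest {a b : ℤ} {f g : KK} (hf : Ge a f) (hg : Ge b g) :
    (f * g).coeff (a + b) = f.coeff a * g.coeff b := by
  rw [coeff_mul_of_ge hf hg, add_sub_cancel_right, Finset.Icc_self, Finset.sum_singleton,
    add_sub_cancel_left]

theorem coeff_tp (k j : ℤ) : (tp k).coeff j = if j = k then 1 else 0 := by
  rw [tp, HahnSeries.coeff_single]
  split_ifs <;> rfl

theorem coeff_tp_mul (k : ℤ) (f : KK) (j : ℤ) : (tp k * f).coeff j = f.coeff (j - k) := by
  rw [tp, HahnSeries.coeff_single_mul, one_mul]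

theorem coeff_mul_tp (k : ℤ) (f : KK) (j : ℤ) : (f * tp k).coeff j = f.coeff (j - k) := by
  rw [mul_comm, coeff_tp_mul]

theorem tp_add (k l : ℤ) : tp (k + l) = tp k * tp l := by
  rw [tp, tp, tp, HahnSeries.single_mul_single, one_mul]

theorem tp_zero : tp 0 = 1 := rfl

theorem tp_mul_neg (k : ℤ) : tp k * tp (-k) = 1 := by rw [← tp_add, add_neg_cancel, tp_zero]

theorem tp_neg_mul (k : ℤ) : tp (-k) * tp k = 1 := by rw [mul_comm, tp_mul_neg]

theorem tp_ne_zero (k : ℤ) : tp k ≠ 0 := left_ne_zero_of_mul_eq_one (tp_mul_neg k)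

theorem tp_inv (k : ℤ) : (tp k)⁻¹ = tp (-k) := inv_eq_of_mul_eq_one_right (tp_mul_neg k)

theorem order_tp (k : ℤ) : (tp k).order = k := HahnSeries.order_single one_ne_zero

theorem ge_tp (k : ℤ) : Ge k (tp k) := fun j hj => by rw [coeff_tp, if_neg hj.ne]

theorem ge_one : Ge 0 1 := ge_tp 0

theorem coeff_C (c : ℂ) (j : ℤ) : (HahnSeries.C c : KK).coeff j = if j = 0 then c else 0 := by
  rw [HahnSeries.C_apply, HahnSeries.coeff_single]
  split_ifs <;> rfl

theorem ge_C (c : ℂ) : Ge 0 (HahnSeries.C c) := fun j hj => by rw [coeff_C, if_neg hj.ne]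

theorem coeff_C_mul (c : ℂ) (f : KK) (j : ℤ) : (HahnSeries.C c * f).coeff j = c * f.coeff j := by
  rw [HahnSeries.C_mul_eq_smul, HahnSeries.coeff_smul, smul_eq_mul]

theorem Ge.tp_mul {m : ℤ} {f : KK} (hf : Ge m f) (k : ℤ) : Ge (k + m) (tp k * f) :=
  (ge_tp k).mul hf

theorem ge_tp_mul_iff {m k : ℤ} {f : KK} : Ge m (tp k * f) ↔ Ge (m - k) f :=
  ⟨fun h j hj => by
    have := h (j + k) (by omega)
    rwa [coeff_tp_mul, add_sub_cancel_right] at this,
  fun h => by simpa using h.tp_mul k⟩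

theorem Ge.prod {ι : Type*} {s : Finset ι} {f : ι → KK} {m : ι → ℤ} (h : ∀ i ∈ s, Ge (m i) (f i)) :
    Ge (∑ i ∈ s, m i) (∏ i ∈ s, f i) := by
  classical
  induction s using Finset.induction_on with
  | empty => simpa using ge_one
  | insert a s ha ih =>
    rw [Finset.sum_insert ha, Finset.prod_insert ha]
    exact (h a (Finset.mem_insert_self _ _)).mul (ih fun i hi => h i (Finset.mem_insert_of_mem hi))

theorem osmul (f : OO) (y : KK) : f • y = algebraMap OO KK f * y := Algebra.smul_def f y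

theorem ge_coe (f : OO) : Ge 0 (algebraMap OO KK f) := fun j hj => by
  have := PowerSeries.coeff_coe f j
  rw [if_pos hj] at this
  exact this

theorem coeff_coe_nat (f : OO) (j : ℕ) :
    (algebraMap OO KK f).coeff j = PowerSeries.coeff j f :=
  LaurentSeries.coeff_coe_powerSeries f j

theorem Ge.exists_coe {y : KK} (h : Ge 0 y) : ∃ f : OO, algebraMap OO KK f = y := by
  refine ⟨PowerSeries.mk fun j => y.coeff j, HahnSeries.ext (funext fun j => ?_)⟩
  rcases lt_or_ge j 0 with hj | hj
  · rw [ge_coe _ j hj, h j hj]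
  · lift j to ℕ using hj
    rw [coeff_coe_nat, PowerSeries.coeff_mk]

theorem Ge.osmul {m : ℤ} {y : KK} (h : Ge m y) (f : OO) : Ge m (f • y) := by
  rw [Lt.osmul]; simpa using (ge_coe f).mul h

theorem coe_X : algebraMap OO KK PowerSeries.X = tp 1 := PowerSeries.coe_X

theorem coe_C (c : ℂ) : algebraMap OO KK (PowerSeries.C c) = HahnSeries.C c := PowerSeries.coe_C c

theorem C_smul (c : ℂ) (y : KK) : (PowerSeries.C c : OO) • y = c • y := by
  rw [osmul, coe_C, HahnSeries.C_mul_eq_smul]

theorem c_add_smul (a b : ℂ) (y : KK) : (a + b) • y = a • y + b • y := add_smul a b y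

theorem o_add_smul (a b : OO) (y : KK) : (a + b) • y = a • y + b • y := add_smul a b y

theorem o_mul_smul (a b : OO) (y : KK) : (a * b) • y = a • b • y := mul_smul a b y

/-- The part of `f` with exponents at least `m`. -/
noncomputable def hi (m : ℤ) (f : KK) : KK :=
  HahnSeries.ofSuppBddBelow (fun k => if m ≤ k then f.coeff k else 0)
    ⟨m, fun k hk => by_contra fun h => hk (if_neg h)⟩

theorem coeff_hi (m : ℤ) (f : KK) (k : ℤ) : (hi m f).coeff k = if m ≤ k then f.coeff k else 0 :=
  rfl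

theorem ge_hi (m : ℤ) (f : KK) : Ge m (hi m f) := fun k hk => by
  rw [coeff_hi, if_neg (not_le.2 hk)]

/-! ### families -/

section fam

variable {X Y : Type*} [TopologicalSpace X] [TopologicalSpace Y]

/-- A family of Laurent series with uniformly bounded poles and continuous coefficients. -/
def CW (f : X → KK) : Prop := (∃ m, ∀ x, Ge m (f x)) ∧ ∀ k, Continuous fun x => (f x).coeff k

theorem CW.comp {f : X → KK} (hf : CW f) {g : Y → X} (hg : Continuous g) : CW fun y => f (g y) :=
  ⟨hf.1.imp fun _ h y => h (g y), fun k => (hf.2 k).comp hg⟩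

theorem CW.const (a : KK) : CW fun _ : X => a :=
  ⟨⟨_, fun _ => ge_order a⟩, fun _ => continuous_const⟩

theorem CW.add {f g : X → KK} (hf : CW f) (hg : CW g) : CW fun x => f x + g x := by
  obtain ⟨⟨a, ha⟩, hf⟩ := hf
  obtain ⟨⟨b, hb⟩, hg⟩ := hg
  refine ⟨⟨min a b, fun x => ((ha x).mono (min_le_left _ _)).add ((hb x).mono (min_le_right _ _))⟩,
    fun k => ?_⟩
  simp only [HahnSeries.coeff_add]
  exact (hf k).add (hg k)

theorem CW.neg {f : X → KK} (hf : CW f) : CW fun x => -f x :=
  ⟨hf.1.imp fun _ h x => (h x).neg, fun k => by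
    simp only [HahnSeries.coeff_neg]
    exact (hf.2 k).neg⟩

theorem CW.sub {f g : X → KK} (hf : CW f) (hg : CW g) : CW fun x => f x - g x := by
  simpa only [sub_eq_add_neg] using hf.add hg.neg

theorem CW.mul {f g : X → KK} (hf : CW f) (hg : CW g) : CW fun x => f x * g x := by
  obtain ⟨⟨a, ha⟩, hf⟩ := hf
  obtain ⟨⟨b, hb⟩, hg⟩ := hg
  refine ⟨⟨a + b, fun x => (ha x).mul (hb x)⟩, fun k => ?_⟩
  simp only [fun x => coeff_mul_of_ge (ha x) (hb x) k]
  exact continuous_finsetSum _ fun j _ => (hf j).mul (hg _)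

theorem CW.sum {ι : Type*} {s : Finset ι} {f : ι → X → KK} (h : ∀ i ∈ s, CW (f i)) :
    CW fun x => ∑ i ∈ s, f i x := by
  classical
  induction s using Finset.induction_on with
  | empty => simpa using CW.const (0 : KK)
  | insert a s ha ih =>
    simp only [Finset.sum_insert ha]
    exact (h a (Finset.mem_insert_self _ _)).add (ih fun i hi => h i (Finset.mem_insert_of_mem hi))

theorem CW.prod {ι : Type*} {s : Finset ι} {f : ι → X → KK} (h : ∀ i ∈ s, CW (f i)) :
    CW fun x => ∏ i ∈ s, f i x := by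
  classical
  induction s using Finset.induction_on with
  | empty => simpa using CW.const (1 : KK)
  | insert a s ha ih =>
    simp only [Finset.prod_insert ha]
    exact (h a (Finset.mem_insert_self _ _)).mul (ih fun i hi => h i (Finset.mem_insert_of_mem hi))

theorem CW.C {c : X → ℂ} (hc : Continuous c) : CW fun x => (HahnSeries.C (c x) : KK) :=
  ⟨⟨0, fun _ => ge_C _⟩, fun k => by
    simp only [coeff_C]
    split_ifs
    exacts [hc, continuous_const]⟩

theorem CW.smul {c : X → ℂ} (hc : Continuous c) {f : X → KK} (hf : CW f) :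
    CW fun x => c x • f x := by
  simpa only [HahnSeries.C_mul_eq_smul] using (CW.C hc).mul hf

theorem CW.inv {f : X → KK} (hf : CW f) {m : ℤ} (h : ∀ x, f x ≠ 0 ∧ (f x).order = m) :
    CW fun x => (f x)⁻¹ := by
  have h1 : ∀ x, Ge m (f x) := fun x => (h x).2 ▸ ge_order (f x)
  have h2 : ∀ x, Ge (-m) (f x)⁻¹ := fun x => by
    have h3 := HahnSeries.order_mul (h x).1 (inv_ne_zero (h x).1)
    rw [mul_inv_cancel₀ (h x).1, HahnSeries.order_one, (h x).2] at h3
    exact (ge_order _).mono (by omega)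
  have h4 : ∀ x, (f x).coeff m ≠ 0 := fun x e =>
    (h x).1 (HahnSeries.coeff_order_eq_zero.1 ((h x).2.symm ▸ e))
  refine ⟨⟨_, h2⟩, fun k => ?_⟩
  have key : ∀ j : ℕ, Continuous fun x => ((f x)⁻¹).coeff (j - m) := fun j => by
    induction j using Nat.strong_induction_on with
    | _ j ih =>
      have e : ∀ x, ((f x)⁻¹).coeff (j - m) = ((1 : KK).coeff j -
          ∑ i ∈ Finset.Ioc m (j + m), (f x).coeff i * ((f x)⁻¹).coeff (j - i)) / (f x).coeff m := by
        intro x
        have h5 := coeff_mul_of_ge (h1 x) (h2 x) j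
        rw [mul_inv_cancel₀ (h x).1, sub_neg_eq_add,
          ← Finset.Ioc_insert_left (by omega), Finset.sum_insert (by simp)] at h5
        rw [eq_div_iff (h4 x), h5]
        ring
      simp only [e]
      refine Continuous.div (continuous_const.sub (continuous_finsetSum _ fun i hi => ?_))
        (hf.2 m) h4
      rw [Finset.mem_Ioc] at hi
      have := ih (j + m - i).toNat (by omega)
      rw [show (((j + m - i).toNat : ℕ) : ℤ) - m = j - i by omega] at this
      exact (hf.2 i).mul this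
  rcases lt_or_ge k (-m) with hk | hk
  · simp only [fun x => h2 x k hk]
    exact continuous_const
  · have := key (k + m).toNat
    rwa [show (((k + m).toNat : ℕ) : ℤ) - m = k by omega] at this

variable {ι κ μ : Type*}

/-- Families of vectors. -/
def CV (y : X → ι → KK) : Prop := ∀ b, CW fun x => y x b

/-- Families of matrices. -/
def CM (g : X → Matrix ι κ KK) : Prop := ∀ a b, CW fun x => g x a b

theorem CV.const (y : ι → KK) : CV fun _ : X => y := fun _ => CW.const _

theorem CM.const (g : Matrix ι κ KK) : CM fun _ : X => g := fun _ _ => CW.const _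

theorem CV.comp {f : X → ι → KK} (hf : CV f) {g : Y → X} (hg : Continuous g) :
    CV fun y => f (g y) := fun b => (hf b).comp hg

theorem CM.comp {f : X → Matrix ι κ KK} (hf : CM f) {g : Y → X} (hg : Continuous g) :
    CM fun y => f (g y) := fun a b => (hf a b).comp hg

theorem CV.add {y z : X → ι → KK} (hy : CV y) (hz : CV z) : CV fun x => y x + z x :=
  fun b => (hy b).add (hz b)

theorem CV.sub {y z : X → ι → KK} (hy : CV y) (hz : CV z) : CV fun x => y x - z x :=
  fun b => (hy b).sub (hz b)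

theorem CM.add {y z : X → Matrix ι κ KK} (hy : CM y) (hz : CM z) : CM fun x => y x + z x :=
  fun a b => (hy a b).add (hz a b)

theorem CM.sum {σ : Type*} {s : Finset σ} {f : σ → X → Matrix ι κ KK} (h : ∀ i ∈ s, CM (f i)) :
    CM fun x => ∑ i ∈ s, f i x := fun a b => by
  simp only [Matrix.sum_apply]
  exact CW.sum fun i hi => h i hi a b

theorem CM.smul {f : X → KK} (hf : CW f) {g : X → Matrix ι κ KK} (hg : CM g) :
    CM fun x => f x • g x := fun a b => hf.mul (hg a b)

theorem CM.C {c : X → Matrix ι κ ℂ} (hc : Continuous c) :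
    CM fun x => (c x).map (HahnSeries.C : ℂ → KK) := fun a b => CW.C (hc.matrix_elem a b)

theorem CM.mul [Fintype κ] {g : X → Matrix ι κ KK} {h : X → Matrix κ μ KK} (hg : CM g)
    (hh : CM h) : CM fun x => g x * h x := fun a b => by
  simp only [Matrix.mul_apply]
  exact CW.sum fun c _ => (hg a c).mul (hh c b)

theorem CM.mulVec [Fintype κ] {g : X → Matrix ι κ KK} {y : X → κ → KK} (hg : CM g) (hy : CV y) :
    CV fun x => (g x).mulVec (y x) := fun a => by
  simp only [Matrix.mulVec, dotProduct]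
  exact CW.sum fun c _ => (hg a c).mul (hy c)

theorem CM.det [Fintype ι] [DecidableEq ι] {g : X → Matrix ι ι KK} (hg : CM g) :
    CW fun x => (g x).det := by
  simp only [Matrix.det_apply']
  exact CW.sum fun σ _ => (CW.const _).mul (CW.prod fun i _ => hg _ _)

theorem CM.adjugate [Fintype ι] [DecidableEq ι] {g : X → Matrix ι ι KK} (hg : CM g) :
    CM fun x => (g x).adjugate := fun a b => by
  simp only [Matrix.adjugate_apply]
  refine CM.det fun c d => ?_
  simp only [Matrix.updateRow_apply]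
  split_ifs
  exacts [CW.const _, hg _ _]

theorem CM.inv [Fintype ι] [DecidableEq ι] {g : X → Matrix ι ι KK} (hg : CM g) {m : ℤ}
    (h : ∀ x, (g x).det ≠ 0 ∧ (g x).det.order = m) : CM fun x => (g x)⁻¹ := by
  simp only [Matrix.inv_def, Ring.inverse_eq_inv']
  exact CM.smul (hg.det.inv h) hg.adjugate

theorem CV.exists_ge [Finite ι] {y : X → ι → KK} (hy : CV y) :
    ∃ m : ℕ, ∀ x b, Ge (-m) (y x b) := by
  choose m hm using fun b => (hy b).1
  obtain ⟨M, hM⟩ := Finite.bddBelow_range m
  exact ⟨(-M).toNat, fun x b => (hm b x).mono (by have := hM (mem_range_self b); omega)⟩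

end fam

end Vale.Agent.P291Z.Lt
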