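import Vale.Agent.P291Z.Lat.L0

/-!
# Bounded lattices and orthogonal projections
-/

set_option linter.all false

namespace Vale.Agent.P291Z.Lt

open Set Function Topology Filter
open scoped ENNReal

/-- `O`-submodules of `K^v`. -/
abbrev Sb (v : ℕ) : Type := Submodule OO (Fin v → KK)

variable {v n : ℕ}

/-- `t^m O^v` -/
def ge (v : ℕ) (m : ℤ) : Sb v where
  carrier := {y | ∀ b, Ge m (y b)}
  zero_mem' _ := Ge.zero m
  add_mem' h h' b := (h b).add (h' b)
  smul_mem' f _ h b := (h b).osmul f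

theorem mem_ge {m : ℤ} {y : Fin v → KK} : y ∈ ge v m ↔ ∀ b, Ge m (y b) := Iff.rfl

theorem ge_mono {m m' : ℤ} (h : m' ≤ m) : ge v m ≤ ge v m' := fun _ hy b => (hy b).mono h

theorem csmul_mem {L : Sb v} (c : ℂ) {y : Fin v → KK} (h : y ∈ L) : c • y ∈ L := by
  have := L.smul_mem (PowerSeries.C c : OO) h
  rwa [show (PowerSeries.C c : OO) • y = c • y from funext fun b => C_smul c (y b)] at this

theorem ksmul_mem {L : Sb v} {f : KK} (hf : Ge 0 f) {y : Fin v → KK} (h : y ∈ L) : f • y ∈ L := by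
  obtain ⟨g, rfl⟩ := hf.exists_coe
  exact L.smul_mem g h

/-- `t^n O^v ⊆ L ⊆ t^(-n) O^v` -/
def Bd (n : ℕ) (L : Sb v) : Prop := ge v n ≤ L ∧ L ≤ ge v (-n)

theorem Bd.mono {L : Sb v} (h : Bd n L) {m : ℕ} (hm : n ≤ m) : Bd m L :=
  ⟨(ge_mono (by omega)).trans h.1, h.2.trans (ge_mono (by omega))⟩

theorem bd_ge {m : ℤ} (h : |m| ≤ n) : Bd n (ge v m) :=
  ⟨ge_mono (le_of_abs_le h), ge_mono (neg_le_of_abs_le h)⟩

/-- The coordinates with exponents in `[-n, n)`. -/
abbrev Ix (v n : ℕ) : Type := Fin v × Finset.Ico (-n : ℤ) n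

/-- `t^(-n) O^v / t^n O^v` -/
abbrev Eu (v n : ℕ) : Type := EuclideanSpace ℂ (Ix v n)

/-- truncation -/
noncomputable def tr (n : ℕ) : (Fin v → KK) →ₗ[ℂ] Eu v n where
  toFun y := WithLp.toLp 2 fun p => (y p.1).coeff p.2
  map_add' _ _ := rfl
  map_smul' _ _ := rfl

/-- the Laurent polynomials with given coefficients -/
noncomputable def em (n : ℕ) : Eu v n →ₗ[ℂ] (Fin v → KK) where
  toFun u b := ∑ k : Finset.Ico (-n : ℤ) n, u (b, k) • tp k
  map_add' u u' := funext fun b => by simp [c_add_smul, Finset.sum_add_distrib]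
  map_smul' c u := funext fun b => by simp [Finset.smul_sum, smul_smul]

theorem tr_apply (y : Fin v → KK) (p : Ix v n) : tr n y p = (y p.1).coeff p.2 := rfl

theorem coeff_em (u : Eu v n) (b : Fin v) (k : ℤ) :
    (em n u b).coeff k = if h : k ∈ Finset.Ico (-n : ℤ) n then u (b, ⟨k, h⟩) else 0 := by
  change (∑ k : Finset.Ico (-n : ℤ) n, u (b, k) • tp k).coeff k = _
  rw [HahnSeries.coeff_sum]
  simp only [HahnSeries.coeff_smul, coeff_tp, smul_eq_mul]
  split_ifs with h
  · rw [Finset.sum_eq_single ⟨k, h⟩]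
    · simp
    · intro j _ hj
      rw [if_neg fun e => hj (Subtype.ext e.symm), mul_zero]
    · simp
  · refine Finset.sum_eq_zero fun j _ => ?_
    rw [if_neg fun e : k = j.1 => h (e ▸ j.2), mul_zero]

theorem tr_em (u : Eu v n) : tr n (em n u) = u := by
  ext p
  rw [tr_apply, coeff_em, dif_pos p.2.2]

theorem em_mem (u : Eu v n) : em n u ∈ ge v (-n) := fun b k hk => by
  rw [coeff_em, dif_neg]
  rw [Finset.mem_Ico]; omega

theorem coeff_em_of_le (u : Eu v n) (b : Fin v) {k : ℤ} (hk : (n : ℤ) ≤ k) :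
    (em n u b).coeff k = 0 := by
  rw [coeff_em, dif_neg]
  rw [Finset.mem_Ico]; omega

theorem sub_em_tr {y : Fin v → KK} (h : y ∈ ge v (-n)) : y - em n (tr n y) ∈ ge v n :=
  fun b k hk => by
    rw [Pi.sub_apply, HahnSeries.coeff_sub, coeff_em]
    split_ifs with h1
    · exact sub_self _
    · rw [h b k (by rw [Finset.mem_Ico] at h1; omega), sub_zero]

theorem tr_eq_zero {y : Fin v → KK} (h : y ∈ ge v n) : tr n y = 0 := by
  ext p
  exact h p.1 _ (Finset.mem_Ico.1 p.2.2).2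

theorem mem_ge_of_tr {y : Fin v → KK} (h : y ∈ ge v (-n)) (h0 : tr n y = 0) : y ∈ ge v n := by
  simpa [h0] using sub_em_tr h

/-- the image of `L` in `t^(-n) O^v / t^n O^v` -/
noncomputable def red (n : ℕ) (L : Sb v) : Submodule ℂ (Eu v n) where
  carrier := {u | em n u ∈ L}
  zero_mem' := by simp
  add_mem' h h' := by
    rw [mem_setOf_eq, map_add]; exact L.add_mem h h'
  smul_mem' c _ h := by
    rw [mem_setOf_eq, map_smul]; exact csmul_mem c h

theorem mem_red {L : Sb v} {u : Eu v n} : u ∈ red n L ↔ em n u ∈ L := Iff.rfl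

theorem Bd.mem_iff_red {L : Sb v} (h : Bd n L) {y : Fin v → KK} :
    y ∈ L ↔ y ∈ ge v (-n) ∧ tr n y ∈ red n L :=
  ⟨fun hy => ⟨h.2 hy, by simpa [mem_red] using L.sub_mem hy (h.1 (sub_em_tr (h.2 hy)))⟩,
    fun hy => by simpa using L.add_mem (h.1 (sub_em_tr hy.1)) hy.2⟩

theorem Bd.le_iff_red {L L' : Sb v} (h : Bd n L) (h' : Bd n L') : L ≤ L' ↔ red n L ≤ red n L' :=
  ⟨fun hl _ hu => hl hu, fun hl _ hy => h'.mem_iff_red.2
    ⟨h.2 hy, hl (h.mem_iff_red.1 hy).2⟩⟩

/-- the orthogonal projection onto the image of `L` -/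
noncomputable def prj (n : ℕ) (L : Sb v) : Eu v n →L[ℂ] Eu v n := (red n L).starProjection

theorem prj_eq_self {L : Sb v} {u : Eu v n} : prj n L u = u ↔ u ∈ red n L :=
  Submodule.starProjection_eq_self_iff

theorem prj_mem (L : Sb v) (u : Eu v n) : prj n L u ∈ red n L :=
  Submodule.starProjection_apply_mem _ u

theorem Bd.mem_iff {L : Sb v} (h : Bd n L) {y : Fin v → KK} :
    y ∈ L ↔ y ∈ ge v (-n) ∧ prj n L (tr n y) = tr n y := by
  rw [h.mem_iff_red, prj_eq_self]

theorem isStarProjection_prj (L : Sb v) : IsStarProjection (prj n L) :=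
  isStarProjection_starProjection

theorem norm_prj_le (L : Sb v) (u : Eu v n) : ‖prj n L u‖ ≤ ‖u‖ :=
  Submodule.norm_starProjection_apply_le _ u

theorem prj_inj {L L' : Sb v} (h : Bd n L) (h' : Bd n L') (e : prj n L = prj n L') : L = L' :=
  Submodule.ext fun y => by rw [h.mem_iff, h'.mem_iff, e]

/-- multiplication by `t` -/
noncomputable def sh (u : Eu v n) : Eu v n := tr n (tp 1 • em n u)

theorem tp_smul_mem {m k : ℤ} {y : Fin v → KK} (h : y ∈ ge v m) : tp k • y ∈ ge v (k + m) :=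
  fun b => (h b).tp_mul k

theorem k_smul_sub (f : KK) (y z : Fin v → KK) : f • (y - z) = f • y - f • z :=
  funext fun _ => mul_sub _ _ _

theorem sh_tr {y : Fin v → KK} (h : y ∈ ge v (-n)) : sh (tr n y) = tr n (tp 1 • y) := by
  have := tr_eq_zero (n := n) (ge_mono (by omega) (tp_smul_mem (k := 1) (sub_em_tr h)))
  rw [k_smul_sub, map_sub, sub_eq_zero] at this
  exact this.symm

/-- Orthogonal projections whose range is stable under `t`. -/
def KP (v n : ℕ) : Set (Eu v n →L[ℂ] Eu v n) :=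
  {P | IsStarProjection P ∧ ∀ u, P (sh (P u)) = sh (P u)}

theorem continuous_em_coeff (b : Fin v) (k : ℤ) :
    Continuous fun u : Eu v n => (em n u b).coeff k := by
  simp only [coeff_em]
  split_ifs
  · fun_prop
  · exact continuous_const

theorem continuous_sh : Continuous (sh : Eu v n → Eu v n) := by
  refine (PiLp.continuous_toLp 2 _).comp (continuous_pi fun p => ?_)
  simp only [Pi.smul_apply, smul_eq_mul, coeff_tp_mul]
  exact continuous_em_coeff _ _

theorem isCompact_KP : IsCompact (KP v n) := by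
  refine Metric.isCompact_of_isClosed_isBounded ?_ ?_
  · have : KP v n = {P | P * P = P} ∩ {P | star P = P} ∩ ⋂ u, {P | P (sh (P u)) = sh (P u)} := by
      ext P
      simp only [KP, mem_setOf_eq, mem_inter_iff, mem_iInter, isStarProjection_iff, IsIdempotentElem,
        IsSelfAdjoint]
    rw [this]
    have c1 : Continuous fun P : Eu v n →L[ℂ] Eu v n => P * P := continuous_id.mul continuous_id
    have c2 : Continuous fun P : Eu v n →L[ℂ] Eu v n => star P :=
      (ContinuousLinearMap.adjoint (𝕜 := ℂ) (E := Eu v n) (F := Eu v n)).continuous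
    refine ((isClosed_eq c1 continuous_id).inter
      (isClosed_eq c2 continuous_id)).inter (isClosed_iInter fun u => ?_)
    have h1 : Continuous fun P : Eu v n →L[ℂ] Eu v n => sh (P u) :=
      continuous_sh.comp (by fun_prop)
    exact isClosed_eq (continuous_id.clm_apply h1) h1
  · exact (Metric.isBounded_closedBall (x := 0) (r := 1)).subset fun P hP => by
      simpa using hP.1.norm_le

instance : CompactSpace (KP v n) := isCompact_iff_compactSpace.1 isCompact_KP

theorem Bd.prj_mem {L : Sb v} (h : Bd n L) : prj n L ∈ KP v n :=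
  ⟨isStarProjection_prj L, fun u => prj_eq_self.2
    (h.mem_iff_red.1 (ksmul_mem ((ge_tp 1).mono zero_le_one) (Lt.prj_mem L u))).2⟩

theorem KP.idem (P : KP v n) (u : Eu v n) : P.1 (P.1 u) = P.1 u :=
  congrArg (fun Q : Eu v n →L[ℂ] Eu v n => Q u) P.2.1.isIdempotentElem.eq

theorem osmul_fix (P : KP v n) (m : ℕ) : ∀ (f : OO) (y : Fin v → KK), y ∈ ge v (-n) →
    y ∈ ge v (n - m) → P.1 (tr n y) = tr n y → P.1 (tr n (f • y)) = tr n (f • y) := by
  induction m with
  | zero =>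
    intro f y _ h _
    rw [tr_eq_zero (((ge v n).smul_mem f (by simpa using h))), map_zero]
  | succ m ih =>
    intro f y h1 h2 h3
    have e : f • y = (PowerSeries.mk fun p => PowerSeries.coeff (p + 1) f) • (tp 1 • y) +
        PowerSeries.constantCoeff f • y := by
      funext b
      conv_lhs => rw [PowerSeries.eq_shift_mul_X_add_const f]
      simp only [Pi.add_apply, Pi.smul_apply, o_add_smul, o_mul_smul, C_smul]
      rw [osmul PowerSeries.X, coe_X, smul_eq_mul]
    have h4 : P.1 (tr n (tp 1 • y)) = tr n (tp 1 • y) := by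
      have := P.2.2 (tr n y)
      rwa [h3, sh_tr h1] at this
    rw [e, map_add, map_add, (tr n).map_smul, P.1.map_smul, h3, ih _ _ (ge_mono (by omega) (tp_smul_mem h1))
      (ge_mono (by push_cast; omega) (tp_smul_mem h2)) h4]

/-- the lattice of a projection -/
noncomputable def up (P : KP v n) : Sb v where
  carrier := {y | y ∈ ge v (-n) ∧ P.1 (tr n y) = tr n y}
  zero_mem' := ⟨zero_mem _, by simp⟩
  add_mem' h h' := ⟨add_mem h.1 h'.1, by rw [map_add, map_add, h.2, h'.2]⟩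
  smul_mem' f y h := ⟨Submodule.smul_mem _ f h.1,
    osmul_fix P (2 * n) f y h.1 (ge_mono (by push_cast; omega) h.1) h.2⟩

theorem bd_up (P : KP v n) : Bd n (up P) :=
  ⟨fun _ h => ⟨ge_mono (by omega) h, by rw [tr_eq_zero h, map_zero]⟩, fun _ h => h.1⟩

theorem Bd.up_prj {L : Sb v} (h : Bd n L) : up ⟨prj n L, h.prj_mem⟩ = L :=
  Submodule.ext fun _ => h.mem_iff.symm

theorem mem_red_up (P : KP v n) (u : Eu v n) : u ∈ red n (up P) ↔ P.1 u = u := by
  rw [mem_red]
  change (_ ∧ P.1 (tr n (em n u)) = tr n (em n u)) ↔ _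
  rw [tr_em]
  exact and_iff_right (em_mem u)

theorem prj_up (P : KP v n) : prj n (up P) = P.1 := by
  obtain ⟨_, h⟩ := isStarProjection_iff_eq_starProjection_range.1 P.2.1
  have e : red n (up P) = LinearMap.range (P.1 : Eu v n →ₗ[ℂ] Eu v n) := Submodule.ext fun u => by
    rw [mem_red_up]
    exact ⟨fun h => ⟨u, h⟩, by rintro ⟨w, rfl⟩; exact KP.idem P w⟩
  rw [h]
  simp only [prj, e]

/-! ### distances -/

/-- the supremum of the norms of the coefficients -/
noncomputable def sn (y : Fin v → KK) : ℝ≥0∞ := ⨆ (b) (k : ℤ), ‖(y b).coeff k‖ₑ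

/-- the distance to a lattice -/
noncomputable def dL (L : Sb v) (y : Fin v → KK) : ℝ≥0∞ := ⨅ z ∈ L, sn (y - z)

theorem le_sn (y : Fin v → KK) (b : Fin v) (k : ℤ) : ‖(y b).coeff k‖ₑ ≤ sn y :=
  le_iSup₂ (f := fun (b) (k : ℤ) => ‖(y b).coeff k‖ₑ) b k

theorem sn_sub_le (y z : Fin v → KK) : sn (y - z) ≤ sn y + sn z :=
  iSup₂_le fun b k => by
    rw [Pi.sub_apply, HahnSeries.coeff_sub]
    exact enorm_sub_le.trans (add_le_add (le_sn y b k) (le_sn z b k))

theorem sn_em (u : Eu v n) : sn (em n u) ≤ ‖u‖ₑ :=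
  iSup₂_le fun b k => by
    rw [coeff_em]
    split_ifs
    · exact PiLp.enorm_apply_le u _
    · simp

theorem enorm_tr_le (y : Fin v → KK) : ‖tr n y‖ₑ ≤ Fintype.card (Ix v n) * sn y := by
  have e : tr n y = ∑ p, EuclideanSpace.single p (tr n y p) := by
    ext p
    simp [Pi.single_apply]
  rw [e]
  refine (enorm_sum_le _ _).trans ?_
  rw [← nsmul_eq_mul, ← Finset.card_univ]
  refine Finset.sum_le_card_nsmul _ _ _ fun p _ => ?_
  rw [← ofReal_norm_eq_enorm, EuclideanSpace.norm_single, ofReal_norm_eq_enorm]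
  exact le_sn y p.1 p.2

theorem dL_le {L : Sb v} {z : Fin v → KK} (hz : z ∈ L) (y : Fin v → KK) : dL L y ≤ sn (y - z) :=
  iInf₂_le z hz

theorem Bd.mem_iff_dL {L : Sb v} (h : Bd n L) {y : Fin v → KK} : y ∈ L ↔ dL L y = 0 := by
  constructor
  · intro hy
    refine le_antisymm ((dL_le hy y).trans ?_) bot_le
    simp [sn]
  · intro h0
    have key : ∀ (a : ℝ≥0∞) (C : ℕ), (∀ z ∈ L, a ≤ C * sn (y - z)) → a = 0 := fun a C ha => by
      have : a / C ≤ dL L y := le_iInf₂ fun z hz => ENNReal.div_le_of_le_mul' (ha z hz)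
      rw [h0, nonpos_iff_eq_zero, ENNReal.div_eq_zero_iff] at this
      exact this.resolve_right (ENNReal.natCast_ne_top C)
    refine h.mem_iff.2 ⟨fun b k hk => enorm_eq_zero.1 (key _ 1 fun z hz => ?_), ?_⟩
    · have := le_sn (y - z) b k
      rw [Pi.sub_apply, HahnSeries.coeff_sub, h.2 hz b k hk, sub_zero] at this
      simpa using this
    · refine sub_eq_zero.1 (enorm_eq_zero.1 (key _ (2 * Fintype.card (Ix v n)) fun z hz => ?_))
      have e : prj n L (tr n y) - tr n y = prj n L (tr n (y - z)) - tr n (y - z) := by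
        rw [map_sub, map_sub, (h.mem_iff.1 hz).2]; abel
      have h1 : ‖prj n L (tr n (y - z))‖ₑ ≤ ‖tr n (y - z)‖ₑ := by
        rw [← ofReal_norm_eq_enorm, ← ofReal_norm_eq_enorm]
        exact ENNReal.ofReal_le_ofReal (norm_prj_le _ _)
      rw [e, Nat.cast_mul, Nat.cast_two, mul_assoc, two_mul]
      exact enorm_sub_le.trans (add_le_add (h1.trans (enorm_tr_le _)) (enorm_tr_le _))

theorem dL_up_le (P P' : KP v n) (y : Fin v → KK) :
    dL (up P') y ≤ (1 + Fintype.card (Ix v n) * ‖P'.1 - P.1‖ₑ) * dL (up P) y +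
      ‖P'.1 - P.1‖ₑ * ‖tr n y‖ₑ := by
  have h0 : (1 + Fintype.card (Ix v n) * ‖P'.1 - P.1‖ₑ : ℝ≥0∞) ≠ 0 := by simp
  have h1 : (1 + Fintype.card (Ix v n) * ‖P'.1 - P.1‖ₑ : ℝ≥0∞) ≠ ∞ := by finiteness
  conv_rhs => rw [dL, iInf_subtype', ENNReal.mul_iInf_of_ne h0 h1, ENNReal.iInf_add]
  refine le_iInf fun z => ?_
  obtain ⟨z, hz⟩ := z
  have hz' : z + em n ((P'.1 - P.1) (tr n z)) ∈ up P' := by
    refine ⟨add_mem hz.1 (em_mem _), ?_⟩
    rw [map_add, tr_em, ContinuousLinearMap.sub_apply, hz.2, add_sub_cancel, KP.idem]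
  have h2 : ‖tr n z‖ₑ ≤ ‖tr n y‖ₑ + Fintype.card (Ix v n) * sn (y - z) := by
    rw [show tr n z = tr n y - tr n (y - z) by simp]
    exact enorm_sub_le.trans (add_le_add le_rfl (enorm_tr_le _))
  calc dL (up P') y ≤ sn (y - z - em n ((P'.1 - P.1) (tr n z))) := by
        rw [sub_sub]; exact dL_le hz' y
    _ ≤ sn (y - z) + ‖P'.1 - P.1‖ₑ * (‖tr n y‖ₑ + Fintype.card (Ix v n) * sn (y - z)) :=
        (sn_sub_le _ _).trans (add_le_add le_rfl ((sn_em _).trans
          (((P'.1 - P.1).le_opENorm _).trans (by gcongr))))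
    _ = _ := by ring

theorem continuous_dL_up (y : Fin v → KK) : Continuous fun P : KP v n => dL (up P) y := by
  refine continuous_iff_continuousAt.2 fun P₀ => ?_
  have he : Tendsto (fun P : KP v n => ‖P.1 - P₀.1‖ₑ) (𝓝 P₀) (𝓝 0) := by
    have : Continuous fun P : KP v n => ‖P.1 - P₀.1‖ₑ := by fun_prop
    have h0 := this.tendsto P₀
    rwa [sub_self, show ‖(0 : Eu v n →L[ℂ] Eu v n)‖ₑ = 0 by
      rw [← ofReal_norm_eq_enorm, norm_zero, ENNReal.ofReal_zero]] at h0
  have h1 : Tendsto (fun P : KP v n => (1 + Fintype.card (Ix v n) * ‖P.1 - P₀.1‖ₑ : ℝ≥0∞))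
      (𝓝 P₀) (𝓝 1) := by
    have := (ENNReal.Tendsto.const_mul (a := Fintype.card (Ix v n)) he
      (Or.inr (ENNReal.natCast_ne_top _))).const_add 1
    simpa using this
  have h2 : Tendsto (fun P : KP v n => ‖P.1 - P₀.1‖ₑ * ‖tr n y‖ₑ) (𝓝 P₀) (𝓝 0) := by
    simpa using ENNReal.Tendsto.mul_const (b := ‖tr n y‖ₑ) he (Or.inr enorm_ne_top)
  have h3 := (ENNReal.Tendsto.mul_const (b := dL (up P₀) y) h1 (Or.inl one_ne_zero)).add h2
  have h4 := ENNReal.Tendsto.div (ENNReal.Tendsto.sub (tendsto_const_nhds (x := dL (up P₀) y)) h2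
    (Or.inr ENNReal.zero_ne_top)) (Or.inr one_ne_zero) h1 (Or.inl ENNReal.one_ne_top)
  rw [one_mul, add_zero] at h3
  rw [tsub_zero, div_one] at h4
  refine tendsto_of_tendsto_of_tendsto_of_le_of_le h4 h3 (fun P => ?_) fun P => dL_up_le P₀ P y
  refine ENNReal.div_le_of_le_mul' (tsub_le_iff_right.2 ?_)
  have := dL_up_le P P₀ y
  rwa [enorm_sub_rev] at this

theorem isClosedEmbedding_dL_up : IsClosedEmbedding fun P : KP v n => dL (up P) :=
  (continuous_pi continuous_dL_up).isClosedEmbedding fun P P' h => Subtype.ext (by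
    rw [← prj_up P, ← prj_up P']
    congr 1
    exact Submodule.ext fun y => by
      rw [(bd_up P).mem_iff_dL, (bd_up P').mem_iff_dL, show dL (up P) y = dL (up P') y from
        congrFun h y])

/-! ### continuous families -/

section fam

variable {X Y : Type*} [TopologicalSpace X] [TopologicalSpace Y]

/-- A continuous family of lattices. -/
def CL (ℓ : X → Sb v) : Prop := ∀ y, Continuous fun x => dL (ℓ x) y

theorem CL.comp {ℓ : X → Sb v} (h : CL ℓ) {g : Y → X} (hg : Continuous g) : CL fun y => ℓ (g y) :=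
  fun y => (h y).comp hg

theorem CL.const (L : Sb v) : CL fun _ : X => L := fun _ => continuous_const

theorem cl_iff {ℓ : X → Sb v} (hb : ∀ x, Bd n (ℓ x)) :
    CL ℓ ↔ Continuous fun x => prj n (ℓ x) := by
  let f : X → KP v n := fun x => ⟨prj n (ℓ x), (hb x).prj_mem⟩
  have e : (fun P : KP v n => dL (up P)) ∘ f = fun x => dL (ℓ x) :=
    funext fun x => congrArg dL (hb x).up_prj
  calc CL ℓ ↔ Continuous fun x => dL (ℓ x) := continuous_pi_iff.symm
    _ ↔ Continuous f := by rw [← e, ← isClosedEmbedding_dL_up.isEmbedding.continuous_iff]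
    _ ↔ _ := continuous_induced_rng

theorem cl_up : CL (up : KP v n → Sb v) := continuous_dL_up

theorem CV.tr {y : X → Fin v → KK} (hy : CV y) : Continuous fun x => tr n (y x) :=
  (PiLp.continuous_toLp 2 _).comp (continuous_pi fun p => (hy p.1).2 _)

theorem CV.em {u : X → Eu v n} (hu : Continuous u) : CV fun x => em n (u x) := fun b =>
  ⟨⟨_, fun x => em_mem (u x) b⟩, fun k => (continuous_em_coeff b k).comp hu⟩

theorem isClosed_mem {ℓ : X → Sb v} (h : CL ℓ) (hb : ∀ x, Bd n (ℓ x)) {y : X → Fin v → KK}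
    (hy : CV y) : IsClosed {x | y x ∈ ℓ x} := by
  have e : {x | y x ∈ ℓ x} = (⋂ b, ⋂ k, ⋂ _ : k < (-n : ℤ), {x | (y x b).coeff k = 0}) ∩
      {x | prj n (ℓ x) (tr n (y x)) = tr n (y x)} := by
    ext x
    simp only [mem_setOf_eq, (hb x).mem_iff, mem_inter_iff, mem_iInter, mem_ge, Ge]
  rw [e]
  exact (isClosed_iInter fun b => isClosed_iInter fun k => isClosed_iInter fun _ =>
    isClosed_eq ((hy b).2 k) continuous_const).inter
    (isClosed_eq (((cl_iff hb).1 h).clm_apply hy.tr) hy.tr)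

theorem isClosed_le {ℓ ℓ' : X → Sb v} (h : CL ℓ) (h' : CL ℓ') (hb : ∀ x, Bd n (ℓ' x)) :
    IsClosed {x | ℓ x ≤ ℓ' x} := by
  have e : {x | ℓ x ≤ ℓ' x} = ⋂ y, {x | dL (ℓ' x) y ≤ dL (ℓ x) y} := by
    ext x
    simp only [mem_setOf_eq, mem_iInter]
    refine ⟨fun hl y => le_iInf₂ fun z hz => dL_le (hl hz) y, fun hl y hy => ?_⟩
    refine (hb x).mem_iff_dL.2 (le_antisymm ((hl y).trans ((dL_le hy y).trans ?_)) bot_le)
    simp [sn]
  rw [e]
  exact isClosed_iInter fun y => _root_.isClosed_le (h' y) (h y)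

/-- the element of `L` closest to `y` -/
noncomputable def lift (n : ℕ) (L : Sb v) (y : Fin v → KK) : Fin v → KK :=
  y + em n (prj n L (tr n y) - tr n y)

theorem Bd.lift_mem {L : Sb v} (h : Bd n L) {y : Fin v → KK} (hy : y ∈ ge v (-n)) :
    lift n L y ∈ L :=
  h.mem_iff_red.2 ⟨add_mem hy (em_mem _), by
    rw [lift, map_add, tr_em, add_sub_cancel]; exact Lt.prj_mem _ _⟩

theorem Bd.lift_eq {L : Sb v} (h : Bd n L) {y : Fin v → KK} (hy : y ∈ L) : lift n L y = y := by
  rw [lift, (h.mem_iff.1 hy).2, sub_self, map_zero, add_zero]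

theorem coeff_lift (L : Sb v) (y : Fin v → KK) (b : Fin v) {k : ℤ} (hk : (n : ℤ) ≤ k) :
    (lift n L y b).coeff k = (y b).coeff k := by
  rw [lift, Pi.add_apply, HahnSeries.coeff_add, coeff_em_of_le _ _ hk, add_zero]

theorem CV.lift {ℓ : X → Sb v} (h : CL ℓ) (hb : ∀ x, Bd n (ℓ x)) {y : X → Fin v → KK}
    (hy : CV y) : CV fun x => lift n (ℓ x) (y x) :=
  hy.add (CV.em ((((cl_iff hb).1 h).clm_apply hy.tr).sub hy.tr))

/-- the dimension of `L / t^n O^v` -/
noncomputable def rk (n : ℕ) (L : Sb v) : ℕ := Module.finrank ℂ (red n L)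

theorem rk_le_of_norm {L L' : Sb v} (h : ‖prj n L - prj n L'‖ < 1) : rk n L ≤ rk n L' := by
  refine LinearMap.finrank_le_finrank_of_injective
    (f := ((prj n L').toLinearMap).restrict (p := red n L) (q := red n L')
      fun u _ => prj_mem L' u) ?_
  rw [injective_iff_map_eq_zero]
  intro u hu
  have h1 : prj n L' u = 0 := by
    have := congrArg Subtype.val hu
    rw [LinearMap.restrict_coe_apply] at this
    exact this
  have h2 := (prj n L - prj n L').le_opNorm u
  rw [ContinuousLinearMap.sub_apply, h1, sub_zero, prj_eq_self.2 u.2] at h2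
  by_contra h0
  have h3 : 0 < ‖(u : Eu v n)‖ := norm_pos_iff.2 fun e => h0 (Subtype.ext e)
  nlinarith

theorem rk_eq_of_norm {L L' : Sb v} (h : ‖prj n L - prj n L'‖ < 1) : rk n L = rk n L' :=
  le_antisymm (rk_le_of_norm h) (rk_le_of_norm (by rwa [norm_sub_rev]))

theorem CL.eventually_rk {ℓ : X → Sb v} (h : CL ℓ) (hb : ∀ x, Bd n (ℓ x)) (x₀ : X) :
    ∀ᶠ x in 𝓝 x₀, rk n (ℓ x) = rk n (ℓ x₀) := by
  have h1 : Continuous fun x => ‖prj n (ℓ x) - prj n (ℓ x₀)‖ :=
    (((cl_iff hb).1 h).sub continuous_const).norm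
  filter_upwards [h1.continuousAt.eventually_lt continuousAt_const
    (show ‖prj n (ℓ x₀) - prj n (ℓ x₀)‖ < 1 by simp)] with x hx using rk_eq_of_norm hx

/-- Criterion for continuity: locally constant dimension and local extension of elements. -/
theorem cl_of_lower {ℓ : X → Sb v} (hb : ∀ x, Bd n (ℓ x))
    (hr : ∀ x₀, ∀ᶠ x in 𝓝 x₀, rk n (ℓ x) = rk n (ℓ x₀))
    (hl : ∀ x₀, ∀ y₀ ∈ ℓ x₀, ∃ y : X → Fin v → KK, CV y ∧ y x₀ = y₀ ∧ ∀ᶠ x in 𝓝 x₀, y x ∈ ℓ x) :
    CL ℓ := by
  rw [cl_iff hb]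
  refine continuous_iff_continuousAt.2 fun x₀ => ?_
  refine isCompact_KP.tendsto_nhds_of_unique_mapClusterPt
    (Eventually.of_forall fun x => (hb x).prj_mem) fun P hP hc => ?_
  have e : P = prj n (up ⟨P, hP⟩) := (prj_up ⟨P, hP⟩).symm
  have h1 : rk n (up ⟨P, hP⟩) = rk n (ℓ x₀) := by
    have h2 : ∀ᶠ Q in 𝓝 P, ‖Q - P‖ < 1 :=
      (continuous_id.sub continuous_const).norm.continuousAt.eventually_lt continuousAt_const
        (show ‖P - P‖ < 1 by simp)
    obtain ⟨x, h3, h4⟩ := ((mapClusterPt_iff_frequently.1 hc _ h2).and_eventually (hr x₀)).exists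
    rw [← h4]
    refine (rk_eq_of_norm ?_).symm
    rw [← e]
    exact h3
  have h2 : red n (ℓ x₀) ≤ red n (up ⟨P, hP⟩) := fun u hu => by
    obtain ⟨y, h3, h4, h5⟩ := hl x₀ _ hu
    rw [mem_red_up]
    have h6 : Tendsto (fun x => prj n (ℓ x) u - u) (𝓝 x₀) (𝓝 0) := by
      have h7 : Tendsto (fun x => 2 * ‖u - tr n (y x)‖) (𝓝 x₀) (𝓝 0) := by
        have := ((continuous_const (y := u).sub h3.tr).norm.tendsto x₀).const_mul 2
        simpa [h4, tr_em] using this
      refine squeeze_zero_norm' ?_ h7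
      filter_upwards [h5] with x hx
      rw [show prj n (ℓ x) u - u = prj n (ℓ x) (u - tr n (y x)) - (u - tr n (y x)) by
        rw [map_sub, ((hb x).mem_iff.1 hx).2]; abel, two_mul]
      exact (norm_sub_le _ _).trans (add_le_add (norm_prj_le _ _) le_rfl)
    have h8 : MapClusterPt (P u - u) (𝓝 x₀) fun x => prj n (ℓ x) u - u :=
      hc.continuousAt_comp (f := fun Q : Eu v n →L[ℂ] Eu v n => Q u - u) (by fun_prop)
    exact sub_eq_zero.1 (eq_of_nhds_neBot (h8.clusterPt.mono h6))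
  have h3 := Submodule.eq_of_le_of_finrank_eq h2 h1.symm
  refine e.trans ?_
  simp only [prj, h3]

end fam

end Vale.Agent.P291Z.Lt
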