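import Vale.Agent.P291Z.Lat.L1

/-!
# Matrices acting on lattices, leading indices, Hermite normal form
-/

set_option linter.all false

namespace Vale.Agent.P291Z.Lt

open Set Function Topology Filter Matrix

variable {v n : ℕ}

/-- square matrices over `K` -/
abbrev Mx (v : ℕ) : Type := Matrix (Fin v) (Fin v) KK

/-- `g L` -/
noncomputable def mu1 (g : Mx v) (L : Sb v) : Sb v := L.map (g.mulVecLin.restrictScalars OO)

/-- `g O^v` -/
noncomputable def la1 (g : Mx v) : Sb v := Submodule.span OO (range gᵀ)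

theorem mem_mu1 {g : Mx v} {L : Sb v} {y : Fin v → KK} : y ∈ mu1 g L ↔ ∃ z ∈ L, g *ᵥ z = y :=
  Submodule.mem_map

theorem mulVec_mem_mu1 (g : Mx v) {L : Sb v} {z : Fin v → KK} (h : z ∈ L) : g *ᵥ z ∈ mu1 g L :=
  mem_mu1.2 ⟨z, h, rfl⟩

theorem mu1_le_iff {g : Mx v} {L L' : Sb v} : mu1 g L ≤ L' ↔ ∀ z ∈ L, g *ᵥ z ∈ L' :=
  Submodule.map_le_iff_le_comap

theorem mu1_mono (g : Mx v) {L L' : Sb v} (h : L ≤ L') : mu1 g L ≤ mu1 g L' := Submodule.map_mono h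

theorem mu1_one (L : Sb v) : mu1 1 L = L := Submodule.ext fun y => by simp [mem_mu1]

theorem mu1_mul (g h : Mx v) (L : Sb v) : mu1 (g * h) L = mu1 g (mu1 h L) :=
  Submodule.ext fun y => by simp [mem_mu1]

theorem isUnit_det {g : Mx v} (hg : g.det ≠ 0) : IsUnit g.det := isUnit_iff_ne_zero.2 hg

theorem inv_mulVec {g : Mx v} (hg : g.det ≠ 0) (y : Fin v → KK) : g⁻¹ *ᵥ (g *ᵥ y) = y := by
  rw [mulVec_mulVec, nonsing_inv_mul _ (isUnit_det hg), one_mulVec]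

theorem mulVec_inv {g : Mx v} (hg : g.det ≠ 0) (y : Fin v → KK) : g *ᵥ (g⁻¹ *ᵥ y) = y := by
  rw [mulVec_mulVec, mul_nonsing_inv _ (isUnit_det hg), one_mulVec]

theorem mem_mu1_iff {g : Mx v} (hg : g.det ≠ 0) {L : Sb v} {y : Fin v → KK} :
    y ∈ mu1 g L ↔ g⁻¹ *ᵥ y ∈ L :=
  ⟨fun h => by
    obtain ⟨z, hz, rfl⟩ := mem_mu1.1 h
    rwa [inv_mulVec hg], fun h => mem_mu1.2 ⟨_, h, mulVec_inv hg y⟩⟩

theorem mu1_inv_mu1 {g : Mx v} (hg : g.det ≠ 0) (L : Sb v) : mu1 g⁻¹ (mu1 g L) = L := by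
  rw [← mu1_mul, nonsing_inv_mul _ (isUnit_det hg), mu1_one]

theorem mu1_mu1_inv {g : Mx v} (hg : g.det ≠ 0) (L : Sb v) : mu1 g (mu1 g⁻¹ L) = L := by
  rw [← mu1_mul, mul_nonsing_inv _ (isUnit_det hg), mu1_one]

theorem det_inv_ne {g : Mx v} (hg : g.det ≠ 0) : g⁻¹.det ≠ 0 := by
  rw [det_nonsing_inv, Ring.inverse_eq_inv']; exact inv_ne_zero hg

theorem order_inv {f : KK} (hf : f ≠ 0) : f⁻¹.order = -f.order := by
  have h3 := HahnSeries.order_mul hf (inv_ne_zero hf)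
  rw [mul_inv_cancel₀ hf, HahnSeries.order_one] at h3
  omega

theorem order_det_inv {g : Mx v} (hg : g.det ≠ 0) : g⁻¹.det.order = -g.det.order := by
  rw [det_nonsing_inv, Ring.inverse_eq_inv', order_inv hg]

theorem order_det_mul {g h : Mx v} (hg : g.det ≠ 0) (hh : h.det ≠ 0) :
    (g * h).det ≠ 0 ∧ (g * h).det.order = g.det.order + h.det.order := by
  rw [det_mul]
  exact ⟨mul_ne_zero hg hh, HahnSeries.order_mul hg hh⟩

theorem mulVec_eq_sum {w : ℕ} (g : Matrix (Fin w) (Fin v) KK) (z : Fin v → KK) :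
    g *ᵥ z = ∑ a, z a • gᵀ a := by
  funext b
  simp [mulVec, dotProduct, mul_comm]

theorem la1_le_iff {g : Mx v} {L : Sb v} : la1 g ≤ L ↔ ∀ a, gᵀ a ∈ L :=
  Submodule.span_le.trans range_subset_iff

theorem mul_ksmul {α β γ : Type*} [Fintype β] (g : Matrix α β KK) (f : KK) (h : Matrix β γ KK) :
    g * (f • h) = f • (g * h) := Matrix.mul_smul g f h

theorem ksmul_mul {α β γ : Type*} [Fintype β] (f : KK) (g : Matrix α β KK) (h : Matrix β γ KK) :
    (f • g) * h = f • (g * h) := Matrix.smul_mul f g h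

theorem single_mem_ge (a : Fin v) : (Pi.single a 1 : Fin v → KK) ∈ ge v 0 := fun b => by
  rw [Pi.single_apply]
  split_ifs
  exacts [ge_one, Ge.zero 0]

theorem la1_eq (g : Mx v) : la1 g = mu1 g (ge v 0) := by
  refine le_antisymm (la1_le_iff.2 fun a => mem_mu1.2 ⟨_, single_mem_ge a, ?_⟩)
    (mu1_le_iff.2 fun z hz => ?_)
  · rw [mulVec_single_one]; rfl
  · rw [mulVec_eq_sum]
    exact Submodule.sum_mem _ fun a _ => ksmul_mem (hz a) (Submodule.subset_span ⟨a, rfl⟩)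

theorem la1_one : la1 (1 : Mx v) = ge v 0 := by rw [la1_eq, mu1_one]

theorem la1_mul (g h : Mx v) : la1 (g * h) = mu1 g (la1 h) := by rw [la1_eq, la1_eq, mu1_mul]

/-- all entries have exponents at least `k` -/
def GeM {α β : Type*} (k : ℤ) (g : Matrix α β KK) : Prop := ∀ a b, Ge k (g a b)

theorem GeM.mulVec {w : ℕ} {k m : ℤ} {g : Matrix (Fin w) (Fin v) KK} (hg : GeM k g)
    {z : Fin v → KK} (hz : z ∈ ge v m) : g *ᵥ z ∈ ge w (k + m) :=
  fun a => Ge.sum fun b _ => (hg a b).mul (hz b)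

theorem GeM.mul {α β γ : Type*} [Fintype β] {k m : ℤ} {g : Matrix α β KK} {h : Matrix β γ KK}
    (hg : GeM k g) (hh : GeM m h) : GeM (k + m) (g * h) :=
  fun a c => Ge.sum fun b _ => (hg a b).mul (hh b c)

theorem GeM.mono {α β : Type*} {k m : ℤ} {g : Matrix α β KK} (hg : GeM k g) (h : m ≤ k) :
    GeM m g := fun a b => (hg a b).mono h

theorem exists_geM {α β : Type*} [Finite α] [Finite β] (g : Matrix α β KK) :
    ∃ m : ℕ, GeM (-m) g := by
  obtain ⟨M, hM⟩ := Finite.bddBelow_range fun p : α × β => (g p.1 p.2).order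
  exact ⟨(-M).toNat, fun a b => (ge_order _).mono (by
    have := hM (mem_range_self (a, b)); dsimp only at this; omega)⟩

theorem GeM.mu1_le {k m : ℤ} {g : Mx v} (hg : GeM k g) : mu1 g (ge v m) ≤ ge v (k + m) :=
  mu1_le_iff.2 fun _ hz => hg.mulVec hz

theorem geM_iff {k : ℤ} {g : Mx v} : GeM k g ↔ la1 g ≤ ge v k :=
  ⟨fun h => la1_le_iff.2 fun a b => h b a, fun h a b => la1_le_iff.1 h b a⟩

theorem tp_smul_one_mulVec (k : ℤ) (y : Fin v → KK) : (tp k • (1 : Mx v)) *ᵥ y = tp k • y := by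
  rw [smul_mulVec, one_mulVec]

theorem mem_mu1_tp {k : ℤ} {L : Sb v} {y : Fin v → KK} :
    y ∈ mu1 (tp k • (1 : Mx v)) L ↔ tp (-k) • y ∈ L := by
  rw [mem_mu1]
  constructor
  · rintro ⟨z, hz, rfl⟩
    rwa [tp_smul_one_mulVec, smul_smul, tp_neg_mul, one_smul]
  · intro h
    exact ⟨_, h, by rw [tp_smul_one_mulVec, smul_smul, tp_mul_neg, one_smul]⟩

theorem mu1_tp_ge (k m : ℤ) : mu1 (tp k • (1 : Mx v)) (ge v m) = ge v (k + m) :=
  Submodule.ext fun y => by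
    simp only [mem_mu1_tp, mem_ge, Pi.smul_apply, smul_eq_mul, ge_tp_mul_iff, sub_neg_eq_add,
      add_comm]

theorem mu1_tp_comm (g : Mx v) (k : ℤ) (L : Sb v) :
    mu1 g (mu1 (tp k • 1) L) = mu1 (tp k • 1) (mu1 g L) := by
  rw [← mu1_mul, ← mu1_mul, mul_ksmul, ksmul_mul, Matrix.mul_one, Matrix.one_mul]

theorem GeM.exists_map {α β : Type*} {g : Matrix α β KK} (hg : GeM 0 g) :
    ∃ G : Matrix α β OO, G.map (algebraMap OO KK) = g := by
  choose G hG using fun a b => (hg a b).exists_coe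
  exact ⟨Matrix.of G, Matrix.ext hG⟩

theorem GeM.det {g : Mx v} (hg : GeM 0 g) :
    Ge 0 g.det ∧ g.det.coeff 0 = (g.map fun f => f.coeff 0).det := by
  obtain ⟨G, rfl⟩ := hg.exists_map
  have e : (G.map (algebraMap OO KK)).det = algebraMap OO KK G.det :=
    ((algebraMap OO KK).map_det G).symm
  rw [e]
  refine ⟨ge_coe _, ?_⟩
  have h1 := coeff_coe_nat G.det 0
  rw [Nat.cast_zero, PowerSeries.coeff_zero_eq_constantCoeff_apply] at h1
  rw [h1, RingHom.map_det]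
  congr 1
  ext a b
  exact (coeff_coe_nat (G a b) 0).trans (PowerSeries.coeff_zero_eq_constantCoeff_apply _) |>.symm

theorem GeM.adjugate {g : Mx v} (hg : GeM 0 g) : GeM 0 g.adjugate := fun a b => by
  rw [adjugate_apply]
  refine (GeM.det fun c d => ?_).1
  rw [updateRow_apply]
  split_ifs
  exacts [single_mem_ge a d, hg _ _]

theorem GeM.inv {g : Mx v} (hg : GeM 0 g) (h : g.det ≠ 0) (h0 : g.det.order = 0) :
    GeM 0 g⁻¹ := fun a b => by
  rw [inv_def, Ring.inverse_eq_inv']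
  have h1 : Ge 0 g.det⁻¹ := by
    have := ge_order g.det⁻¹
    rwa [order_inv h, h0, neg_zero] at this
  simpa using h1.mul (hg.adjugate a b)

theorem GeM.mu1_eq {g : Mx v} (hg : GeM 0 g) (h : g.det ≠ 0) (h0 : g.det.order = 0) (m : ℤ) :
    mu1 g (ge v m) = ge v m :=
  le_antisymm (by simpa using hg.mu1_le (m := m)) fun y hy =>
    (mem_mu1_iff h).2 (by simpa using (hg.inv h h0).mulVec hy)

theorem la1_le_la1 {g h : Mx v} (hh : h.det ≠ 0) : la1 g ≤ la1 h ↔ GeM 0 (h⁻¹ * g) := by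
  rw [geM_iff, la1_mul, la1_eq h]
  exact ⟨fun hl => (mu1_mono _ hl).trans_eq (mu1_inv_mu1 hh _),
    fun hl => (mu1_mu1_inv hh _).symm.trans_le (mu1_mono _ hl)⟩

theorem order_le_of_la1_le {g h : Mx v} (hg : g.det ≠ 0) (hh : h.det ≠ 0) (hl : la1 g ≤ la1 h) :
    h.det.order ≤ g.det.order ∧ (g.det.order ≤ h.det.order → la1 g = la1 h) := by
  have h1 := (la1_le_la1 hh).1 hl
  obtain ⟨h2, h3⟩ := order_det_mul (det_inv_ne hh) hg
  have h4 := h1.det.1.le_order h2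
  rw [order_det_inv hh] at h3
  refine ⟨by omega, fun h5 => ?_⟩
  have h6 := h1.mu1_eq h2 (by omega) 0
  rw [mu1_mul] at h6
  rw [la1_eq, la1_eq, ← h6, mu1_mu1_inv hh]
  rw [h6]

theorem order_eq_of_la1_eq {g h : Mx v} (hg : g.det ≠ 0) (hh : h.det ≠ 0) (hl : la1 g = la1 h) :
    g.det.order = h.det.order :=
  le_antisymm (order_le_of_la1_le hh hg hl.ge).1 (order_le_of_la1_le hg hh hl.le).1

theorem Bd.mu1 {L : Sb v} (h : Bd n L) {g : Mx v} (hg : g.det ≠ 0) {m : ℕ} (h1 : GeM (-m) g)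
    (h2 : GeM (-m) g⁻¹) : Bd (n + m) (mu1 g L) :=
  ⟨fun y hy => (mem_mu1_iff hg).2 (h.1 (ge_mono (by push_cast; omega) (h2.mulVec hy))),
    (mu1_mono g h.2).trans (h1.mu1_le.trans (ge_mono (by push_cast; omega)))⟩

theorem Bd.exists_mu1 {L : Sb v} (h : Bd n L) {g : Mx v} (hg : g.det ≠ 0) :
    ∃ m, Bd m (Lt.mu1 g L) := by
  obtain ⟨a, ha⟩ := exists_geM g
  obtain ⟨b, hb⟩ := exists_geM g⁻¹
  exact ⟨_, h.mu1 hg (m := max a b) (ha.mono (by omega)) (hb.mono (by omega))⟩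

theorem exists_bd_la1 {g : Mx v} (hg : g.det ≠ 0) : ∃ m, Bd m (la1 g) := by
  rw [la1_eq]
  exact (bd_ge (n := 0) (by simp)).exists_mu1 hg

theorem det_ne_of_ge_le {g : Mx v} {m : ℤ} (h : ge v m ≤ la1 g) : g.det ≠ 0 := by
  rw [la1_eq] at h
  choose z _ hz using fun a => mem_mu1.1 (h (tp_smul_mem (k := m) (single_mem_ge a) |>
    ge_mono (by simp)))
  have e : g * (tp (-m) • (Matrix.of z)ᵀ) = 1 := by
    ext1 a b
    have := congrFun (hz b) a
    rw [mul_ksmul, Matrix.smul_apply, show (g * (Matrix.of z)ᵀ) a b = (g *ᵥ z b) a from rfl,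
      this, Pi.smul_apply, smul_eq_mul, smul_eq_mul, ← mul_assoc, tp_neg_mul, one_mul,
      Pi.single_apply, one_apply]
  exact (isUnit_det_of_right_inverse e).ne_zero

theorem Bd.geM_inv {g : Mx v} (h : Bd n (la1 g)) : GeM (-n) g⁻¹ := by
  have hg := det_ne_of_ge_le h.1
  have h1 : la1 (tp n • (1 : Mx v)) ≤ la1 g := by
    rw [la1_eq (tp n • 1), mu1_tp_ge, add_zero]; exact h.1
  intro a b
  have h2 := (la1_le_la1 hg).1 h1 a b
  rw [mul_ksmul, Matrix.mul_one, Matrix.smul_apply, smul_eq_mul, ge_tp_mul_iff] at h2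
  simpa using h2

/-! ### leading indices -/

/-- `y` has leading index `(k, a)` -/
def Ld (y : Fin v → KK) (k : ℤ) (a : Fin v) : Prop :=
  (y a).coeff k ≠ 0 ∧ y ∈ ge v k ∧ ∀ b < a, (y b).coeff k = 0

theorem exists_ld {y : Fin v → KK} (hy : y ≠ 0) : ∃ k a, Ld y k a := by
  classical
  obtain ⟨m, hm⟩ := exists_geM (Matrix.of fun (_ : Unit) b => y b)
  obtain ⟨k, ⟨a, ha⟩, hk⟩ := Int.exists_least_of_bdd (P := fun k => ∃ b, (y b).coeff k ≠ 0)
    ⟨-m, fun k ⟨b, hb⟩ => not_lt.1 fun h => hb (hm () b k h)⟩ (by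
      by_contra h
      push Not at h
      exact hy (funext fun b => HahnSeries.ext (funext fun k => h k b)))
  obtain ⟨b, hb, hb'⟩ := (Finset.univ.filter fun b => (y b).coeff k ≠ 0).exists_min_image id
    ⟨a, by simpa using ha⟩
  refine ⟨k, b, by simpa using hb, fun c j hj => by_contra fun h => (hk j ⟨c, h⟩).not_gt hj,
    fun c hc => by_contra fun h => (hb' c (by simpa using h)).not_gt hc⟩

theorem Ld.le {y : Fin v → KK} {k k' : ℤ} {a a' : Fin v} (h : Ld y k a)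
    (h' : (y a').coeff k' ≠ 0) : k < k' ∨ k = k' ∧ a ≤ a' := by
  rcases lt_trichotomy k k' with h1 | rfl | h1
  · exact Or.inl h1
  · exact Or.inr ⟨rfl, not_lt.1 fun h2 => h' (h.2.2 a' h2)⟩
  · exact absurd (h.2.1 a' k' h1) h'

theorem Ld.unique {y : Fin v → KK} {k k' : ℤ} {a a' : Fin v} (h : Ld y k a) (h' : Ld y k' a') :
    k = k' ∧ a = a' := by
  have h1 := h.le h'.1
  have h2 := h'.le h.1
  omega

theorem Ld.tp_smul {y : Fin v → KK} {k : ℤ} {a : Fin v} (h : Ld y k a) (j : ℤ) :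
    Ld (tp j • y) (j + k) a :=
  ⟨by simpa [coeff_tp_mul] using h.1, tp_smul_mem h.2.1, fun b hb => by
    simpa [coeff_tp_mul] using h.2.2 b hb⟩

/-- the Iwahori condition: integral, and lower unitriangular modulo `t` -/
structure Iw (i : Mx v) : Prop where
  ge : GeM 0 i
  diag : ∀ a, (i a a).coeff 0 = 1
  upper : ∀ a b, a < b → (i a b).coeff 0 = 0

theorem Iw.det {i : Mx v} (h : Iw i) : i.det ≠ 0 ∧ i.det.order = 0 := by
  refine order_eq_of_ge h.ge.det.1 ?_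
  rw [h.ge.det.2, det_of_lowerTriangular]
  · simp [h.diag]
  · exact fun a b hab => h.upper a b hab

theorem Iw.mu1_ge {i : Mx v} (h : Iw i) (m : ℤ) : mu1 i (Lt.ge v m) = Lt.ge v m :=
  h.ge.mu1_eq h.det.1 h.det.2 m

theorem Iw.geM_inv {i : Mx v} (h : Iw i) : GeM 0 i⁻¹ := h.ge.inv h.det.1 h.det.2

theorem Iw.bd {i : Mx v} (h : Iw i) {L : Sb v} (hL : Bd n L) : Bd n (mu1 i L) :=
  hL.mu1 (m := 0) h.det.1 h.ge h.geM_inv

theorem Iw.ld {i : Mx v} (h : Iw i) {y : Fin v → KK} {k : ℤ} {a : Fin v} (hy : Ld y k a) :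
    Ld (i *ᵥ y) k a := by
  have e : ∀ b, ((i *ᵥ y) b).coeff k = ∑ c, (i b c).coeff 0 * (y c).coeff k := fun b => by
    simp only [mulVec, dotProduct, HahnSeries.coeff_sum]
    exact Finset.sum_congr rfl fun c _ => by
      simpa using coeff_mul_lowest (h.ge b c) (hy.2.1 c)
  refine ⟨?_, by simpa using h.ge.mulVec hy.2.1, fun b hb => ?_⟩
  · rw [e, Finset.sum_eq_single a, h.diag, one_mul]
    · exact hy.1
    · intro c _ hc
      rcases lt_or_gt_of_ne hc with h1 | h1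
      · rw [hy.2.2 c h1, mul_zero]
      · rw [h.upper a c h1, zero_mul]
    · simp
  · rw [e]
    refine Finset.sum_eq_zero fun c _ => ?_
    rcases lt_or_ge c a with h1 | h1
    · rw [hy.2.2 c h1, mul_zero]
    · rw [h.upper b c (hb.trans_le h1), zero_mul]

/-- the exponents of the Hermite normal form -/
noncomputable def lam1 (L : Sb v) (a : Fin v) : ℤ := sInf {k | ∃ y ∈ L, Ld y k a}

theorem ld_single (k : ℤ) (a : Fin v) : Ld (tp k • (Pi.single a 1 : Fin v → KK)) k a := by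
  have : Ld (Pi.single a 1 : Fin v → KK) 0 a :=
    ⟨by simp, single_mem_ge a, fun b hb => by simp [Pi.single_eq_of_ne hb.ne]⟩
  simpa using this.tp_smul k

theorem Bd.lam1_le_iff {L : Sb v} (h : Bd n L) {a : Fin v} {k : ℤ} :
    lam1 L a ≤ k ↔ ∃ y ∈ L, Ld y k a := by
  have h1 : BddBelow {k | ∃ y ∈ L, Ld y k a} :=
    ⟨-n, by rintro k ⟨y, hy, h2⟩; exact not_lt.1 fun h3 => h2.1 (h.2 hy a k h3)⟩
  refine ⟨fun hk => ?_, fun hk => csInf_le h1 hk⟩
  have h0 : {k | ∃ y ∈ L, Ld y k a}.Nonempty := ⟨n, _, h.1 (ld_single n a).2.1, ld_single n a⟩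
  obtain ⟨y, hy, h2⟩ := Int.csInf_mem h0 h1
  refine ⟨_, ksmul_mem ((ge_tp (k - lam1 L a)).mono (by omega)) hy, ?_⟩
  simpa [lam1] using h2.tp_smul (k - lam1 L a)

theorem Bd.abs_lam1_le {L : Sb v} (h : Bd n L) (a : Fin v) : |lam1 L a| ≤ n := by
  refine abs_le.2 ⟨?_, h.lam1_le_iff.2 ⟨_, h.1 (ld_single n a).2.1, ld_single n a⟩⟩
  obtain ⟨y, hy, h2⟩ := h.lam1_le_iff.1 (le_refl (lam1 L a))
  exact not_lt.1 fun h3 => h2.1 (h.2 hy a _ h3)

/-- `t^lam O^v` -/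
def gl (l : Fin v → ℤ) : Sb v where
  carrier := {y | ∀ b, Ge (l b) (y b)}
  zero_mem' _ := Ge.zero _
  add_mem' h h' b := (h b).add (h' b)
  smul_mem' f _ h b := (h b).osmul f

theorem mem_gl {l : Fin v → ℤ} {y : Fin v → KK} : y ∈ gl l ↔ ∀ b, Ge (l b) (y b) := Iff.rfl

/-- `t^lam` -/
noncomputable def dg (l : Fin v → ℤ) : Mx v := diagonal fun a => tp (l a)

theorem det_dg (l : Fin v → ℤ) : (dg l).det = tp (∑ a, l a) := by
  rw [dg, det_diagonal]
  exact (map_prod (⟨⟨fun k => tp k.toAdd, tp_zero⟩, fun a b => tp_add _ _⟩ :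
    Multiplicative ℤ →* KK) (fun a => Multiplicative.ofAdd (l a)) _).symm

theorem det_dg_ne (l : Fin v → ℤ) : (dg l).det ≠ 0 := by rw [det_dg]; exact tp_ne_zero _

theorem order_det_dg (l : Fin v → ℤ) : (dg l).det.order = ∑ a, l a := by rw [det_dg, order_tp]

theorem dg_mul (l l' : Fin v → ℤ) : dg l * dg l' = dg (l + l') := by
  simp [dg, diagonal_mul_diagonal, tp_add]

theorem dg_zero : dg (0 : Fin v → ℤ) = 1 := diagonal_one

theorem dg_inv (l : Fin v → ℤ) : (dg l)⁻¹ = dg (-l) :=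
  inv_eq_right_inv (by rw [dg_mul, add_neg_cancel, dg_zero])

theorem mu1_dg_gl (l l' : Fin v → ℤ) : mu1 (dg l) (gl l') = gl (l + l') :=
  Submodule.ext fun y => by
    rw [mem_mu1_iff (det_dg_ne l), dg_inv]
    simp only [mem_gl, dg, mulVec_diagonal, ge_tp_mul_iff, Pi.neg_apply, sub_neg_eq_add,
      Pi.add_apply, add_comm]

theorem la1_dg (l : Fin v → ℤ) : la1 (dg l) = gl l := by
  rw [la1_eq]
  exact (mu1_dg_gl l 0).trans (by rw [add_zero])

theorem bd_gl {l : Fin v → ℤ} (h : ∀ a, |l a| ≤ n) : Bd n (gl l) :=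
  ⟨fun _ hy b => (hy b).mono (le_of_abs_le (h b)),
    fun _ hy b => (hy b).mono (neg_le_of_abs_le (h b))⟩

theorem exists_abs_le (l : Fin v → ℤ) : ∃ n : ℕ, ∀ a, |l a| ≤ n := by
  obtain ⟨M, hM⟩ := Finite.bddAbove_range fun a => |l a|
  exact ⟨M.toNat, fun a => (hM (mem_range_self a)).trans (Int.self_le_toNat M)⟩

theorem Iw.lam1 {i : Mx v} (h : Iw i) (l : Fin v → ℤ) : lam1 (mu1 i (gl l)) = l := by
  obtain ⟨n, hn⟩ := exists_abs_le l
  have hb := h.bd (bd_gl hn)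
  funext a
  refine le_antisymm (hb.lam1_le_iff.2 ⟨_, mulVec_mem_mu1 i (fun b => ?_),
    h.ld (ld_single (l a) a)⟩) ?_
  · rcases eq_or_ne b a with rfl | hb
    · exact (ld_single (l b) b).2.1 b
    · simpa [Pi.single_eq_of_ne hb] using Ge.zero _
  · obtain ⟨y, hy, h2⟩ := hb.lam1_le_iff.1 (le_refl (Lt.lam1 (mu1 i (gl l)) a))
    obtain ⟨z, hz, rfl⟩ := mem_mu1.1 hy
    obtain ⟨k, b, h3⟩ := exists_ld (y := z) (by rintro rfl; exact h2.1 (by simp))
    obtain ⟨h4, rfl⟩ := h2.unique (h.ld h3)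
    rw [h4]
    exact not_lt.1 fun h5 => h3.1 (hz _ k h5)

theorem Iw.one : Iw (1 : Mx v) :=
  ⟨fun a b => single_mem_ge b a |> fun h => by simpa [one_apply, Pi.single_apply] using h,
    fun a => by simp, fun a b h => by simp [one_apply_ne h.ne]⟩

theorem lam1_gl (l : Fin v → ℤ) : lam1 (gl l) = l := by
  simpa [mu1_one] using Iw.one.lam1 l

/-- an element whose coefficients vanish at the jumps outside an upper set vanishes outside it -/
theorem Bd.coeff_eq_zero {L : Sb v} (h : Bd n L) {y : Fin v → KK} (hy : y ∈ L)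
    {D : ℤ → Fin v → Prop} (hD : ∀ k a k' a', D k' a' → (k < k' ∨ k = k' ∧ a ≤ a') → D k a)
    (h0 : ∀ k a, lam1 L a ≤ k → D k a → (y a).coeff k = 0) {k : ℤ} {a : Fin v} (hk : D k a) :
    (y a).coeff k = 0 := by
  by_contra h1
  obtain ⟨k', a', h2⟩ := exists_ld (y := y) (by rintro rfl; exact h1 rfl)
  exact h2.1 (h0 _ _ (h.lam1_le_iff.2 ⟨y, hy, h2⟩) (hD _ _ _ _ hk (h2.le h1)))

theorem Bd.eq_zero {L : Sb v} (h : Bd n L) {y : Fin v → KK} (hy : y ∈ L)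
    (h0 : ∀ k a, lam1 L a ≤ k → (y a).coeff k = 0) : y = 0 :=
  funext fun a => HahnSeries.ext (funext fun k => h.coeff_eq_zero hy (D := fun _ _ => True)
    (fun _ _ _ _ _ _ => trivial) (fun k a hk _ => h0 k a hk) trivial)

theorem Bd.eq_mu1 {L : Sb v} (h : Bd n L) {i : Mx v} (hi : Iw i)
    (hl : Lt.mu1 i (gl (lam1 L)) ≤ L) : L = Lt.mu1 i (gl (lam1 L)) := by
  refine le_antisymm (fun y hy => ?_) hl
  let z := i⁻¹ *ᵥ y
  let z₁ : Fin v → KK := fun a => Lt.hi (lam1 L a) (z a)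
  have h1 : i *ᵥ z₁ ∈ Lt.mu1 i (gl (lam1 L)) := mulVec_mem_mu1 i fun a => ge_hi _ _
  have h2 : i *ᵥ (z - z₁) ∈ L := by
    rw [mulVec_sub, mulVec_inv hi.det.1]
    exact L.sub_mem hy (hl h1)
  by_cases h3 : z - z₁ = 0
  · rw [← sub_eq_zero.1 h3, mulVec_inv hi.det.1] at h1
    exact h1
  · obtain ⟨k, a, h4⟩ := exists_ld h3
    refine absurd ?_ h4.1
    rw [Pi.sub_apply, HahnSeries.coeff_sub, coeff_hi,
      if_pos (h.lam1_le_iff.2 ⟨_, h2, hi.ld h4⟩), sub_self]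

theorem mu1_gl_le {i : Mx v} {l : Fin v → ℤ} {L : Sb v} (h : ∀ a, tp (l a) • iᵀ a ∈ L) :
    mu1 i (gl l) ≤ L := by
  rw [← la1_dg, ← la1_mul, la1_le_iff]
  intro a
  rw [show (i * dg l)ᵀ a = tp (l a) • iᵀ a from funext fun b => by simp [dg, mul_comm]]
  exact h a

theorem Bd.exists_iw {L : Sb v} (h : Bd n L) : ∃ i, Iw i ∧ L = Lt.mu1 i (gl (lam1 L)) := by
  choose y hy h2 using fun a => h.lam1_le_iff.1 (le_refl (lam1 L a))
  let i : Mx v := Matrix.of fun b a =>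
    tp (-lam1 L a) * (((y a a).coeff (lam1 L a))⁻¹ • y a b)
  have hi : Iw i := ⟨fun b a => by simpa [i] using (((h2 a).2.1 b).smul _).tp_mul (-lam1 L a),
    fun a => by simp [i, coeff_tp_mul, inv_mul_cancel₀ (h2 a).1],
    fun a b hab => by simp [i, coeff_tp_mul, (h2 b).2.2 a hab]⟩
  refine ⟨i, hi, h.eq_mu1 hi (mu1_gl_le fun a => ?_)⟩
  have e : tp (lam1 L a) • iᵀ a = ((y a a).coeff (lam1 L a))⁻¹ • y a := funext fun b => by
    change tp _ * (tp _ * _) = _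
    rw [← mul_assoc, tp_mul_neg, one_mul]
    rfl
  rw [e]
  exact csmul_mem _ (hy a)

/-- the charge -/
noncomputable def ch1 (L : Sb v) : ℤ := ∑ a, lam1 L a

theorem Bd.exists_la1 {L : Sb v} (h : Bd n L) :
    ∃ g : Mx v, g.det ≠ 0 ∧ g.det.order = ch1 L ∧ la1 g = L := by
  obtain ⟨i, hi, e⟩ := h.exists_iw
  obtain ⟨h1, h2⟩ := order_det_mul hi.det.1 (det_dg_ne (lam1 L))
  exact ⟨_, h1, by rw [h2, hi.det.2, zero_add, order_det_dg, ch1], by rw [la1_mul, la1_dg, ← e]⟩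

theorem ch1_la1 {g : Mx v} (hg : g.det ≠ 0) : ch1 (la1 g) = g.det.order := by
  obtain ⟨m, hm⟩ := exists_bd_la1 hg
  obtain ⟨h, h1, h2, h3⟩ := hm.exists_la1
  rw [← h2, order_eq_of_la1_eq h1 hg h3]

theorem Bd.ch1_mu1 {L : Sb v} (h : Bd n L) {g : Mx v} (hg : g.det ≠ 0) :
    ch1 (Lt.mu1 g L) = g.det.order + ch1 L := by
  obtain ⟨k, h1, h2, rfl⟩ := h.exists_la1
  rw [← la1_mul, ch1_la1 (order_det_mul hg h1).1, (order_det_mul hg h1).2, h2]

theorem ch1_gl (l : Fin v → ℤ) : ch1 (gl l) = ∑ a, l a := by rw [ch1, lam1_gl]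

theorem ch1_ge (m : ℤ) : ch1 (ge v m) = v * m := by
  exact (ch1_gl (v := v) fun _ => m).trans (by simp)

theorem Bd.eq_of_le {L L' : Sb v} {m : ℕ} (h : Bd n L) (h' : Bd m L') (hl : L ≤ L')
    (hc : ch1 L ≤ ch1 L') : L = L' := by
  obtain ⟨g, h1, h2, rfl⟩ := h.exists_la1
  obtain ⟨g', h3, h4, rfl⟩ := h'.exists_la1
  exact (order_le_of_la1_le h1 h3 hl).2 (by omega)

end Vale.Agent.P291Z.Lt
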