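import Vale.Agent.P291Z.Lat.L2

/-!
# Dimensions, continuity criteria, local frames, semicontinuity of the Hermite exponents
-/

set_option linter.all false

namespace Vale.Agent.P291Z.Lt

open Set Function Topology Filter Matrix

variable {v n : ℕ}

theorem mulVec_csmul {w : ℕ} (g : Matrix (Fin w) (Fin v) KK) (c : ℂ) (y : Fin v → KK) :
    g *ᵥ (c • y) = c • g *ᵥ y := by
  have e : ∀ {m : ℕ} (z : Fin m → KK), c • z = (HahnSeries.C c : KK) • z := fun z =>
    funext fun b => HahnSeries.C_mul_eq_smul.symm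
  rw [e, e]
  exact mulVec_smul _ _ _

/-- the jumps of `t^l O^v` below `n` -/
abbrev JI (n : ℕ) (l : Fin v → ℤ) : Type := {p : Ix v n // l p.1 ≤ p.2}

/-- the coordinates at the jumps -/
noncomputable def piJ (n : ℕ) (l : Fin v → ℤ) : Eu v n →ₗ[ℂ] (JI n l → ℂ) where
  toFun u p := u p.1
  map_add' _ _ := rfl
  map_smul' _ _ := rfl

/-- extension by zero -/
noncomputable def exJ (n : ℕ) (l : Fin v → ℤ) : (JI n l → ℂ) →ₗ[ℂ] Eu v n where
  toFun w := WithLp.toLp 2 fun p => if h : l p.1 ≤ p.2 then w ⟨p, h⟩ else 0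
  map_add' w w' := by
    ext p
    simp only [PiLp.add_apply, Pi.add_apply]
    split_ifs <;> simp
  map_smul' c w := by
    ext p
    simp only [PiLp.smul_apply, Pi.smul_apply, RingHom.id_apply]
    split_ifs <;> simp

theorem Bd.red_coeff_eq_zero {L : Sb v} (h : Bd n L) {u : Eu v n} (hu : u ∈ red n L)
    {D : ℤ → Fin v → Prop} (hD : ∀ k a k' a', D k' a' → (k < k' ∨ k = k' ∧ a ≤ a') → D k a)
    (h0 : ∀ p : Ix v n, lam1 L p.1 ≤ p.2 → D p.2 p.1 → u p = 0) (p : Ix v n) (hp : D p.2 p.1) :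
    u p = 0 := by
  have := h.coeff_eq_zero hu hD (fun k a h1 h2 => by
    rw [coeff_em]
    split_ifs with h3
    exacts [h0 (a, ⟨k, h3⟩) h1 h2, rfl]) hp
  rwa [coeff_em, dif_pos p.2.2] at this

theorem Bd.red_eq_zero {L : Sb v} (h : Bd n L) {u : Eu v n} (hu : u ∈ red n L)
    (h0 : piJ n (lam1 L) u = 0) : u = 0 := by
  ext p
  exact h.red_coeff_eq_zero hu (D := fun _ _ => True) (fun _ _ _ _ _ _ => trivial)
    (fun p hp _ => congrFun h0 ⟨p, hp⟩) p trivial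

theorem Bd.piJ_bij {L : Sb v} (h : Bd n L) :
    Bijective (piJ n (lam1 L) ∘ₗ (red n L).subtype) := by
  obtain ⟨i, hi, e⟩ := h.exists_iw
  have h1 : Injective (piJ n (lam1 L) ∘ₗ (red n L).subtype) := by
    rw [injective_iff_map_eq_zero]
    exact fun u hu => Subtype.ext (h.red_eq_zero u.2 hu)
  have h2 : ∀ w, em n (exJ n (lam1 L) w) ∈ gl (lam1 L) := fun w a k hk => by
    rw [coeff_em]
    split_ifs with h3
    exacts [dif_neg (not_le.2 hk), rfl]
  let φ : (JI n (lam1 L) → ℂ) →ₗ[ℂ] red n L :=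
    { toFun := fun w => ⟨tr n (i *ᵥ em n (exJ n (lam1 L) w)),
        (h.mem_iff_red.1 (e.ge (mulVec_mem_mu1 i (h2 w)))).2⟩
      map_add' := fun w w' => Subtype.ext (by
        simp only [map_add, mulVec_add, Submodule.coe_add])
      map_smul' := fun c w => Subtype.ext (by
        simp only [map_smul, mulVec_csmul, RingHom.id_apply, Submodule.coe_smul]) }
  have h3 : Injective φ := by
    rw [injective_iff_map_eq_zero]
    intro w hw
    have h4 : i *ᵥ em n (exJ n (lam1 L) w) ∈ ge v n :=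
      mem_ge_of_tr (h.2 (e.ge (mulVec_mem_mu1 i (h2 w)))) (congrArg Subtype.val hw)
    have h5 := tr_eq_zero (n := n) (ge_mono (by simp) (hi.geM_inv.mulVec h4))
    rw [inv_mulVec hi.det.1, tr_em] at h5
    funext p
    have h6 : exJ n (lam1 L) w p.1 = 0 := by rw [h5]; rfl
    exact (dif_pos p.2).symm.trans h6
  exact ⟨h1, (LinearMap.injective_iff_surjective_of_finrank_eq_finrank (le_antisymm
    (LinearMap.finrank_le_finrank_of_injective h1)
    (LinearMap.finrank_le_finrank_of_injective h3))).1 h1⟩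

theorem Bd.exists_J {L : Sb v} (h : Bd n L) (w : Ix v n → ℂ) :
    ∃ u ∈ red n L, ∀ p : Ix v n, lam1 L p.1 ≤ p.2 → u p = w p := by
  obtain ⟨u, hu⟩ := h.piJ_bij.2 fun p => w p.1
  exact ⟨u, u.2, fun p hp => congrFun hu ⟨p, hp⟩⟩

/-- the jumps as a finite set -/
noncomputable def JS (n : ℕ) (l : Fin v → ℤ) : Finset (Ix v n) := Finset.univ.filter fun p => l p.1 ≤ p.2

theorem Bd.rk_eq_card {L : Sb v} (h : Bd n L) : rk n L = (JS n (lam1 L)).card := by
  rw [rk, (LinearEquiv.ofBijective _ h.piJ_bij).finrank_eq, Module.finrank_fintype_fun_eq_card,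
    Fintype.card_subtype, JS]

theorem sum_JS {l : Fin v → ℤ} (hl : ∀ a, |l a| ≤ n) (w : ℤ → Fin v → ℤ) :
    ∑ p ∈ JS n l, w p.2 p.1 = ∑ a, ∑ k ∈ Finset.Ico (l a) n, w k a := by
  rw [JS, Finset.sum_filter, Fintype.sum_prod_type]
  refine Finset.sum_congr rfl fun a _ => ?_
  rw [Finset.sum_coe_sort (Finset.Ico (-n : ℤ) n) fun k => if l a ≤ k then w k a else 0,
    ← Finset.sum_filter]
  refine Finset.sum_congr ?_ fun _ _ => rfl
  ext k
  have := abs_le.1 (hl a)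
  simp only [Finset.mem_filter, Finset.mem_Ico]
  omega

theorem sum_Ico_id {l m : ℤ} (h : l ≤ m) :
    2 * ∑ k ∈ Finset.Ico l m, k = m * (m - 1) - l * (l - 1) := by
  induction m, h using Int.le_induction with
  | base => simp
  | succ m hm ih =>
    rw [← Finset.insert_Ico_right_eq_Ico_add_one hm, Finset.sum_insert (by simp), mul_add, ih]
    ring

theorem card_JS {l : Fin v → ℤ} (hl : ∀ a, |l a| ≤ n) :
    ((JS n l).card : ℤ) = v * n - ∑ a, l a := by
  have := sum_JS hl fun _ _ => 1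
  simp only [Finset.sum_const, nsmul_eq_mul, mul_one, Int.card_Ico] at this
  rw [this, Finset.sum_congr rfl fun a _ => Int.toNat_of_nonneg (sub_nonneg.2 (le_of_abs_le (hl a)))]
  simp

theorem Bd.rk_eq {L : Sb v} (h : Bd n L) : (rk n L : ℤ) = v * n - ch1 L := by
  rw [h.rk_eq_card, card_JS h.abs_lam1_le, ch1]

section fam

variable {X Y : Type*} [TopologicalSpace X] [TopologicalSpace Y]

theorem CL.eventually_ch1 {ℓ : X → Sb v} (h : CL ℓ) (hb : ∀ x, Bd n (ℓ x)) (x₀ : X) :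
    ∀ᶠ x in 𝓝 x₀, ch1 (ℓ x) = ch1 (ℓ x₀) := by
  filter_upwards [h.eventually_rk hb x₀] with x hx
  have h1 := (hb x).rk_eq
  have h2 := (hb x₀).rk_eq
  omega

theorem CL.continuous_ch1 {ℓ : X → Sb v} (h : CL ℓ) (hb : ∀ x, Bd n (ℓ x)) :
    Continuous fun x => ch1 (ℓ x) :=
  continuous_iff_continuousAt.2 fun x₀ => tendsto_const_nhds.congr'
    ((h.eventually_ch1 hb x₀).mono fun _ hx => hx.symm)

theorem cl_of_lower' {ℓ : X → Sb v} (hb : ∀ x, Bd n (ℓ x))
    (hr : ∀ x₀, ∀ᶠ x in 𝓝 x₀, ch1 (ℓ x) = ch1 (ℓ x₀))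
    (hl : ∀ x₀, ∀ y₀ ∈ ℓ x₀, ∃ y : X → Fin v → KK, CV y ∧ y x₀ = y₀ ∧ ∀ᶠ x in 𝓝 x₀, y x ∈ ℓ x) :
    CL ℓ :=
  cl_of_lower hb (fun x₀ => by
    filter_upwards [hr x₀] with x hx
    have h1 := (hb x).rk_eq
    have h2 := (hb x₀).rk_eq
    omega) hl

theorem CM.exists_geM {α β : Type*} [Finite α] [Finite β] {g : X → Matrix α β KK} (hg : CM g) :
    ∃ m : ℕ, ∀ x, GeM (-m) (g x) := by
  obtain ⟨m, hm⟩ := CV.exists_ge (y := fun x (p : α × β) => g x p.1 p.2) fun p => hg p.1 p.2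
  exact ⟨m, fun x a b => hm x (a, b)⟩

theorem exists_bd_mu1 {g : X → Mx v} (hg : CM g) {c : ℤ}
    (hd : ∀ x, (g x).det ≠ 0 ∧ (g x).det.order = c) {ℓ : X → Sb v} (hb : ∀ x, Bd n (ℓ x)) :
    ∃ m, ∀ x, Bd m (mu1 (g x) (ℓ x)) := by
  obtain ⟨a, ha⟩ := hg.exists_geM
  obtain ⟨b, hb'⟩ := (hg.inv hd).exists_geM
  exact ⟨_, fun x => (hb x).mu1 (hd x).1 (m := max a b) ((ha x).mono (by omega))
    ((hb' x).mono (by omega))⟩

/-- `g L` depends continuously on `g` and `L`. -/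
theorem CL.mu1 {g : X → Mx v} (hg : CM g) {c : ℤ}
    (hd : ∀ x, (g x).det ≠ 0 ∧ (g x).det.order = c) {ℓ : X → Sb v} (h : CL ℓ)
    (hb : ∀ x, Bd n (ℓ x)) : CL fun x => mu1 (g x) (ℓ x) := by
  obtain ⟨m, hm⟩ := exists_bd_mu1 hg hd hb
  refine cl_of_lower' hm (fun x₀ => ?_) fun x₀ y₀ hy => ?_
  · filter_upwards [h.eventually_ch1 hb x₀] with x hx
    rw [(hb x).ch1_mu1 (hd x).1, (hb x₀).ch1_mu1 (hd x₀).1, hx, (hd x).2, (hd x₀).2]
  · obtain ⟨z, hz, rfl⟩ := mem_mu1.1 hy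
    exact ⟨fun x => g x *ᵥ lift n (ℓ x) z, hg.mulVec ((CV.const z).lift h hb),
      congrArg (g x₀ *ᵥ ·) ((hb x₀).lift_eq hz),
      Eventually.of_forall fun x => mulVec_mem_mu1 _ ((hb x).lift_mem ((hb x₀).2 hz))⟩

theorem CM.cl_la1 {g : X → Mx v} (hg : CM g) {c : ℤ}
    (hd : ∀ x, (g x).det ≠ 0 ∧ (g x).det.order = c) : CL fun x => la1 (g x) := by
  simp only [la1_eq]
  exact (CL.const _).mu1 hg hd fun _ => bd_ge (n := 0) (by simp)

/-- the condition `x L ⊆ L'` is closed -/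
theorem isClosed_maps {w m : ℕ} {g : X → Matrix (Fin w) (Fin v) KK} (hg : CM g) {ℓ : X → Sb v}
    (h : CL ℓ) (hb : ∀ x, Bd n (ℓ x)) {ℓ' : X → Sb w} (h' : CL ℓ') (hb' : ∀ x, Bd m (ℓ' x)) :
    IsClosed {x | ∀ y ∈ ℓ x, g x *ᵥ y ∈ ℓ' x} := by
  have e : {x | ∀ y ∈ ℓ x, g x *ᵥ y ∈ ℓ' x} =
      ⋂ y ∈ ge v (-n), {x | g x *ᵥ lift n (ℓ x) y ∈ ℓ' x} := by
    ext x
    simp only [mem_setOf_eq, mem_iInter]
    exact ⟨fun H y hy => H _ ((hb x).lift_mem hy), fun H y hy => by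
      simpa only [(hb x).lift_eq hy] using H y ((hb x).2 hy)⟩
  rw [e]
  exact isClosed_biInter fun y _ => isClosed_mem h' hb' (hg.mulVec ((CV.const y).lift h hb))

/-- a family of elements of the lattices that generates at `x₀` generates near `x₀` -/
theorem eventually_la1_eq {g : X → Mx v} (hg : CM g) {ℓ : X → Sb v} (h : CL ℓ)
    (hb : ∀ x, Bd n (ℓ x)) (hle : ∀ x, la1 (g x) ≤ ℓ x) {x₀ : X} (h0 : la1 (g x₀) = ℓ x₀) :
    ∀ᶠ x in 𝓝 x₀, la1 (g x) = ℓ x := by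
  have h1 : (g x₀).det ≠ 0 := det_ne_of_ge_le ((hb x₀).1.trans h0.ge)
  have h2 : (g x₀).det.coeff (g x₀).det.order ≠ 0 := fun e =>
    h1 (HahnSeries.coeff_order_eq_zero.1 e)
  filter_upwards [h.eventually_ch1 hb x₀,
    (hg.det.2 (g x₀).det.order).continuousAt.eventually_ne h2] with x h3 h4
  have h5 : (g x).det ≠ 0 := fun e => h4 (by rw [e]; rfl)
  obtain ⟨m, hm⟩ := exists_bd_la1 h5
  refine hm.eq_of_le (hb x) (hle x) ?_
  rw [h3, ← h0, ch1_la1 h5, ch1_la1 h1]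
  exact HahnSeries.order_le_of_coeff_ne_zero h4

theorem continuous_of_solve {E F : Type*} [NormedAddCommGroup E] [NormedSpace ℂ E]
    [FiniteDimensional ℂ E] [NormedAddCommGroup F] [NormedSpace ℂ F] {A : X → E →L[ℂ] F}
    (hA : Continuous A) (hi : ∀ x, Injective (A x)) {b : X → E}
    (hr : Continuous fun x => A x (b x)) : Continuous b := by
  refine continuous_iff_continuousAt.2 fun x₀ => ?_
  obtain ⟨K, -, hK⟩ := LinearMap.exists_antilipschitzWith (A x₀).toLinearMap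
    (LinearMap.ker_eq_bot.2 (hi x₀))
  have h1 : ∀ e, ‖e‖ ≤ K * ‖A x₀ e‖ := fun e => ZeroHomClass.bound_of_antilipschitz _ hK e
  have h2 : Tendsto (fun x => 2 * (K * ‖A x (b x) - A x (b x₀)‖)) (𝓝 x₀) (𝓝 0) := by
    have := (((hr.sub (hA.clm_apply (continuous_const (y := b x₀)))).norm.tendsto x₀).const_mul
      (K : ℝ)).const_mul 2
    simpa using this
  have h3 : ∀ᶠ x in 𝓝 x₀, (K : ℝ) * ‖A x₀ - A x‖ < 1 / 2 :=
    (continuous_const.mul (continuous_const.sub hA).norm).continuousAt.eventually_lt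
      continuousAt_const (by simp)
  rw [ContinuousAt, tendsto_iff_norm_sub_tendsto_zero]
  refine squeeze_zero' (Eventually.of_forall fun _ => norm_nonneg _) ?_ h2
  filter_upwards [h3] with x hx
  have h4 := h1 (b x - b x₀)
  rw [show A x₀ (b x - b x₀) = (A x₀ - A x) (b x - b x₀) + (A x (b x) - A x (b x₀)) by
    simp] at h4
  have h5 := (norm_add_le ((A x₀ - A x) (b x - b x₀)) (A x (b x) - A x (b x₀))).trans
    (add_le_add ((A x₀ - A x).le_opNorm _) le_rfl)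
  have h6 := mul_le_mul_of_nonneg_left h5 K.2
  have h7 := mul_le_mul_of_nonneg_right hx.le (norm_nonneg (b x - b x₀))
  change (K : ℝ) * _ ≤ (K : ℝ) * _ at h6
  nlinarith

theorem CL.eventually_card {ℓ : X → Sb v} (h : CL ℓ) (hb : ∀ x, Bd n (ℓ x)) (x₀ : X)
    {D : ℤ → Fin v → Prop} [∀ k a, Decidable (D k a)]
    (hD : ∀ k a k' a', D k' a' → (k < k' ∨ k = k' ∧ a ≤ a') → D k a) :
    ∀ᶠ x in 𝓝 x₀, ((JS n (lam1 (ℓ x₀))).filter fun p => D p.2 p.1).card ≤
      ((JS n (lam1 (ℓ x))).filter fun p => D p.2 p.1).card := by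
  classical
  let T : (Fin v → ℤ) → Type := fun l => (JS n l).filter fun p => D p.2 p.1
  have hT : ∀ l (p : T l), l p.1.1 ≤ p.1.2 ∧ D p.1.2 p.1.1 := fun l p => by
    simpa [JS] using p.2
  choose u hu hu' using fun p : T (lam1 (ℓ x₀)) => (hb x₀).exists_J (Pi.single p.1 1)
  let V : X → T (lam1 (ℓ x₀)) → {p : Ix v n // D p.2 p.1} → ℂ :=
    fun x p q => prj n (ℓ x) (u p) q.1
  have hV : Continuous V := continuous_pi fun p => continuous_pi fun q =>
    (PiLp.continuous_apply 2 _ q.1).comp (((cl_iff hb).1 h).clm_apply continuous_const)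
  have h0 : LinearIndependent ℂ (V x₀) := Fintype.linearIndependent_iff.2 fun c hc p => by
    have := congrFun hc ⟨p.1, (hT _ p).2⟩
    simp only [Finset.sum_apply, Pi.smul_apply, V, fun q => prj_eq_self.2 (hu q),
      fun q => hu' q p.1 (hT _ p).1, Pi.zero_apply] at this
    rwa [Finset.sum_eq_single p, Pi.single_eq_same, smul_eq_mul, mul_one] at this
    · intro q _ hq
      rw [Pi.single_eq_of_ne fun e => hq (Subtype.ext e).symm, smul_zero]
    · simp
  filter_upwards [hV.continuousAt.eventually h0.eventually] with x hx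
  have h1 : LinearIndependent ℂ fun (p : T (lam1 (ℓ x₀))) (q : T (lam1 (ℓ x))) =>
      prj n (ℓ x) (u p) q.1 := Fintype.linearIndependent_iff.2 fun c hc => by
    refine Fintype.linearIndependent_iff.1 hx c (funext fun q => ?_)
    have h2 : ∑ p, c p • prj n (ℓ x) (u p) ∈ red n (ℓ x) :=
      Submodule.sum_mem _ fun p _ => Submodule.smul_mem _ _ (prj_mem _ _)
    have h3 := (hb x).red_coeff_eq_zero h2 hD (fun r h4 h5 => by
      simpa using congrFun hc ⟨r, by simp [JS, h4, h5]⟩) q.1 q.2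
    simpa [V] using h3
  have h2 := h1.fintype_card_le_finrank
  rw [Module.finrank_fintype_fun_eq_card] at h2
  exact (Fintype.card_coe _).ge.trans (h2.trans (Fintype.card_coe _).le)

end fam

theorem abel_aux {α : Type*} [Fintype α] [DecidableEq α] (w : α → ℤ) (M : ℕ) (hM : ∀ p, |w p| < M)
    (J : Finset α) : ∑ m ∈ Finset.Ioc (-M : ℤ) M, ((J.filter fun p => w p < m).card : ℤ) =
      J.card * M - ∑ p ∈ J, w p := by
  simp only [Finset.card_filter, Nat.cast_sum]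
  rw [Finset.sum_comm, ← nsmul_eq_mul, ← Finset.sum_const, ← Finset.sum_sub_distrib]
  refine Finset.sum_congr rfl fun p _ => ?_
  have := abs_lt.1 (hM p)
  rw [← Nat.cast_sum, ← Finset.card_filter, show (Finset.Ioc (-M : ℤ) M).filter (fun m => w p < m) =
    Finset.Ioc (w p) M by
      ext m
      simp only [Finset.mem_filter, Finset.mem_Ioc]
      omega, Int.card_Ioc]
  omega

theorem abel {α : Type*} [Fintype α] [DecidableEq α] (w : α → ℤ) {M : ℕ} (hM : ∀ p, |w p| < M)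
    {J₀ J : Finset α} (hc : J₀.card = J.card)
    (h : ∀ m ∈ Finset.Icc (-M : ℤ) M,
      (J₀.filter fun p => w p < m).card ≤ (J.filter fun p => w p < m).card) :
    ∑ p ∈ J, w p ≤ ∑ p ∈ J₀, w p ∧
      (Injective w → ∑ p ∈ J, w p = ∑ p ∈ J₀, w p → J₀ = J) := by
  have h1 := abel_aux w M hM J
  have h2 := abel_aux w M hM J₀
  have h3 : ∀ m ∈ Finset.Ioc (-M : ℤ) M, ((J₀.filter fun p => w p < m).card : ℤ) ≤
      (J.filter fun p => w p < m).card := fun m hm =>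
    Int.ofNat_le.2 (h m (Finset.Ioc_subset_Icc_self hm))
  have h4 := Finset.sum_le_sum h3
  rw [hc] at h2
  refine ⟨by omega, fun hi he => ?_⟩
  have h5 := (Finset.sum_eq_sum_iff_of_le h3).1 (by omega)
  have key : ∀ (S : Finset α) p, (S.filter fun q => w q < w p + 1).card =
      (S.filter fun q => w q < w p).card + if p ∈ S then 1 else 0 := fun S p => by
    split_ifs with hp
    · rw [← Finset.card_insert_of_notMem (a := p) (by simp)]
      congr 1
      ext q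
      simp only [Finset.mem_filter, Finset.mem_insert]
      constructor
      · rintro ⟨h6, h7⟩
        rcases eq_or_ne (w q) (w p) with h8 | h8
        · exact Or.inl (hi h8)
        · exact Or.inr ⟨h6, by omega⟩
      · rintro (rfl | ⟨h6, h7⟩)
        exacts [⟨hp, by omega⟩, ⟨h6, by omega⟩]
    · congr 1
      ext q
      simp only [Finset.mem_filter]
      refine and_congr_right fun h6 => ?_
      have : w q ≠ w p := fun e => hp (hi e ▸ h6)
      omega
  ext p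
  have h6 := abs_lt.1 (hM p)
  have h7 := h5 (w p + 1) (by rw [Finset.mem_Ioc]; omega)
  have h8 := h5 (w p) (by rw [Finset.mem_Ioc]; omega)
  rw [key, key] at h7
  by_cases h9 : p ∈ J₀ <;> by_cases h10 : p ∈ J <;> simp [h9, h10] at h7 ⊢ <;> omega

/-- `∑ l_a ^ 2` -/
def nr1 (l : Fin v → ℤ) : ℤ := ∑ a, l a ^ 2

/-- a strictly monotone function for the closure order of the cells -/
def sc1 (l : Fin v → ℤ) : ℤ := ∑ a, (v * l a ^ 2 + 2 * (a : ℕ) * l a)

theorem JS_inj {l l' : Fin v → ℤ} (hl : ∀ a, |l a| ≤ n) (hl' : ∀ a, |l' a| ≤ n)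
    (h : JS n l = JS n l') : l = l' := by
  have key : ∀ {l l' : Fin v → ℤ}, (∀ a, |l a| ≤ n) → (∀ a, |l' a| ≤ n) → JS n l = JS n l' →
      ∀ a, l' a ≤ l a := fun {l l'} hl hl' h a => by
    have h1 := abs_le.1 (hl a)
    have h2 := abs_le.1 (hl' a)
    by_contra h3
    have h4 : ((a, ⟨l a, by rw [Finset.mem_Ico]; omega⟩) : Ix v n) ∈ JS n l := by simp [JS]
    rw [h] at h4
    exact h3 (by simpa [JS] using h4)
  exact funext fun a => le_antisymm (key hl' hl h.symm a) (key hl hl' h a)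

theorem CL.eventually_lam1 {X : Type*} [TopologicalSpace X] {ℓ : X → Sb v} (h : CL ℓ)
    (hb : ∀ x, Bd n (ℓ x)) (x₀ : X) :
    ∀ᶠ x in 𝓝 x₀, nr1 (lam1 (ℓ x₀)) ≤ nr1 (lam1 (ℓ x)) ∧ sc1 (lam1 (ℓ x₀)) ≤ sc1 (lam1 (ℓ x)) ∧
      (sc1 (lam1 (ℓ x₀)) = sc1 (lam1 (ℓ x)) → lam1 (ℓ x₀) = lam1 (ℓ x)) := by
  let w₁ : Ix v n → ℤ := fun p => p.2
  let w₂ : Ix v n → ℤ := fun p => p.2 * v + (p.1 : ℕ)
  obtain ⟨M₁, hM₁⟩ : ∃ M : ℕ, ∀ p, |w₁ p| < M := by
    obtain ⟨M, hM⟩ := Finite.bddAbove_range fun p => |w₁ p|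
    exact ⟨M.toNat + 1, fun p => by have := hM (mem_range_self p); omega⟩
  obtain ⟨M₂, hM₂⟩ : ∃ M : ℕ, ∀ p, |w₂ p| < M := by
    obtain ⟨M, hM⟩ := Finite.bddAbove_range fun p => |w₂ p|
    exact ⟨M.toNat + 1, fun p => by have := hM (mem_range_self p); omega⟩
  have hlt : ∀ (k k' : ℤ) (a a' : Fin v), k < k' → k * v + (a : ℕ) < k' * v + (a' : ℕ) :=
    fun k k' a a' hk => by
      have h1 : ((a : ℕ) : ℤ) < v := Int.ofNat_lt.2 a.2
      have h2 : (k + 1) * v ≤ k' * v := mul_le_mul_of_nonneg_right hk (by positivity)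
      have h3 : (0 : ℤ) ≤ (a' : ℕ) := by positivity
      nlinarith
  have hi : Injective w₂ := fun p q e => by
    have e' : (p.2 : ℤ) * v + (p.1 : ℕ) = q.2 * v + (q.1 : ℕ) := e
    have h1 : (p.2 : ℤ) = q.2 := le_antisymm (not_lt.1 fun h => (hlt _ _ _ _ h).ne' e')
      (not_lt.1 fun h => (hlt _ _ _ _ h).ne e')
    rw [h1] at e'
    exact Prod.ext (Fin.ext (by omega)) (Subtype.ext h1)
  have e₁ := (Finset.Icc (-M₁ : ℤ) M₁).eventually_all.2 fun m _ =>
    h.eventually_card hb x₀ (D := fun k _ => k < m) fun k a k' a' h1 h2 => by omega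
  have e₂ := (Finset.Icc (-M₂ : ℤ) M₂).eventually_all.2 fun m _ =>
    h.eventually_card hb x₀ (D := fun k a => k * v + (a : ℕ) < m) fun k a k' a' h1 h2 => by
      rcases h2 with h2 | ⟨rfl, h2⟩
      · exact (hlt _ _ _ _ h2).trans h1
      · have : (a : ℕ) ≤ a' := h2
        omega
  filter_upwards [e₁, e₂, h.eventually_rk hb x₀, h.eventually_ch1 hb x₀] with x h1 h2 h3 h4
  rw [(hb x).rk_eq_card, (hb x₀).rk_eq_card] at h3
  have h5 := (abel w₁ hM₁ h3.symm h1).1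
  obtain ⟨h6, h7⟩ := abel w₂ hM₂ h3.symm h2
  have f₁ : ∀ L : Sb v, Bd n L → 2 * ∑ p ∈ JS n (lam1 L), w₁ p =
      v * (n * (n - 1)) - nr1 (lam1 L) + ch1 L := fun L hL => by
    rw [sum_JS hL.abs_lam1_le fun k _ => k, Finset.mul_sum,
      Finset.sum_congr rfl fun a _ => sum_Ico_id (le_of_abs_le (hL.abs_lam1_le a)), nr1, ch1,
      show (v * (n * (n - 1)) : ℤ) = ∑ _a : Fin v, (n * (n - 1) : ℤ) by simp,
      ← Finset.sum_sub_distrib, ← Finset.sum_add_distrib]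
    exact Finset.sum_congr rfl fun a _ => by ring
  have f₂ : ∀ L : Sb v, Bd n L → 2 * ∑ p ∈ JS n (lam1 L), w₂ p =
      ∑ a : Fin v, (v * (n * (n - 1)) + 2 * (a : ℕ) * n : ℤ) - sc1 (lam1 L) + v * ch1 L :=
    fun L hL => by
    rw [sum_JS hL.abs_lam1_le fun k a => k * v + (a : ℕ), Finset.mul_sum, sc1, ch1, Finset.mul_sum,
      ← Finset.sum_sub_distrib, ← Finset.sum_add_distrib]
    refine Finset.sum_congr rfl fun a _ => ?_
    have h8 := le_of_abs_le (hL.abs_lam1_le a)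
    rw [Finset.sum_add_distrib, ← Finset.sum_mul, mul_add, ← mul_assoc, sum_Ico_id h8,
      Finset.sum_const, Int.card_Ico, nsmul_eq_mul, Int.toNat_of_nonneg (sub_nonneg.2 h8)]
    ring
  have g₁ := f₁ _ (hb x)
  have g₂ := f₁ _ (hb x₀)
  have g₃ := f₂ _ (hb x)
  have g₄ := f₂ _ (hb x₀)
  rw [h4] at g₁ g₃
  exact ⟨by omega, by omega, fun e =>
    JS_inj (hb x₀).abs_lam1_le (hb x).abs_lam1_le (h7 hi (by omega))⟩

end Vale.Agent.P291Z.Lt
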