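import Vale.Agent.P291Z.Lat.L3

/-!
# Charts of the Iwahori cells
-/

set_option linter.all false

namespace Vale.Agent.P291Z.Lt

open Set Function Topology Filter Matrix

variable {v n : ℕ}

/-- the lowest exponent allowed in the entry `(a, b)` -/
def eps (a b : Fin v) : ℤ := if b < a then 0 else 1

/-- the number of coordinates in the entry `(a, b)` -/
def mult (l : Fin v → ℤ) (a b : Fin v) : ℕ := (l a - l b - eps a b).toNat

/-- the coordinates of the cell of `l` -/
abbrev CI (l : Fin v → ℤ) : Type := Σ p : Fin v × Fin v, Fin (mult l p.1 p.2)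

/-- the element of the Iwahori group with given coordinates -/
noncomputable def iw (l : Fin v → ℤ) (c : CI l → ℂ) : Mx v :=
  1 + Matrix.of fun a b => ∑ j : Fin (mult l a b), c ⟨(a, b), j⟩ • tp (j + eps a b)

/-- the point of the cell with given coordinates -/
noncomputable def cell1 (l : Fin v → ℤ) (c : CI l → ℂ) : Sb v := mu1 (iw l c) (gl l)

theorem eps_cases (a b : Fin v) : b < a ∧ eps a b = 0 ∨ a ≤ b ∧ eps a b = 1 := by
  unfold eps
  split_ifs with h
  exacts [Or.inl ⟨h, rfl⟩, Or.inr ⟨not_lt.1 h, rfl⟩]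

theorem coeff_iw (l : Fin v → ℤ) (c : CI l → ℂ) (a b : Fin v) (k : ℤ) :
    (iw l c a b).coeff k = (if a = b ∧ k = 0 then 1 else 0) +
      if h : eps a b ≤ k ∧ k < l a - l b then
        c ⟨(a, b), ⟨(k - eps a b).toNat, by unfold mult; dsimp only; omega⟩⟩ else 0 := by
  rw [iw, Matrix.add_apply, HahnSeries.coeff_add, Matrix.of_apply, HahnSeries.coeff_sum]
  congr 1
  · rw [one_apply]
    by_cases h : a = b
    · rw [if_pos h, ← tp_zero, coeff_tp]
      simp [h]
    · simp [h]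
  · simp only [HahnSeries.coeff_smul, coeff_tp, smul_eq_mul]
    split_ifs with h
    · rw [Finset.sum_eq_single ⟨(k - eps a b).toNat, by unfold mult; omega⟩, if_pos (by
        dsimp only; omega), mul_one]
      · intro j _ hj
        rw [if_neg fun e => hj (Fin.ext (by dsimp only; omega)), mul_zero]
      · simp
    · refine Finset.sum_eq_zero fun j _ => ?_
      have := j.2
      unfold mult at this
      rw [if_neg (by omega), mul_zero]

theorem iw_iw (l : Fin v → ℤ) (c : CI l → ℂ) : Iw (iw l c) := by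
  refine ⟨fun a b k hk => ?_, fun a => ?_, fun a b h => ?_⟩
  · have := eps_cases a b
    rw [coeff_iw, if_neg (by omega), dif_neg (by omega), add_zero]
  · have := eps_cases a a
    rw [coeff_iw, if_pos ⟨rfl, rfl⟩, dif_neg (by omega), add_zero]
  · have := eps_cases a b
    rw [coeff_iw, if_neg (by omega), dif_neg (by omega), add_zero]

theorem iw_zero (l : Fin v → ℤ) : iw l 0 = 1 := by
  ext a b k
  rw [iw, Matrix.add_apply, HahnSeries.coeff_add, Matrix.of_apply, HahnSeries.coeff_sum]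
  simp

theorem cell1_zero (l : Fin v → ℤ) : cell1 l 0 = gl l := by rw [cell1, iw_zero, mu1_one]

theorem lam1_cell1 (l : Fin v → ℤ) (c : CI l → ℂ) : lam1 (cell1 l c) = l := (iw_iw l c).lam1 l

theorem bd_cell1 {l : Fin v → ℤ} (h : ∀ a, |l a| ≤ n) (c : CI l → ℂ) : Bd n (cell1 l c) :=
  (iw_iw l c).bd (bd_gl h)

theorem col_mem (l : Fin v → ℤ) (c : CI l → ℂ) (b : Fin v) :
    tp (l b) • (iw l c)ᵀ b ∈ cell1 l c := by
  have h : tp (l b) • (Pi.single b 1 : Fin v → KK) ∈ gl l := fun a => by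
    rcases eq_or_ne a b with rfl | hb
    · exact (ld_single (l a) a).2.1 a
    · simpa [Pi.single_eq_of_ne hb] using Ge.zero _
  have := mulVec_mem_mu1 (iw l c) h
  rwa [mulVec_smul, mulVec_single_one] at this

theorem coeff_col (l : Fin v → ℤ) (c : CI l → ℂ) (a b : Fin v) (k : ℤ) :
    ((tp (l b) • (iw l c)ᵀ b) a).coeff k = (iw l c a b).coeff (k - l b) := coeff_tp_mul _ _ _

theorem coeff_col_of_le (l : Fin v → ℤ) (c : CI l → ℂ) (a b : Fin v) {k : ℤ} (hk : l a ≤ k) :
    ((tp (l b) • (iw l c)ᵀ b) a).coeff k = if a = b ∧ k = l b then 1 else 0 := by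
  rw [coeff_col, coeff_iw, dif_neg (by omega), add_zero]
  simp only [sub_eq_zero]

theorem coeff_col_coord (l : Fin v → ℤ) (c : CI l → ℂ) (x : CI l) :
    ((tp (l x.1.2) • (iw l c)ᵀ x.1.2) x.1.1).coeff (l x.1.2 + (x.2 + eps x.1.1 x.1.2)) = c x := by
  obtain ⟨⟨a, b⟩, j⟩ := x
  have h1 := j.2
  have h2 := eps_cases a b
  unfold mult at h1
  dsimp only at h1 ⊢
  rw [coeff_col, coeff_iw, if_neg (by omega), dif_pos (by omega), zero_add]
  congr 2
  exact Fin.ext (by dsimp only; omega)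

theorem cell1_injective (l : Fin v → ℤ) : Injective (cell1 l) := fun c c' e => by
  obtain ⟨n, hn⟩ := exists_abs_le l
  funext x
  rw [← coeff_col_coord l c, ← coeff_col_coord l c']
  have := (bd_cell1 hn c).eq_zero ((cell1 l c).sub_mem (col_mem l c x.1.2)
    (e.ge (col_mem l c' x.1.2))) fun k a hk => by
      rw [lam1_cell1] at hk
      rw [Pi.sub_apply, HahnSeries.coeff_sub, coeff_col_of_le _ _ _ _ hk,
        coeff_col_of_le _ _ _ _ hk, sub_self]
  rw [sub_eq_zero.1 this]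

theorem Bd.exists_cell1 {L : Sb v} (h : Bd n L) : ∃ c, cell1 (lam1 L) c = L := by
  have h' := h.mono (Nat.le_succ n)
  have hl := fun a => abs_le.1 (h.abs_lam1_le a)
  choose u hu hu' using fun b => h'.exists_J fun p => if p.1 = b ∧ p.2 = lam1 L b then 1 else 0
  have h1 : ∀ a b k, lam1 L a ≤ k → (em (n + 1) (u b) a).coeff k =
      if a = b ∧ k = lam1 L b then 1 else 0 := fun a b k hk => by
    rw [coeff_em]
    split_ifs with h2 h3 h3
    · exact (hu' b (a, ⟨k, h2⟩) hk).trans (if_pos h3)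
    · exact (hu' b (a, ⟨k, h2⟩) hk).trans (if_neg h3)
    · have := hl b
      exact absurd (Finset.mem_Ico.2 (by push_cast; omega)) h2
    · rfl
  let c : CI (lam1 L) → ℂ := fun x =>
    (em (n + 1) (u x.1.2) x.1.1).coeff (lam1 L x.1.2 + (x.2 + eps x.1.1 x.1.2))
  refine ⟨c, (h.eq_mu1 (iw_iw _ c) (mu1_gl_le fun b => ?_)).symm⟩
  have e : tp (lam1 L b) • (iw (lam1 L) c)ᵀ b = em (n + 1) (u b) := by
    funext a
    ext k
    rcases le_or_gt (lam1 L a) k with hk | hk
    · rw [coeff_col_of_le _ _ _ _ hk, h1 a b k hk]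
    have h2 := eps_cases a b
    rw [coeff_col, coeff_iw, if_neg (by rintro ⟨rfl, h3⟩; omega), zero_add]
    split_ifs with h3
    · change (em (n + 1) (u b) a).coeff (lam1 L b + (((k - lam1 L b - eps a b).toNat : ℕ) +
        eps a b)) = _
      congr 1
      omega
    · refine (h'.coeff_eq_zero (hu b) (D := fun k a => k < lam1 L b ∨ k = lam1 L b ∧ a < b)
        (fun _ _ _ _ _ _ => by omega) (fun k a h4 h5 => ?_) ?_).symm
      · rw [h1 a b k h4, if_neg (by omega)]
      · rcases eq_or_ne a b with rfl | h4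
        · omega
        · omega
  rw [e]
  exact hu b

theorem Bd.exists_cell1' {L : Sb v} (h : Bd n L) {l : Fin v → ℤ} (hl : lam1 L = l) :
    ∃ c, cell1 l c = L := hl ▸ h.exists_cell1

open Classical in
/-- the coordinates of a point of a cell -/
noncomputable def coord1 (l : Fin v → ℤ) (L : Sb v) : CI l → ℂ :=
  if h : ∃ c, cell1 l c = L then h.choose else 0

theorem Bd.cell1_coord1 {L : Sb v} (h : Bd n L) {l : Fin v → ℤ} (hl : lam1 L = l) :
    cell1 l (coord1 l L) = L := by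
  rw [coord1, dif_pos (h.exists_cell1' hl)]
  exact (h.exists_cell1' hl).choose_spec

theorem coord1_cell1 (l : Fin v → ℤ) (c : CI l → ℂ) : coord1 l (cell1 l c) = c := by
  obtain ⟨n, hn⟩ := exists_abs_le l
  exact cell1_injective l ((bd_cell1 hn c).cell1_coord1 (lam1_cell1 l c))

section fam

variable {X : Type*} [TopologicalSpace X]

theorem cm_iw (l : Fin v → ℤ) {c : X → CI l → ℂ} (hc : Continuous c) : CM fun x => iw l (c x) :=
  (CM.const 1).add fun a b => CW.sum (s := Finset.univ)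
    (f := fun j x => c x ⟨(a, b), j⟩ • tp (j + eps a b))
    fun j _ => CW.smul ((continuous_apply _).comp hc) (CW.const _)

theorem cm_iw_inv (l : Fin v → ℤ) {c : X → CI l → ℂ} (hc : Continuous c) :
    CM fun x => (iw l (c x))⁻¹ := (cm_iw l hc).inv fun x => (iw_iw l (c x)).det

theorem cl_cell1 (l : Fin v → ℤ) {c : X → CI l → ℂ} (hc : Continuous c) :
    CL fun x => cell1 l (c x) := by
  obtain ⟨n, hn⟩ := exists_abs_le l
  exact (CL.const _).mu1 (cm_iw l hc) (fun x => (iw_iw l (c x)).det) fun _ => bd_gl hn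

theorem CL.coord1 {ℓ : X → Sb v} (h : CL ℓ) (hb : ∀ x, Bd n (ℓ x)) {l : Fin v → ℤ}
    (hl : ∀ x, lam1 (ℓ x) = l) : Continuous fun x => coord1 l (ℓ x) := by
  cases isEmpty_or_nonempty X with
  | inl _ => exact continuous_of_discreteTopology
  | inr hX =>
  obtain ⟨x₀⟩ := hX
  have hb' := fun x => (hb x).mono (Nat.le_succ n)
  have hn : ∀ a, -n ≤ l a ∧ l a ≤ n := fun a => abs_le.1 (hl x₀ ▸ (hb x₀).abs_lam1_le a)
  let col : X → Fin v → Fin v → KK := fun x b => tp (l b) • (iw l (Lt.coord1 l (ℓ x)))ᵀ b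
  have hm : ∀ x b, col x b ∈ ℓ x := fun x b =>
    ((hb x).cell1_coord1 (hl x)).le (col_mem l _ b)
  have key : ∀ b, Continuous fun x => tr (n + 1) (col x b) := fun b => by
    let π : Eu v (n + 1) →L[ℂ] (JI (n + 1) l → ℂ) := ⟨piJ (n + 1) l,
      continuous_pi fun p => PiLp.continuous_apply 2 _ p.1⟩
    refine continuous_of_solve (A := fun x => (prj (n + 1) (ℓ x) - 1).prod π) ?_ (fun x => ?_) ?_
    · exact (ContinuousLinearMap.prodₗᵢ ℂ).continuous.comp
        ((((cl_iff hb').1 h).sub continuous_const).prodMk continuous_const)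
    · rw [injective_iff_map_eq_zero]
      intro u hu
      have h1 : piJ (n + 1) l u = 0 := congrArg Prod.snd hu
      rw [← hl x] at h1
      exact (hb' x).red_eq_zero (prj_eq_self.1 (sub_eq_zero.1 (congrArg Prod.fst hu))) h1
    · refine (continuous_const (y := ((0 : Eu v (n + 1)), fun p : JI (n + 1) l =>
        if p.1.1 = b ∧ p.1.2 = l b then (1 : ℂ) else 0))).congr fun x => ?_
      refine Prod.ext (sub_eq_zero.2 ((hb' x).mem_iff.1 (hm x b)).2).symm (funext fun p => ?_)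
      exact (coeff_col_of_le l (Lt.coord1 l (ℓ x)) p.1.1 b p.2).symm
  refine continuous_pi fun y => ?_
  have h1 := y.2.2
  have h2 := eps_cases y.1.1 y.1.2
  have h3 := hn y.1.1
  have h4 := hn y.1.2
  unfold mult at h1
  refine ((PiLp.continuous_apply 2 _ (y.1.1, ⟨l y.1.2 + (y.2 + eps y.1.1 y.1.2),
    Finset.mem_Ico.2 (by push_cast; omega)⟩)).comp (key y.1.2)).congr fun x => ?_
  exact coeff_col_coord l _ y

end fam

/-! ### diagonal matrices -/

/-- constant diagonal matrices -/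
noncomputable def cd (τ : Fin v → ℂ) : Mx v := (diagonal τ).map HahnSeries.C

theorem cd_eq (τ : Fin v → ℂ) : cd τ = diagonal fun a => HahnSeries.C (τ a) :=
  diagonal_map (map_zero _)

theorem cd_mul (τ τ' : Fin v → ℂ) : cd τ * cd τ' = cd (τ * τ') := by
  simp [cd_eq, diagonal_mul_diagonal]

theorem cd_one : cd (1 : Fin v → ℂ) = 1 := by simp [cd_eq]

theorem cd_mul_inv {τ : Fin v → ℂ} (h : ∀ a, τ a ≠ 0) : cd τ * cd τ⁻¹ = 1 := by
  rw [cd_mul, ← cd_one]
  congr 1
  exact funext fun a => mul_inv_cancel₀ (h a)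

theorem det_cd_ne {τ : Fin v → ℂ} (h : ∀ a, τ a ≠ 0) : (cd τ).det ≠ 0 :=
  (isUnit_det_of_right_inverse (cd_mul_inv h)).ne_zero

theorem mu1_cd_gl {τ : Fin v → ℂ} (h : ∀ a, τ a ≠ 0) (l : Fin v → ℤ) : mu1 (cd τ) (gl l) = gl l :=
  have key : ∀ τ : Fin v → ℂ, mu1 (cd τ) (gl l) ≤ gl l := fun τ => mu1_le_iff.2 fun z hz a => by
    rw [cd_eq, mulVec_diagonal]
    simpa using (ge_C (τ a)).mul (hz a)
  le_antisymm (key τ) (by
    conv_lhs => rw [← mu1_one (gl l), ← cd_mul_inv h, mu1_mul]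
    exact mu1_mono _ (key _))

theorem cd_mul_iw {τ : Fin v → ℂ} (h : ∀ a, τ a ≠ 0) (l : Fin v → ℤ) (c : CI l → ℂ) :
    cd τ * iw l c = iw l (fun x => τ x.1.1 / τ x.1.2 * c x) * cd τ := by
  ext a b k
  rw [cd_eq, diagonal_mul, mul_diagonal, coeff_C_mul, mul_comm _ (HahnSeries.C _), coeff_C_mul,
    coeff_iw, coeff_iw, mul_add, mul_add]
  congr 1
  · split_ifs with h1
    · rw [h1.1]
    · simp
  · split_ifs with h1
    · have := h b
      field_simp
    · simp

theorem mu1_cd_cell1 {τ : Fin v → ℂ} (h : ∀ a, τ a ≠ 0) (l : Fin v → ℤ) (c : CI l → ℂ) :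
    mu1 (cd τ) (cell1 l c) = cell1 l fun x => τ x.1.1 / τ x.1.2 * c x := by
  rw [cell1, cell1, ← mu1_mul, cd_mul_iw h, mu1_mul, mu1_cd_gl h]

theorem Bd.lam1_cd {L : Sb v} (hL : Bd n L) {τ : Fin v → ℂ} (h : ∀ a, τ a ≠ 0) :
    lam1 (Lt.mu1 (cd τ) L) = lam1 L := by
  obtain ⟨c, hc⟩ := hL.exists_cell1
  conv_lhs => rw [← hc]
  rw [mu1_cd_cell1 h, lam1_cell1]

end Vale.Agent.P291Z.Lt
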