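import Vale.Agent.P291Z.Lat.L4
import Vale.Agent.P291Z.Coul0Lem
import Vale.Agent.P291Z.Nice0

/-!
# Tuples of lattices: topology, the bounded parts of the affine Grassmannian, frames
-/

set_option linter.all false

namespace Vale.Agent.P291Z.Lt

open Set Function Topology Filter Matrix Quiv Flav QL

variable {I E Φ : Type} [Fintype Φ] {Q : Quiv I E} {n n' m m' : ℕ} {χ χ' : I → ℤ}

/-- `t^n V(O) ⊆ L ⊆ t^(-n) V(O)` -/
def QBd (n : ℕ) (L : Q.Lat) : Prop := ∀ i, Bd n (L i)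

/-- the charge -/
noncomputable def ch (L : Q.Lat) (i : I) : ℤ := ch1 (L i)

/-- the index set of the gauge Chern roots -/
abbrev Col (Q : Quiv I E) : Type := Σ i, Fin (Q.v i)

/-- the cocharacter of the Iwahori cell that contains `L` -/
noncomputable def lam (L : Q.Lat) (c : Col Q) : ℤ := lam1 (L c.1) c.2

theorem ch_eq (L : Q.Lat) (i : I) : ch L i = ∑ a, lam L ⟨i, a⟩ := rfl

theorem QBd.mono {L : Q.Lat} (h : QBd n L) (hm : n ≤ m) : QBd m L := fun i => (h i).mono hm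

theorem QBd.abs_lam_le {L : Q.Lat} (h : QBd n L) (c : Col Q) : |lam L c| ≤ n :=
  (h c.1).abs_lam1_le c.2

theorem mulL_apply (g : Q.En KK) (L : Q.Lat) (i : I) : mulL g L i = mu1 (g i) (L i) := rfl

theorem lat_apply (g : Q.En KK) (i : I) : lat g i = la1 (g i) := rfl

theorem lat_one_apply (i : I) : (lat 1 : Q.Lat) i = ge (Q.v i) 0 := la1_one

theorem tp_lat_one (k : ℤ) (i : I) : mulL (tp k • 1) (lat 1 : Q.Lat) i = ge (Q.v i) k := by
  rw [mulL_apply, lat_one_apply]
  exact (mu1_tp_ge k 0).trans (by rw [add_zero])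

theorem qbd_one : QBd 0 (lat 1 : Q.Lat) := fun i => by
  rw [lat_one_apply]; exact bd_ge (by simp)

theorem ch_one (i : I) : ch (lat 1 : Q.Lat) i = 0 := by
  rw [ch, lat_one_apply, ch1_ge, mul_zero]

theorem qbd_iff {L : Q.Lat} :
    QBd n L ↔ mulL (tp n • 1) (lat 1) ≤ L ∧ L ≤ mulL (tp (-n) • 1) (lat 1) := by
  simp only [QBd, Bd, ← tp_lat_one, forall_and]
  rfl

theorem ch_lat {g : Q.En KK} {i : I} (hg : (g i).det ≠ 0) : ch (lat g) i = (g i).det.order :=
  ch1_la1 hg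

theorem QBd.ch_mulL {L : Q.Lat} (h : QBd n L) {g : Q.En KK} {i : I} (hg : (g i).det ≠ 0) :
    ch (mulL g L) i = (g i).det.order + ch L i := (h i).ch1_mu1 hg

theorem QBd.det_ne {g : Q.En KK} (h : QBd n (lat g)) (i : I) : (g i).det ≠ 0 :=
  det_ne_of_ge_le (h i).1

theorem Rel.ch {L L' : Q.Lat} (h : Rel n χ L L') (i : I) : ch L' i = ch L i + χ i := by
  obtain ⟨⟨g, g', h1, rfl, rfl⟩, -⟩ := h
  obtain ⟨h2, h3⟩ := order_det_mul (h1 i).1 (h1 i).2.1
  rw [ch_lat (h1 i).1, ch_lat (g := g * g') h2, ← (h1 i).2.2]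
  exact h3

theorem Rel.qbd {L L' : Q.Lat} (h : Rel n χ L L') (hL : QBd m L) : QBd (m + n) L' := fun i =>
  ⟨by
    refine le_trans ?_ (h.2.1 i)
    rw [show ((m + n : ℕ) : ℤ) = n + m by push_cast; ring, ← mu1_tp_ge]
    exact mu1_mono _ (hL i).1, (h.2.2 i).trans (by
    rw [show (-((m + n : ℕ) : ℤ)) = -n + -m by push_cast; ring, ← mu1_tp_ge]
    exact mu1_mono _ (hL i).2)⟩

theorem rel_iff {L L' : Q.Lat} (hL : QBd m L) (hL' : QBd m' L') : Rel n χ L L' ↔
    (∀ i, ch L' i = ch L i + χ i) ∧ mulL (tp n • 1) L ≤ L' ∧ L' ≤ mulL (tp (-n) • 1) L := by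
  refine ⟨fun h => ⟨Rel.ch h, h.2⟩, fun h => ⟨?_, h.2⟩⟩
  choose g h1 h2 h3 using fun i => (hL i).exists_la1
  choose g' h4 h5 h6 using fun i => (hL' i).exists_la1
  refine ⟨g, fun i => (g i)⁻¹ * g' i, fun i => ⟨h1 i, ?_⟩, funext fun i => (h3 i).symm,
    funext fun i => ?_⟩
  · obtain ⟨h7, h8⟩ := order_det_mul (det_inv_ne (h1 i)) (h4 i)
    have := h.1 i
    rw [order_det_inv (h1 i), h2, h5] at h8
    exact ⟨h7, h8.trans (by unfold ch at this; omega)⟩
  · rw [← h6 i, lat_apply, Pi.mul_apply, ← Matrix.mul_assoc, mul_nonsing_inv _ (isUnit_det (h1 i)),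
      Matrix.one_mul]

theorem Rel.qbd_one {L : Q.Lat} (h : Rel n χ (lat 1) L) : QBd n L := qbd_iff.2 h.2

theorem Rel.ch_one {L : Q.Lat} (h : Rel n χ (lat 1) L) (i : I) : Lt.ch L i = χ i := by
  rw [Rel.ch h, Lt.ch_one, zero_add]

theorem rel_one_iff {L : Q.Lat} : Rel n χ (lat 1) L ↔ QBd n L ∧ ∀ i, ch L i = χ i :=
  ⟨fun h => ⟨Rel.qbd_one h, Rel.ch_one h⟩, fun h => (rel_iff qbd_one h.1).2
    ⟨fun i => by rw [ch_one, zero_add, h.2], qbd_iff.1 h.1⟩⟩

theorem Rel.det {g : Q.En KK} {L : Q.Lat} (h : Rel n χ (lat 1) L) (hg : lat g = L) (i : I) :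
    (g i).det ≠ 0 ∧ (g i).det.order = χ i := by
  subst hg
  have h1 := (Rel.qbd_one h).det_ne i
  exact ⟨h1, (ch_lat h1).symm.trans (Rel.ch_one h i)⟩

theorem QBd.smul (g : GG (Q.nn Φ)) {L : Q.Lat} (h : QBd n L) : QBd n (g • L) :=
  Rel.qbd_one (Rel_smul_one g (rel_one_iff.2 ⟨h, fun _ => rfl⟩))

theorem coeff_laur (g : Finset.Icc (-n : ℤ) n → Q.En ℂ) (i : I) (a b : Fin (Q.v i)) (k : ℤ) :
    (laur g i a b).coeff k = if h : k ∈ Finset.Icc (-n : ℤ) n then g ⟨k, h⟩ i a b else 0 := by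
  have e : laur g i a b = ∑ j : Finset.Icc (-n : ℤ) n, tp j.1 * HahnSeries.C (g j i a b) := by
    rw [laur, Finset.sum_apply, Matrix.sum_apply]
    rfl
  rw [e, HahnSeries.coeff_sum]
  simp only [coeff_tp_mul, coeff_C, sub_eq_zero]
  split_ifs with h
  · rw [Finset.sum_eq_single ⟨k, h⟩, if_pos rfl]
    · exact fun j _ hj => if_neg fun e => hj (Subtype.ext e.symm)
    · simp
  · exact Finset.sum_eq_zero fun j _ => if_neg fun e : k = j.1 => h (e ▸ j.2)

/-- the coefficients with exponents in `[-n, n]` -/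
def trn (n : ℕ) (g : Q.En KK) : Finset.Icc (-n : ℤ) n → Q.En ℂ :=
  fun k i => (g i).map fun f => f.coeff k

theorem trn_laur (g : Finset.Icc (-n : ℤ) n → Q.En ℂ) : trn n (laur g) = g := by
  ext k i a b
  exact (coeff_laur g i a b k).trans (dif_pos k.2)

theorem laur_trn {g : Q.En KK} (h1 : ∀ i, GeM (-n) (g i))
    (h2 : ∀ i a b (k : ℤ), n < k → (g i a b).coeff k = 0) : laur (trn n g) = g := by
  ext i a b k
  rw [coeff_laur]
  split_ifs with h
  · rfl
  · rw [Finset.mem_Icc] at h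
    rcases lt_or_ge k (-n) with h3 | h3
    · exact (h1 i a b k h3).symm
    · exact (h2 i a b k (by omega)).symm

theorem laur_injective : Injective (laur : (Finset.Icc (-n : ℤ) n → Q.En ℂ) → Q.En KK) :=
  LeftInverse.injective trn_laur

theorem geM_laur (g : Finset.Icc (-n : ℤ) n → Q.En ℂ) (i : I) : GeM (-n) (laur g i) :=
  fun a b k hk => by rw [coeff_laur, dif_neg (by rw [Finset.mem_Icc]; omega)]

theorem coeff_laur_of_lt (g : Finset.Icc (-n : ℤ) n → Q.En ℂ) (i : I) (a b : Fin (Q.v i)) {k : ℤ}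
    (hk : n < k) : (laur g i a b).coeff k = 0 := by
  rw [coeff_laur, dif_neg (by rw [Finset.mem_Icc]; omega)]

theorem QBd.exists_laur {L : Q.Lat} (h : QBd n L) :
    ∃ g : Finset.Icc (-n : ℤ) n → Q.En ℂ, lat (laur g) = L := by
  choose c hc using fun i => (h i).exists_cell1
  have e : ∀ i, la1 (iw _ (c i) * dg (lam1 (L i))) = L i := fun i => by
    rw [la1_mul, la1_dg]; exact hc i
  refine ⟨trn n fun i => iw _ (c i) * dg (lam1 (L i)), ?_⟩
  rw [laur_trn (fun i => geM_iff.2 ((e i).le.trans (h i).2)) fun i a b k hk => ?_]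
  · exact funext e
  · have h1 := abs_le.1 ((h i).abs_lam1_le a)
    have h2 := abs_le.1 ((h i).abs_lam1_le b)
    have := coeff_col_of_le _ (c i) a b (k := k) (by omega)
    rw [if_neg (by omega)] at this
    rw [← this, dg, mul_diagonal, mul_comm]
    rfl

section fam

variable {X Y : Type*} [TopologicalSpace X] [TopologicalSpace Y]

theorem continuous_lat_iff {ℓ : X → Q.Lat} : Continuous ℓ ↔ ∀ i, CL fun x => ℓ x i :=
  continuous_induced_rng.trans (continuous_pi_iff.trans (forall_congr' fun _ => continuous_pi_iff))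

theorem cl_of {ℓ : X → Q.Lat} (h : Continuous ℓ) (i : I) : CL fun x => ℓ x i :=
  continuous_lat_iff.1 h i

/-- continuous families in `End V (K)` -/
def CE (g : X → Q.En KK) : Prop := ∀ i, CM fun x => g x i

/-- continuous families in `N(K)` -/
def CN (s : X → Q.N KK) : Prop := ∀ c, CW fun x => co (s x) c

theorem CE.const (g : Q.En KK) : CE fun _ : X => g := fun _ => CM.const _

theorem CE.comp {g : X → Q.En KK} (hg : CE g) {f : Y → X} (hf : Continuous f) :
    CE fun y => g (f y) := fun i => (hg i).comp hf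

theorem CE.mul {g h : X → Q.En KK} (hg : CE g) (hh : CE h) : CE fun x => g x * h x :=
  fun i => (hg i).mul (hh i)

theorem CE.inv {g : X → Q.En KK} (hg : CE g) {c : I → ℤ}
    (hd : ∀ x i, (g x i).det ≠ 0 ∧ (g x i).det.order = c i) : CE fun x => (g x)⁻¹ :=
  fun i => (hg i).inv fun x => hd x i

theorem ce_cst {g : X → Q.En ℂ} (hg : Continuous g) : CE fun x => cst (g x) :=
  fun i => CM.C ((continuous_apply i).comp hg)

theorem ce_laur {g : X → Finset.Icc (-n : ℤ) n → Q.En ℂ} (hg : Continuous g) :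
    CE fun x => laur (g x) := fun i a b => ⟨⟨_, fun x => geM_laur (g x) i a b⟩, fun k => by
  simp only [coeff_laur]
  split_ifs
  · exact ((continuous_apply i).comp ((continuous_apply _).comp hg)).matrix_elem a b
  · exact continuous_const⟩

theorem CE.trn {g : X → Q.En KK} (hg : CE g) (n : ℕ) : Continuous fun x => trn n (g x) :=
  continuous_pi fun k => continuous_pi fun i => continuous_matrix fun a b => (hg i a b).2 k

theorem CN.const (s : Q.N KK) : CN fun _ : X => s := fun _ => CW.const _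

theorem CN.comp {s : X → Q.N KK} (hs : CN s) {f : Y → X} (hf : Continuous f) :
    CN fun y => s (f y) := fun c => (hs c).comp hf

theorem CN.fst {s : X → Q.N KK} (hs : CN s) (e : E) : CM fun x => (s x).1 e :=
  fun a b => hs (Sum.inl ⟨e, a, b⟩)

theorem CN.snd {s : X → Q.N KK} (hs : CN s) (i : I) : CM fun x => (s x).2 i :=
  fun a b => hs (Sum.inr ⟨i, a, b⟩)

theorem CN.gauge {g : X → Q.En KK} (hg : CE g) (hg' : CE fun x => (g x)⁻¹) {s : X → Q.N KK}
    (hs : CN s) : CN fun x => Q.gauge (g x) (s x) := by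
  rintro (⟨e, a, b⟩ | ⟨i, a, b⟩)
  · exact ((hg (Q.t e)).mul (hs.fst e)).mul (hg' (Q.s e)) a b
  · exact (hs.snd i).mul (hg' i) a b

theorem continuous_co (c : QL.Ix Q) : Continuous fun x : Q.N ℂ => co x c := by
  rcases c with ⟨e, a, b⟩ | ⟨i, a, b⟩
  · exact ((continuous_apply e).comp continuous_fst).matrix_elem a b
  · exact ((continuous_apply i).comp continuous_snd).matrix_elem a b

theorem continuous_of_co {s : X → Q.N ℂ} (h : ∀ c, Continuous fun x => co (s x) c) :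
    Continuous s :=
  (continuous_pi fun e => continuous_matrix fun a b => h (Sum.inl ⟨e, a, b⟩)).prodMk
    (continuous_pi fun i => continuous_matrix fun a b => h (Sum.inr ⟨i, a, b⟩))

theorem ge_co_poly (d : ℕ) (s : ℕ → Q.N ℂ) (c : QL.Ix Q) : Ge 0 (co (poly d s) c) := fun k hk => by
  rw [coeff_co_poly]
  exact Finset.sum_eq_zero fun j _ => if_neg (by omega)

theorem cn_poly (d : ℕ) {s : X → ℕ → Q.N ℂ} (hs : ∀ k, Continuous fun x => s x k) :
    CN fun x => poly d (s x) := fun c => ⟨⟨0, fun x => ge_co_poly d (s x) c⟩, fun k => by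
  simp only [coeff_co_poly]
  refine continuous_finsetSum _ fun j _ => ?_
  split_ifs
  exacts [(continuous_co c).comp (hs j), continuous_const]⟩

theorem CN.coef {s : X → Q.N KK} (hs : CN s) (k : ℕ) : Continuous fun x => coef (s x) k :=
  continuous_of_co fun c => by
    simp only [co_coef]
    exact (hs c).2 k

variable {ℓ ℓ' : X → Q.Lat}

/-- `g L` depends continuously on `g` and `L` -/
theorem continuous_mulL {g : X → Q.En KK} (hg : CE g) {c : I → ℤ}
    (hd : ∀ x i, (g x i).det ≠ 0 ∧ (g x i).det.order = c i) (h : Continuous ℓ)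
    (hb : ∀ x, QBd n (ℓ x)) : Continuous fun x => mulL (g x) (ℓ x) :=
  continuous_lat_iff.2 fun i => (cl_of h i).mu1 (hg i) (fun x => hd x i) fun x => hb x i

theorem continuous_lat {g : X → Q.En KK} (hg : CE g) {c : I → ℤ}
    (hd : ∀ x i, (g x i).det ≠ 0 ∧ (g x i).det.order = c i) : Continuous fun x => lat (g x) :=
  continuous_lat_iff.2 fun i => (hg i).cl_la1 fun x => hd x i

theorem continuous_ch (h : Continuous ℓ) (hb : ∀ x, QBd n (ℓ x)) (i : I) :
    Continuous fun x => ch (ℓ x) i := (cl_of h i).continuous_ch1 fun x => hb x i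

theorem isClosed_leL (h : Continuous ℓ) (h' : Continuous ℓ') (hb : ∀ x, QBd n (ℓ' x)) :
    IsClosed {x | ℓ x ≤ ℓ' x} := by
  rw [show {x | ℓ x ≤ ℓ' x} = ⋂ i, {x | ℓ x i ≤ ℓ' x i} from
    Set.ext fun x => by rw [mem_iInter]; rfl]
  exact isClosed_iInter fun i => isClosed_le (cl_of h i) (cl_of h' i) fun x => hb x i

theorem isClosed_eqL (h : Continuous ℓ) (h' : Continuous ℓ') (hb : ∀ x, QBd n (ℓ x))
    (hb' : ∀ x, QBd m (ℓ' x)) : IsClosed {x | ℓ x = ℓ' x} := by
  simp only [le_antisymm_iff]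
  exact (isClosed_leL h h' hb').inter (isClosed_leL h' h hb)

theorem det_tp_smul_one {v : ℕ} (k : ℤ) :
    (tp k • (1 : Mx v)).det ≠ 0 ∧ (tp k • (1 : Mx v)).det.order = v * k := by
  have e : tp k • (1 : Mx v) = dg fun _ => k := by
    ext1 a b
    simp [dg, one_apply, diagonal_apply]
  rw [e, order_det_dg]
  exact ⟨det_dg_ne _, by simp⟩

theorem QBd.tp {L : Q.Lat} (h : QBd m L) {k : ℤ} (hk : |k| ≤ n) :
    QBd (m + n) (mulL (tp k • 1) L) := fun i => by
  have := abs_le.1 hk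
  refine ⟨?_, (mu1_mono _ (h i).2).trans ((mu1_tp_ge _ _).le.trans (ge_mono (by push_cast; omega)))⟩
  exact (ge_mono (by push_cast; omega)).trans ((mu1_tp_ge k m).ge.trans (mu1_mono _ (h i).1))

theorem continuous_tp (k : ℤ) (h : Continuous ℓ) (hb : ∀ x, QBd n (ℓ x)) :
    Continuous fun x => mulL (tp k • 1) (ℓ x) :=
  continuous_mulL (CE.const _) (fun _ i => det_tp_smul_one k) h hb

theorem isClosed_rel (h : Continuous ℓ) (hb : ∀ x, QBd m (ℓ x)) (h' : Continuous ℓ')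
    (hb' : ∀ x, QBd m' (ℓ' x)) : IsClosed {x | Rel n χ (ℓ x) (ℓ' x)} := by
  simp only [fun x => rel_iff (n := n) (χ := χ) (hb x) (hb' x), setOf_and, setOf_forall]
  exact (isClosed_iInter fun i => isClosed_eq (continuous_ch h' hb' i)
    ((continuous_ch h hb i).add continuous_const)).inter
    ((isClosed_leL (continuous_tp _ h hb) h' hb').inter
      (isClosed_leL h' (continuous_tp _ h hb) fun x => (hb x).tp (n := n) (by simp)))

theorem isClosed_pres (h : Continuous ℓ) (hb : ∀ x, QBd n (ℓ x)) {s : X → Q.N KK} (hs : CN s) :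
    IsClosed {x | Pres (ℓ x) (s x)} := by
  have h1 : IsClosed (⋂ e, {x | ∀ y ∈ ℓ x (Q.s e), (s x).1 e *ᵥ y ∈ ℓ x (Q.t e)}) :=
    isClosed_iInter fun e => isClosed_maps (hs.fst e) (cl_of h _) (fun x => hb x _) (cl_of h _)
      fun x => hb x _
  have h2 : IsClosed (⋂ i, {x | ∀ y ∈ ℓ x i, (s x).2 i *ᵥ y ∈ ge (Q.w i) 0}) :=
    isClosed_iInter fun i => isClosed_maps (hs.snd i) (cl_of h _) (fun x => hb x _) (CL.const _)
      fun x => bd_ge (n := 0) (by simp)
  refine (congrArg IsClosed (Set.ext fun x => ?_)).mp (h1.inter h2)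
  simp only [mem_inter_iff, mem_iInter]
  rfl

theorem isClosed_lat_le {g : X → Q.En KK} (hg : CE g) (h : Continuous ℓ) (hb : ∀ x, QBd n (ℓ x)) :
    IsClosed {x | lat (g x) ≤ ℓ x} := by
  rw [show {x | lat (g x) ≤ ℓ x} = ⋂ i, ⋂ a, {x | (g x i)ᵀ a ∈ ℓ x i} from Set.ext fun x => by
    simp only [mem_iInter, mem_setOf_eq, ← la1_le_iff]
    rfl]
  exact isClosed_iInter fun i => isClosed_iInter fun a =>
    isClosed_mem (cl_of h i) (fun x => hb x i) fun b => hg i b a

theorem eventually_lat_eq [Finite I] {g : X → Q.En KK} (hg : CE g) (h : Continuous ℓ)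
    (hb : ∀ x, QBd n (ℓ x)) (hle : ∀ x, lat (g x) ≤ ℓ x) {x₀ : X} (h0 : lat (g x₀) = ℓ x₀) :
    ∀ᶠ x in 𝓝 x₀, lat (g x) = ℓ x :=
  (eventually_all.2 fun i => eventually_la1_eq (hg i) (cl_of h i) (fun x => hb x i)
    (fun x => hle x i) (congrFun h0 i)).mono fun _ hx => funext hx

/-- elements of a lattice extend to continuous families -/
theorem exists_extend (h : Continuous ℓ) (hb : ∀ x, QBd n (ℓ x)) (x₀ : X)
    {g₀ : Finset.Icc (-n : ℤ) n → Q.En ℂ} (h0 : lat (laur g₀) ≤ ℓ x₀) :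
    ∃ g : X → Finset.Icc (-n : ℤ) n → Q.En ℂ, Continuous g ∧ g x₀ = g₀ ∧
      ∀ x, lat (laur (g x)) ≤ ℓ x := by
  let G : X → Q.En KK := fun x i => (Matrix.of fun b => lift n (ℓ x i) ((laur g₀ i)ᵀ b))ᵀ
  have h1 : CE G := fun i a b => (CV.const _).lift (cl_of h i) (fun x => hb x i) a
  have h2 : ∀ x, lat (G x) ≤ ℓ x := fun x i => la1_le_iff.2 fun b =>
    (hb x i).lift_mem fun a => geM_laur g₀ i a b
  have h3 : ∀ x, laur (trn n (G x)) = G x := fun x =>
    laur_trn (fun i => geM_iff.2 ((h2 x i).trans (hb x i).2)) fun i a b k hk =>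
      (coeff_lift _ _ a hk.le).trans (coeff_laur_of_lt g₀ i a b hk)
  refine ⟨fun x => trn n (G x), h1.trn n, ?_, fun x => (h3 x).symm ▸ h2 x⟩
  have h4 : G x₀ = laur g₀ := by
    funext i
    ext1 a b
    exact congrFun ((hb x₀ i).lift_eq (la1_le_iff.1 (h0 i) b)) a
  simp only [h4, trn_laur]

/-- local frames with a prescribed value -/
theorem exists_frame' [Finite I] (h : Continuous ℓ) (hb : ∀ x, QBd n (ℓ x)) (x₀ : X)
    {g₀ : Finset.Icc (-n : ℤ) n → Q.En ℂ} (h0 : lat (laur g₀) = ℓ x₀) :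
    ∃ g : X → Finset.Icc (-n : ℤ) n → Q.En ℂ, Continuous g ∧ g x₀ = g₀ ∧
      (∀ x, lat (laur (g x)) ≤ ℓ x) ∧ ∀ᶠ x in 𝓝 x₀, lat (laur (g x)) = ℓ x := by
  obtain ⟨g, h1, h2, h3⟩ := exists_extend h hb x₀ h0.le
  exact ⟨g, h1, h2, h3, eventually_lat_eq (ce_laur h1) h hb h3 (by rw [h2, h0])⟩

/-- local frames -/
theorem exists_frame [Finite I] (h : Continuous ℓ) (hb : ∀ x, QBd n (ℓ x)) (x₀ : X) :
    ∃ g : X → Finset.Icc (-n : ℤ) n → Q.En ℂ, Continuous g ∧
      (∀ x, lat (laur (g x)) ≤ ℓ x) ∧ ∀ᶠ x in 𝓝 x₀, lat (laur (g x)) = ℓ x := by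
  obtain ⟨g₀, h0⟩ := (hb x₀).exists_laur
  obtain ⟨g, h1, -, h3⟩ := exists_frame' h hb x₀ h0
  exact ⟨g, h1, h3⟩

theorem continuous_ga : Continuous (ga Q Φ) :=
  continuous_pi fun i => Units.continuous_val.comp (continuous_apply (Sum.inl i))

theorem det_cst_ga' (g : GG (Q.nn Φ)) (i : I) :
    (cst (ga Q Φ g) i).det ≠ 0 ∧ (cst (ga Q Φ g) i).det.order = 0 := by
  refine ⟨det_cst_ga g i, ?_⟩
  rw [← ch_lat (det_cst_ga g i), ← mul_one (cst _), ← mulL_lat, ← smul_lat, smul_lat_one, ch_one]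

theorem continuous_smul_lat {g : X → GG (Q.nn Φ)} (hg : Continuous g) (h : Continuous ℓ)
    (hb : ∀ x, QBd n (ℓ x)) : Continuous fun x => g x • ℓ x :=
  continuous_mulL (ce_cst (continuous_ga.comp hg)) (fun x => det_cst_ga' (g x)) h hb

end fam

/-! ### compactness -/

theorem isCompact_qbd : IsCompact {L : Q.Lat | QBd n L} := by
  let F : (∀ i, KP (Q.v i) n) → Q.Lat := fun P i => up (P i)
  have h : Continuous F := continuous_lat_iff.2 fun i => cl_up.comp (continuous_apply i)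
  have e : {L : Q.Lat | QBd n L} = range F :=
    Set.ext fun L => ⟨fun hL => ⟨fun i => ⟨_, (hL i).prj_mem⟩, funext fun i => (hL i).up_prj⟩,
      by rintro ⟨P, rfl⟩ i; exact bd_up _⟩
  rw [e]
  exact isCompact_range h

/-- the bounded part of the affine Grassmannian -/
abbrev BL (Q : Quiv I E) (n : ℕ) : Type := {L : Q.Lat // QBd n L}

instance : CompactSpace (BL Q n) := isCompact_iff_compactSpace.1 isCompact_qbd

/-- the projections of a tuple of lattices -/
noncomputable def prjQ (L : BL Q n) (i : I) : Eu (Q.v i) n →L[ℂ] Eu (Q.v i) n := prj n (L.1 i)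

theorem isClosedEmbedding_prjQ : IsClosedEmbedding (prjQ : BL Q n → _) :=
  (continuous_pi fun i => (cl_iff fun L : BL Q n => L.2 i).1
    (cl_of continuous_subtype_val i)).isClosedEmbedding fun L L' e =>
    Subtype.ext (funext fun i => prj_inj (L.2 i) (L'.2 i) (congrFun e i))

theorem Nice.of_closed {X Y : Type} [TopologicalSpace X] [TopologicalSpace Y] [Nice Y] {f : X → Y}
    (hf : IsClosedEmbedding f) : Nice X :=
  Nice.of_isEmbedding hf.isEmbedding hf.isClosed_range.isLocallyClosed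

theorem Nice.of_open {X Y : Type} [TopologicalSpace X] [TopologicalSpace Y] [Nice Y] {f : X → Y}
    (hf : IsOpenEmbedding f) : Nice X :=
  Nice.of_isEmbedding hf.isEmbedding hf.isOpen_range.isLocallyClosed

instance (v n : ℕ) : Nice (Eu v n →L[ℂ] Eu v n) :=
  haveI := FiniteDimensional.proper ℂ (Eu v n →L[ℂ] Eu v n)
  ⟨inferInstance, inferInstance, inferInstance⟩

instance [Finite I] : Nice (BL Q n) := Nice.of_closed isClosedEmbedding_prjQ

/-- the part of charge `χ` -/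
abbrev Gr (Q : Quiv I E) (n : ℕ) (χ : I → ℤ) : Type := {L : Q.Lat // Rel n χ (lat 1) L}

theorem isClosedEmbedding_Gr :
    IsClosedEmbedding fun L : Gr Q n χ => (⟨L.1, Rel.qbd_one L.2⟩ : BL Q n) :=
  ⟨IsEmbedding.of_comp (continuous_subtype_val.subtype_mk _) continuous_subtype_val
    IsEmbedding.subtypeVal, by
    refine (congrArg IsClosed (Set.ext fun L => ?_)).mp (isClosed_rel (n := n) (χ := χ)
      (continuous_const (y := (lat 1 : Q.Lat))) (fun _ => qbd_one)
      (continuous_subtype_val (p := QBd n)) fun L => L.2)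
    exact ⟨fun h => ⟨⟨L.1, h⟩, rfl⟩, by rintro ⟨L, rfl⟩; exact L.2⟩⟩

instance : CompactSpace (Gr Q n χ) := isClosedEmbedding_Gr.compactSpace

instance [Finite I] : Nice (Gr Q n χ) := Nice.of_closed isClosedEmbedding_Gr

theorem isCompact_Gr : IsCompact {L : Q.Lat | Rel n χ (lat 1) L} :=
  isCompact_iff_compactSpace.2 (inferInstanceAs (CompactSpace (Gr Q n χ)))

noncomputable instance : MulAction (GG (Q.nn Φ)) (Gr Q n χ) where
  smul g L := ⟨g • L.1, Rel_smul_one g L.2⟩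
  one_smul _ := Subtype.ext (one_smul _ _)
  mul_smul _ _ _ := Subtype.ext (mul_smul _ _ _)

instance : ContinuousSMul (GG (Q.nn Φ)) (Gr Q n χ) :=
  ⟨(continuous_smul_lat continuous_fst (continuous_subtype_val.comp continuous_snd)
    fun x => Rel.qbd_one x.2.2).subtype_mk _⟩

end Vale.Agent.P291Z.Lt
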