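import Vale.Agent.P291Z.Lat.L6
import Vale.Agent.P291Z.TSys0

/-!
# Torus fixed points of the affine Grassmannian, the section cutting them out, the order of cells
-/

set_option linter.all false

namespace Vale.Agent.P291Z.Lt

open Set Function Topology Filter Matrix Quiv Flav QL

attribute [local instance 2000] HahnSeries.instAlgebra

section one

variable {v n : ℕ}

/-- the entries of the orthogonal projection -/
noncomputable def ent (n : ℕ) (L : Sb v) (p q : Ix v n) : ℂ :=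
  prj n L (EuclideanSpace.single q 1) p

theorem prj_apply (L : Sb v) (u : Eu v n) (p : Ix v n) :
    prj n L u p = ∑ q, ent n L p q * u q := by
  have e : u = ∑ q, u q • EuclideanSpace.single q (1 : ℂ) := by
    ext p
    simp [Pi.single_apply]
  conv_lhs => rw [e]
  simp only [map_sum, map_smul, WithLp.ofLp_sum, WithLp.ofLp_smul, Finset.sum_apply, Pi.smul_apply,
    smul_eq_mul, ent, mul_comm]

theorem CL.ent {X : Type*} [TopologicalSpace X] {ℓ : X → Sb v} (h : CL ℓ) (hb : ∀ x, Bd n (ℓ x))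
    (p q : Ix v n) : Continuous fun x => ent n (ℓ x) p q :=
  (PiLp.continuous_apply 2 _ p).comp (((cl_iff hb).1 h).clm_apply continuous_const)

/-- multiplication of the coordinates by scalars -/
noncomputable def dU (n : ℕ) (τ : Fin v → ℂ) (u : Eu v n) : Eu v n :=
  WithLp.toLp 2 fun p => τ p.1 * u p

theorem em_dU (τ : Fin v → ℂ) (u : Eu v n) : em n (dU n τ u) = cd τ *ᵥ em n u := by
  funext a
  ext k
  rw [cd_eq, mulVec_diagonal, coeff_C_mul, coeff_em, coeff_em]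
  split_ifs
  exacts [rfl, (mul_zero _).symm]

theorem prj_cd {τ : Fin v → ℂ} (hτ : ∀ a, ‖τ a‖ = 1) (L : Sb v) (u : Eu v n) :
    prj n (mu1 (cd τ) L) (dU n τ u) = dU n τ (prj n L u) := by
  have h0 : ∀ a, τ a ≠ 0 := fun a e => by simpa [e] using hτ a
  refine Submodule.eq_starProjection_of_mem_of_inner_eq_zero ?_ fun w hw => ?_
  · rw [mem_red, em_dU]
    exact mulVec_mem_mu1 _ (prj_mem L u)
  · have h1 : dU n τ⁻¹ w ∈ red n L := by
      rw [mem_red, em_dU, ← inv_eq_right_inv (cd_mul_inv h0)]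
      exact (mem_mu1_iff (det_cd_ne h0)).1 hw
    rw [← Submodule.starProjection_inner_eq_zero u _ h1, PiLp.inner_apply, PiLp.inner_apply]
    refine Finset.sum_congr rfl fun p _ => ?_
    have h2 : (starRingEnd ℂ) (τ p.1) = (τ p.1)⁻¹ := (Complex.inv_eq_conj (hτ _)).symm
    change inner ℂ (τ p.1 * u p - τ p.1 * prj n L u p) (w p) =
      inner ℂ (u p - prj n L u p) ((τ p.1)⁻¹ * w p)
    rw [← mul_sub, RCLike.inner_apply, RCLike.inner_apply, map_mul, h2]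
    ring

theorem ent_cd {τ : Fin v → ℂ} (hτ : ∀ a, ‖τ a‖ = 1) (L : Sb v) (p q : Ix v n) :
    ent n (mu1 (cd τ) L) p q = τ p.1 * (τ q.1)⁻¹ * ent n L p q := by
  have h0 : τ q.1 ≠ 0 := fun e => by simpa [e] using hτ q.1
  have e : (EuclideanSpace.single q 1 : Eu v n) = (τ q.1)⁻¹ • dU n τ (EuclideanSpace.single q 1) := by
    ext r
    change _ = (τ q.1)⁻¹ * (τ r.1 * (EuclideanSpace.single q 1 : Eu v n) r)
    rcases eq_or_ne r q with rfl | h
    · rw [inv_mul_cancel_left₀ h0]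
    · simp [h]
  rw [ent, e, map_smul, prj_cd hτ]
  change (τ q.1)⁻¹ * (τ p.1 * ent n L p q) = _
  ring

theorem ent_gl (l : Fin v → ℤ) (p q : Ix v n) :
    ent n (gl l) p q = if p = q ∧ l p.1 ≤ p.2 then 1 else 0 := by
  have : prj n (gl l) (EuclideanSpace.single q 1) =
      if l q.1 ≤ q.2 then EuclideanSpace.single q 1 else 0 := by
    split_ifs with h
    · refine prj_eq_self.2 fun a k hk => ?_
      rw [coeff_em]
      split_ifs with h1
      · exact Pi.single_eq_of_ne (fun e => by rw [← e] at h; exact absurd hk (not_lt.2 h)) _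
      · rfl
    · refine Submodule.eq_starProjection_of_mem_of_inner_eq_zero (zero_mem _) fun w hw => ?_
      have h1 := hw q.1 q.2 (not_le.1 h)
      rw [coeff_em, dif_pos q.2.2] at h1
      rw [sub_zero, EuclideanSpace.inner_single_left]
      exact mul_eq_zero_of_right _ h1
  rw [ent, this]
  by_cases h : p = q
  · subst h
    split_ifs with h1 h2 h2
    · simp
    · exact absurd ⟨rfl, h1⟩ h2
    · exact absurd h2.2 h1
    · rfl
  · rw [if_neg fun h1 : p = q ∧ _ => h h1.1]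
    split_ifs
    exacts [Pi.single_eq_of_ne h _, rfl]

theorem Bd.eq_gl {L : Sb v} (h : Bd n L) (h0 : ∀ p q : Ix v n, p.1 ≠ q.1 → ent n L p q = 0) :
    L = gl (lam1 L) := by
  refine h.eq_of_le (bd_gl h.abs_lam1_le) (fun y hy a => ?_) (ch1_gl _).ge
  have h1 : (Pi.single a (y a) : Fin v → KK) ∈ L := by
    refine h.mem_iff.2 ⟨fun b => ?_, ?_⟩
    · rw [Pi.single_apply]
      split_ifs
      exacts [h.2 hy a, Ge.zero _]
    · ext p
      have h2 := congrArg (fun u : Eu v n => u p) (h.mem_iff.1 hy).2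
      rw [prj_apply] at h2 ⊢
      rw [tr_apply]
      rcases eq_or_ne p.1 a with rfl | h3
      · rw [Pi.single_eq_same]
        refine Eq.trans (Finset.sum_congr rfl fun q _ => ?_) h2
        rcases eq_or_ne p.1 q.1 with h4 | h4
        · rw [tr_apply, tr_apply, ← h4, Pi.single_eq_same]
        · rw [h0 p q h4, zero_mul, zero_mul]
      · rw [Pi.single_eq_of_ne h3]
        refine Finset.sum_eq_zero fun q _ => ?_
        rcases eq_or_ne q.1 a with h4 | h4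
        · rw [h0 p q (h4 ▸ h3), zero_mul]
        · rw [tr_apply, Pi.single_eq_of_ne h4]
          exact mul_zero _
  rcases eq_or_ne (y a) 0 with h2 | h2
  · rw [h2]; exact Ge.zero _
  · refine (ge_order _).mono (h.lam1_le_iff.2 ⟨_, h1, ?_, fun b => ?_, fun b hb => ?_⟩)
    · rw [Pi.single_eq_same]
      exact fun e => h2 (HahnSeries.coeff_order_eq_zero.1 e)
    · rw [Pi.single_apply]
      split_ifs
      exacts [ge_order _, Ge.zero _]
    · rw [Pi.single_eq_of_ne hb.ne]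
      rfl

theorem exists_ent_ne {l l' : Fin v → ℤ} (h : ∀ a, |l a| ≤ n) (h' : ∀ a, |l' a| ≤ n) (hl : l ≠ l') :
    ∃ p : Ix v n, ‖ent n (gl l) p p - ent n (gl l') p p‖ = 1 := by
  by_contra h0
  refine hl (JS_inj h h' (Finset.ext fun p => ?_))
  have h1 := not_exists.1 h0 p
  rw [ent_gl, ent_gl] at h1
  by_cases h2 : l p.1 ≤ p.2 <;> by_cases h3 : l' p.1 ≤ p.2 <;> simp [JS, h2, h3] at h1 ⊢

theorem gl_le_gl {l l' : Fin v → ℤ} : gl l ≤ gl l' ↔ ∀ a, l' a ≤ l a := by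
  refine ⟨fun h a => not_lt.1 fun h1 => (ld_single (l a) a).1 (h (fun b => ?_) a _ h1),
    fun h y hy a => (hy a).mono (h a)⟩
  rcases eq_or_ne b a with rfl | hb
  · exact (ld_single (l b) b).2.1 b
  · simpa [Pi.single_eq_of_ne hb] using Ge.zero _

theorem mu1_tp_gl (k : ℤ) (l : Fin v → ℤ) :
    mu1 (tp k • (1 : Mx v)) (gl l) = gl fun a => k + l a :=
  Submodule.ext fun y => by
    simp only [mem_mu1_tp, mem_gl, Pi.smul_apply, smul_eq_mul, ge_tp_mul_iff, sub_neg_eq_add,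
      add_comm]

theorem maps_gl {w : ℕ} {l : Fin v → ℤ} {l' : Fin w → ℤ} {x : Matrix (Fin w) (Fin v) KK} :
    (∀ y ∈ gl l, x *ᵥ y ∈ gl l') ↔ ∀ p r, Ge (l' p - l r) (x p r) := by
  refine ⟨fun h p r => ?_, fun h y hy p => Ge.sum fun r _ => by
    simpa using (h p r).mul (hy r)⟩
  have h1 := h (tp (l r) • Pi.single r 1) (fun b => by
    rcases eq_or_ne b r with rfl | hb
    · exact (ld_single (l b) b).2.1 b
    · simpa [Pi.single_eq_of_ne hb] using Ge.zero _) p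
  rw [mulVec_smul, mulVec_single_one] at h1
  exact ge_tp_mul_iff.1 h1

theorem mu1_perm_gl (σ : Equiv.Perm (Fin v)) (l : Fin v → ℤ) :
    mu1 ((σ⁻¹.permMatrix ℂ).map HahnSeries.C) (gl l) = gl fun a => l (σ.symm a) := by
  have key : ∀ (y : Fin v → KK) a, ((σ⁻¹.permMatrix ℂ).map HahnSeries.C *ᵥ y) a = y (σ.symm a) :=
    fun y a => by
    change ∑ b, HahnSeries.C ((σ⁻¹.permMatrix ℂ) a b) * y b = _
    rw [Finset.sum_eq_single (σ.symm a)]
    · simp [Equiv.Perm.permMatrix, PEquiv.toMatrix_apply, Equiv.Perm.inv_def]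
    · intro b _ hb
      simp [Equiv.Perm.permMatrix, PEquiv.toMatrix_apply, Equiv.Perm.inv_def, hb.symm]
    · simp
  refine Submodule.ext fun y => mem_mu1.trans ⟨?_, fun h => ⟨fun a => y (σ a),
    fun a => ?_, funext fun a => (key _ a).trans (congrArg y (σ.apply_symm_apply a))⟩⟩
  · rintro ⟨z, hz, rfl⟩ a
    rw [key]
    exact hz _
  · simpa using h (σ a)

theorem sc1_swap_lt {l : Fin v → ℤ} {a b : Fin v} (hab : a < b) (h : l b < l a) :
    sc1 l < sc1 (l ∘ Equiv.swap a b) := by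
  have e : ∀ l : Fin v → ℤ, sc1 l = v * nr1 l + 2 * ∑ c : Fin v, (c : ℕ) * l c := fun l => by
    simp only [sc1, nr1, Finset.sum_add_distrib, Finset.mul_sum, mul_assoc]
  have h1 : nr1 (l ∘ Equiv.swap a b) = nr1 l := Equiv.sum_comp (Equiv.swap a b) fun c => l c ^ 2
  have h2 : ∑ c : Fin v, (((c : ℕ) : ℤ) * (l ∘ Equiv.swap a b) c - (c : ℕ) * l c) =
      ((b : ℕ) - (a : ℕ)) * (l a - l b) := by
    rw [Finset.sum_eq_add a b hab.ne]
    · simp only [Function.comp_apply, Equiv.swap_apply_left, Equiv.swap_apply_right]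
      ring
    · exact fun c _ hc => by rw [Function.comp_apply, Equiv.swap_apply_of_ne_of_ne hc.1 hc.2, sub_self]
    · simp
    · simp
  rw [Finset.sum_sub_distrib] at h2
  have h3 : (0 : ℤ) < ((b : ℕ) - (a : ℕ)) * (l a - l b) :=
    mul_pos (sub_pos.2 (Int.ofNat_lt.2 hab)) (sub_pos.2 h)
  rw [e, e, h1]
  omega

theorem mult_of_monotone {l : Fin v → ℤ} (h : Monotone l) (a b : Fin v) :
    mult l a b = (l a - l b).toNat := by
  rcases eps_cases a b with ⟨_, h1⟩ | ⟨h1, h2⟩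
  · rw [mult, h1, sub_zero]
  · have := h h1
    rw [mult, h2]
    omega

theorem mult_self (l : Fin v → ℤ) (a : Fin v) : mult l a a = 0 := by
  have := eps_cases a a
  unfold mult
  omega

theorem CI.ne {l : Fin v → ℤ} (x : CI l) : x.1.1 ≠ x.1.2 := fun e => by
  have h1 := x.2.2
  have h2 : mult l x.1.1 x.1.2 = 0 := by rw [e, mult_self]
  omega

end one

variable {I E Φ : Type} [Fintype Φ] {Q : Quiv I E} {n n' : ℕ} {χ χ' : I → ℤ}

/-- `t^μ` -/
noncomputable def tmu (μ : Col Q → ℤ) : Q.En KK := fun i => dg fun a => μ ⟨i, a⟩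

/-- `t^μ V(O)` -/
def Lmu (μ : Col Q → ℤ) : Q.Lat := fun i => gl fun a => μ ⟨i, a⟩

theorem tmu_apply (μ : Col Q → ℤ) (i : I) : tmu μ i = diagonal fun a => tp (μ ⟨i, a⟩) := rfl

theorem lat_tmu (μ : Col Q → ℤ) : lat (tmu μ) = Lmu μ := funext fun _ => la1_dg _

theorem det_tmu (μ : Col Q → ℤ) (i : I) :
    (tmu μ i).det ≠ 0 ∧ (tmu μ i).det.order = ∑ a, μ ⟨i, a⟩ := ⟨det_dg_ne _, order_det_dg _⟩

theorem tmu_mul (μ ν : Col Q → ℤ) : tmu μ * tmu ν = tmu (μ + ν) := funext fun _ => dg_mul _ _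

theorem tmu_zero : tmu (0 : Col Q → ℤ) = 1 := funext fun _ => dg_zero

theorem tmu_inv (μ : Col Q → ℤ) : (tmu μ)⁻¹ = tmu (-μ) := funext fun _ => dg_inv _

theorem mulL_tmu (μ ν : Col Q → ℤ) : mulL (tmu μ) (Lmu ν) = Lmu (μ + ν) :=
  funext fun _ => mu1_dg_gl _ _

theorem Lmu_zero : Lmu (0 : Col Q → ℤ) = lat 1 := by rw [← lat_tmu, tmu_zero]

theorem lam_Lmu (μ : Col Q → ℤ) : lam (Lmu μ) = μ := funext fun c => congrFun (lam1_gl _) c.2

theorem Lmu_injective : Injective (Lmu : (Col Q → ℤ) → Q.Lat) := LeftInverse.injective lam_Lmu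

theorem ch_Lmu (μ : Col Q → ℤ) (i : I) : ch (Lmu μ) i = ∑ a, μ ⟨i, a⟩ := ch1_gl _

theorem qbd_Lmu {μ : Col Q → ℤ} : QBd n (Lmu μ) ↔ ∀ c, |μ c| ≤ n :=
  ⟨fun h c => by simpa only [lam_Lmu] using h.abs_lam_le c, fun h i => bd_gl fun a => h ⟨i, a⟩⟩

theorem exists_qbd_Lmu [Finite I] (μ : Col Q → ℤ) : ∃ n, QBd n (Lmu μ) := by
  obtain ⟨M, hM⟩ := Finite.bddAbove_range fun c => |μ c|
  exact ⟨M.toNat, qbd_Lmu.2 fun c => (hM (mem_range_self c)).trans (Int.self_le_toNat M)⟩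

theorem Lmu_le_Lmu {μ ν : Col Q → ℤ} : Lmu μ ≤ Lmu ν ↔ ∀ c, ν c ≤ μ c :=
  ⟨fun h c => gl_le_gl.1 (h c.1) c.2, fun h i => gl_le_gl.2 fun a => h ⟨i, a⟩⟩

theorem mulL_tp_Lmu (k : ℤ) (μ : Col Q → ℤ) :
    mulL (tp k • 1) (Lmu μ) = Lmu fun c => k + μ c := funext fun _ => mu1_tp_gl _ _

variable (Q) in
/-- the cocharacters of bound `n` and charge `χ` -/
def Box (n : ℕ) (χ : I → ℤ) : Set (Col Q → ℤ) :=
  {μ | (∀ c, |μ c| ≤ n) ∧ ∀ i, ∑ a, μ ⟨i, a⟩ = χ i}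

theorem finite_bd [Finite I] : {μ : Col Q → ℤ | ∀ c, |μ c| ≤ n}.Finite :=
  (Finite.pi' fun _ => finite_Icc (-n : ℤ) n).subset fun _ h c => abs_le.1 (h c)

theorem finite_Box [Finite I] : (Box Q n χ).Finite := finite_bd.subset fun _ h => h.1

theorem rel_one_Lmu {μ : Col Q → ℤ} : Quiv.Rel n χ (lat 1) (Lmu μ) ↔ μ ∈ Box Q n χ := by
  simp only [rel_one_iff, qbd_Lmu, ch_Lmu]
  rfl

theorem rel_Lmu {μ ν : Col Q → ℤ} : Quiv.Rel n χ (Lmu μ) (Lmu ν) ↔ ν - μ ∈ Box Q n χ := by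
  rw [← rel_one_Lmu]
  constructor
  · intro h
    have := rel_mulL (fun i => (det_tmu (-μ) i).1) h
    rwa [mulL_tmu, mulL_tmu, neg_add_cancel, Lmu_zero, neg_add_eq_sub] at this
  · intro h
    have := rel_mulL (fun i => (det_tmu μ i).1) h
    rwa [← Lmu_zero, mulL_tmu, mulL_tmu, add_zero, add_sub_cancel] at this

theorem Rel.lam_mem {L : Q.Lat} (h : Quiv.Rel n χ (lat 1) L) : lam L ∈ Box Q n χ :=
  ⟨(Rel.qbd_one h).abs_lam_le, Rel.ch_one h⟩

theorem Box.add {μ ν : Col Q → ℤ} (h : μ ∈ Box Q n χ) (h' : ν ∈ Box Q n' χ') :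
    μ + ν ∈ Box Q (n + n') (χ + χ') :=
  rel_one_Lmu.1 (rel_trans (rel_one_Lmu.2 h) (rel_Lmu.2 (by rwa [add_sub_cancel_left])))

theorem Box.succ {μ : Col Q → ℤ} (h : μ ∈ Box Q n χ) : μ ∈ Box Q (n + 1) χ :=
  ⟨fun c => (h.1 c).trans (by push_cast; omega), h.2⟩

theorem box_zero : Box Q 0 0 = {0} := Set.ext fun μ =>
  ⟨fun h => funext fun c => abs_nonpos_iff.1 (h.1 c), by
    rintro rfl
    exact ⟨fun _ => le_rfl, fun _ => Finset.sum_const_zero⟩⟩

/-! ### the condition on sections -/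

/-- the lowest exponent of a coordinate in `t^μ N(O)` -/
def exN (μ : Col Q → ℤ) : QL.Ix Q → ℤ
  | Sum.inl c => μ ⟨Q.t c.1, c.2.1⟩ - μ ⟨Q.s c.1, c.2.2⟩
  | Sum.inr c => 0 - μ ⟨c.1, c.2.2⟩

theorem exN_add (μ ν : Col Q → ℤ) (c : QL.Ix Q) : exN (μ + ν) c = exN μ c + exN ν c := by
  rcases c with c | c <;> simp only [exN, Pi.add_apply] <;> ring

theorem exN_zero (c : QL.Ix Q) : exN 0 c = 0 := by rcases c with c | c <;> rfl

theorem exN_neg (μ : Col Q → ℤ) (c : QL.Ix Q) : exN (-μ) c = -exN μ c := by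
  rcases c with c | c <;> simp only [exN, Pi.neg_apply] <;> ring

theorem abs_exN_le {μ : Col Q → ℤ} (h : ∀ c, |μ c| ≤ n) (c : QL.Ix Q) : |exN μ c| ≤ 2 * n := by
  rcases c with c | c
  · have h1 := abs_le.1 (h ⟨Q.t c.1, c.2.1⟩)
    have h2 := abs_le.1 (h ⟨Q.s c.1, c.2.2⟩)
    exact abs_le.2 ⟨by simp only [exN]; omega, by simp only [exN]; omega⟩
  · have h2 := abs_le.1 (h ⟨c.1, c.2.2⟩)
    exact abs_le.2 ⟨by simp only [exN]; omega, by simp only [exN]; omega⟩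

theorem pres_Lmu {μ : Col Q → ℤ} {x : Q.N KK} : Pres (Lmu μ) x ↔ ∀ c, Ge (exN μ c) (co x c) :=
  ⟨fun h c => match c with
    | Sum.inl c => maps_gl.1 (h.1 c.1) c.2.1 c.2.2
    | Sum.inr c => maps_gl (l' := fun _ => 0).1 (h.2 c.1) c.2.1 c.2.2,
   fun h => ⟨fun e => maps_gl.2 fun p r => h (Sum.inl ⟨e, p, r⟩),
    fun i => maps_gl (l' := fun _ => 0).2 fun p r => h (Sum.inr ⟨i, p, r⟩)⟩⟩

theorem co_gauge_tmu (μ : Col Q → ℤ) (x : Q.N KK) (c : QL.Ix Q) :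
    co (Q.gauge (tmu μ) x) c = tp (exN μ c) * co x c := by
  rcases c with ⟨e, a, b⟩ | ⟨i, a, b⟩
  · change (dg _ * x.1 e * (dg _)⁻¹ : Matrix _ _ KK) a b = tp (_ - _) * x.1 e a b
    rw [dg_inv, dg, dg, mul_diagonal, diagonal_mul, sub_eq_add_neg, Lt.tp_add, Pi.neg_apply]
    ring
  · change (x.2 i * (dg _)⁻¹ : Matrix _ _ KK) a b = tp (0 - _) * x.2 i a b
    rw [dg_inv, dg, mul_diagonal, zero_sub, mul_comm, Pi.neg_apply]

section ext

variable [Fintype I] [Fintype E]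

theorem pres_ext_iff {φ : Q.N ℂ ≃ₗ[ℂ] Q.N ℂ} (hφ : Comm φ.toLinearMap) {L : Q.Lat} (hL : QBd n L)
    {x : Q.N KK} : Pres L (ext φ.symm.toLinearMap KK x) ↔ Pres L x := by
  obtain ⟨a, rfl⟩ := hL.exists_laur
  have hφ' : Comm φ.symm.toLinearMap := fun g => LinearMap.ext fun y => φ.injective (by
    have := LinearMap.congr_fun (hφ g) (φ.symm y)
    simp only [LinearMap.comp_apply, LinearEquiv.coe_coe, LinearEquiv.apply_symm_apply] at this ⊢
    exact this.symm)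
  refine ⟨fun h => ?_, hφ'.pres hL.det_ne⟩
  have := hφ.pres hL.det_ne h
  rwa [ext_ext, LinearEquiv.comp_symm, Lt.ext_id] at this

theorem coeff_co_poly' (d : ℕ) (s : ℕ → Q.N ℂ) (c : QL.Ix Q) (k : ℕ) :
    (co (poly d s) c).coeff k = if k < d then co (s k) c else 0 := by
  rw [← co_coef, coef_poly]
  split_ifs
  exacts [rfl, co_zero _]

theorem pres_Lmu_poly {μ : Col Q → ℤ} {d : ℕ} {s : ℕ → Q.N ℂ} :
    Pres (Lmu μ) (poly d s) ↔ ∀ c, ∀ k < d, (k : ℤ) < exN μ c → co (s k) c = 0 := by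
  rw [pres_Lmu]
  refine forall_congr' fun c => ⟨fun h k hk h1 => ?_, fun h k hk => ?_⟩
  · have := h k h1
    rwa [coeff_co_poly', if_pos hk] at this
  · rcases lt_or_ge k 0 with h1 | h1
    · exact ge_co_poly d s c k h1
    · lift k to ℕ using h1
      rw [coeff_co_poly']
      split_ifs with h2
      exacts [h k h2 hk, rfl]

/-- the fibre over `t^μ` in coordinates adapted to the flavour action -/
theorem pres_Lmu_poly' {φ : Q.N ℂ ≃ₗ[ℂ] Q.N ℂ} (hφ : Comm φ.toLinearMap) {μ : Col Q → ℤ} {d : ℕ}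
    {s : ℕ → Q.N ℂ} :
    Pres (Lmu μ) (poly d s) ↔ ∀ c, ∀ k < d, (k : ℤ) < exN μ c → co (φ.symm (s k)) c = 0 := by
  obtain ⟨m, hm⟩ := exists_qbd_Lmu μ
  rw [← pres_ext_iff hφ hm, ext_poly, pres_Lmu_poly]
  rfl

end ext

/-! ### the torus -/

section torus

variable [Fintype I]

/-- the gauge coordinates of an element of the torus -/
noncomputable def tau (t : Tc (Q.nn Φ)) (c : Col Q) : ℂ := (t ⟨Sum.inl c.1, c.2⟩ : ℂ)

theorem norm_tau (t : Tc (Q.nn Φ)) (c : Col Q) : ‖tau t c‖ = 1 := Circle.norm_coe _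

theorem tau_ne (t : Tc (Q.nn Φ)) (c : Col Q) : tau t c ≠ 0 := Circle.coe_ne_zero _

theorem cst_toG (t : Tc (Q.nn Φ)) (i : I) :
    cst (ga Q Φ (toG _ t)) i = cd fun a => tau t ⟨i, a⟩ := rfl

theorem toG_smul_apply (t : Tc (Q.nn Φ)) (L : Q.Lat) (i : I) :
    (toG _ t • L) i = mu1 (cd fun a => tau t ⟨i, a⟩) (L i) := rfl

theorem toG_smul_Lmu (t : Tc (Q.nn Φ)) (μ : Col Q → ℤ) : toG _ t • Lmu μ = Lmu μ :=
  funext fun i => mu1_cd_gl (fun a => tau_ne t ⟨i, a⟩) _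

theorem QBd.lam_toG {L : Q.Lat} (h : QBd n L) (t : Tc (Q.nn Φ)) : lam (toG _ t • L) = lam L :=
  funext fun c => congrFun ((h c.1).lam1_cd fun a => tau_ne t ⟨c.1, a⟩) c.2

theorem cst_toG_tmu (t : Tc (Q.nn Φ)) (μ : Col Q → ℤ) :
    cst (ga Q Φ (toG _ t)) * tmu μ = tmu μ * cst (ga Q Φ (toG _ t)) := funext fun i => by
  rw [Pi.mul_apply, Pi.mul_apply, cst_toG, cd_eq, tmu_apply, diagonal_mul_diagonal,
    diagonal_mul_diagonal]
  simp only [mul_comm]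

/-- the gauge part of the permutation -/
def wCol (w : Wy (Q.nn Φ)) : Equiv.Perm (Col Q) := Equiv.sigmaCongrRight fun i => w (Sum.inl i)

theorem wG_smul_Lmu (w : Wy (Q.nn Φ)) (μ : Col Q → ℤ) :
    wG w • Lmu μ = Lmu fun c => μ ((wCol w).symm c) :=
  funext fun i => mu1_perm_gl (v := Q.v i) (w (Sum.inl i)) fun a => μ ⟨i, a⟩

end torus

/-! ### the section with zeros at the fixed points -/

variable (Q n) in
/-- the index set of the off-diagonal entries -/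
abbrev SI : Type := Σ i, {p : Ix (Q.v i) n × Ix (Q.v i) n // p.1.1 ≠ p.2.1}

variable (n) in
/-- the off-diagonal entries of the projections -/
noncomputable def sg (L : Q.Lat) (x : SI Q n) : ℂ := ent n (L x.1) x.2.1.1 x.2.1.2

variable (n) in
/-- the diagonal entries of the projections -/
noncomputable def dgl (L : Q.Lat) (x : Σ i, Ix (Q.v i) n) : ℂ := ent n (L x.1) x.2 x.2

theorem sg_Lmu (μ : Col Q → ℤ) : sg n (Lmu μ) = 0 := funext fun x =>
  (ent_gl _ _ _).trans (if_neg fun h => x.2.2 (congrArg Prod.fst h.1))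

theorem QBd.sg_eq_zero {L : Q.Lat} (h : QBd n L) : sg n L = 0 ↔ L = Lmu (lam L) :=
  ⟨fun h0 => funext fun i => (h i).eq_gl fun p q hpq => congrFun h0 ⟨i, (p, q), hpq⟩,
    fun e => e ▸ sg_Lmu _⟩

theorem QBd.sg_eq_zero' {L : Q.Lat} (h : QBd n L) : sg n L = 0 ↔ ∃ μ, L = Lmu μ :=
  ⟨fun h0 => ⟨_, h.sg_eq_zero.1 h0⟩, by rintro ⟨μ, rfl⟩; exact sg_Lmu _⟩

theorem sg_toG [Fintype I] (t : Tc (Q.nn Φ)) (L : Q.Lat) (x : SI Q n) : sg n (toG _ t • L) x =
    tau t ⟨x.1, x.2.1.1.1⟩ * (tau t ⟨x.1, x.2.1.2.1⟩)⁻¹ * sg n L x :=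
  ent_cd (fun a => norm_tau t ⟨x.1, a⟩) _ _ _

theorem dgl_toG [Fintype I] (t : Tc (Q.nn Φ)) (L : Q.Lat) : dgl n (toG _ t • L) = dgl n L :=
  funext fun x => (ent_cd (fun a => norm_tau t ⟨x.1, a⟩) _ _ _).trans (by
    rw [mul_inv_cancel₀ (tau_ne _ _), one_mul]; rfl)

variable (n) in
/-- an open neighbourhood of `t^μ` -/
def Uo (μ : Col Q → ℤ) : Set Q.Lat := {L | ∀ x, ‖dgl n L x - dgl n (Lmu μ) x‖ < 1 / 2}

variable (n) in
/-- a closed neighbourhood of `t^μ` -/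
def Uc (μ : Col Q → ℤ) : Set Q.Lat := {L | ∀ x, ‖dgl n L x - dgl n (Lmu μ) x‖ ≤ 1 / 2}

theorem Uo_subset (μ : Col Q → ℤ) : Uo n μ ⊆ Uc n μ := fun _ h x => (h x).le

theorem Lmu_mem_Uo (μ : Col Q → ℤ) : Lmu μ ∈ Uo n μ := fun x => by simp

theorem toG_mem_Uo [Fintype I] {μ : Col Q → ℤ} (t : Tc (Q.nn Φ)) {L : Q.Lat} :
    toG _ t • L ∈ Uo n μ ↔ L ∈ Uo n μ := by
  simp only [Uo, mem_setOf_eq, dgl_toG]

theorem toG_mem_Uc [Fintype I] {μ : Col Q → ℤ} (t : Tc (Q.nn Φ)) {L : Q.Lat} :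
    toG _ t • L ∈ Uc n μ ↔ L ∈ Uc n μ := by
  simp only [Uc, mem_setOf_eq, dgl_toG]

theorem exists_dgl_ne {μ ν : Col Q → ℤ} (h : ∀ c, |μ c| ≤ n) (h' : ∀ c, |ν c| ≤ n) (hne : μ ≠ ν) :
    ∃ x, ‖dgl n (Lmu μ) x - dgl n (Lmu ν) x‖ = 1 := by
  obtain ⟨c, hc⟩ := ne_iff.1 hne
  obtain ⟨p, hp⟩ := exists_ent_ne (n := n) (fun a => h ⟨c.1, a⟩) (fun a => h' ⟨c.1, a⟩)
    fun e => hc (congrFun e c.2)
  exact ⟨⟨c.1, p⟩, hp⟩

theorem Lmu_mem_Uc {μ ν : Col Q → ℤ} (h : ∀ c, |μ c| ≤ n) (h' : ∀ c, |ν c| ≤ n) :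
    Lmu ν ∈ Uc n μ ↔ ν = μ := by
  refine ⟨fun h1 => by_contra fun hne => ?_, fun e => e ▸ Uo_subset _ (Lmu_mem_Uo _)⟩
  obtain ⟨x, hx⟩ := exists_dgl_ne h' h hne
  have := h1 x
  rw [hx] at this
  norm_num at this

theorem disjoint_Uo_Uc {μ ν : Col Q → ℤ} (h : ∀ c, |μ c| ≤ n) (h' : ∀ c, |ν c| ≤ n) (hne : μ ≠ ν) :
    Disjoint (Uo n μ) (Uc n ν) := disjoint_left.2 fun L h1 h2 => by
  obtain ⟨x, hx⟩ := exists_dgl_ne h h' hne
  have h3 := norm_sub_le_norm_sub_add_norm_sub (dgl n (Lmu μ) x) (dgl n L x) (dgl n (Lmu ν) x)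
  have h4 := h1 x
  have h5 := h2 x
  rw [norm_sub_rev] at h4
  linarith

section fam

variable {X : Type*} [TopologicalSpace X] {ℓ : X → Q.Lat} (h : Continuous ℓ)
  (hb : ∀ x, QBd n (ℓ x))
include h hb

theorem continuous_sg : Continuous fun x => sg n (ℓ x) :=
  continuous_pi fun y => (cl_of h y.1).ent (fun x => hb x y.1) _ _

theorem continuous_dgl : Continuous fun x => dgl n (ℓ x) :=
  continuous_pi fun y => (cl_of h y.1).ent (fun x => hb x y.1) _ _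

theorem isOpen_Uo [Finite I] (μ : Col Q → ℤ) : IsOpen (ℓ ⁻¹' Uo n μ) := by
  rw [Uo, preimage_setOf_eq, setOf_forall]
  exact isOpen_iInter_of_finite fun y => isOpen_lt
    (((continuous_apply y).comp (continuous_dgl h hb)).sub continuous_const).norm continuous_const

theorem isClosed_Uc (μ : Col Q → ℤ) : IsClosed (ℓ ⁻¹' Uc n μ) := by
  rw [Uc, preimage_setOf_eq, setOf_forall]
  exact isClosed_iInter fun y => _root_.isClosed_le
    (((continuous_apply y).comp (continuous_dgl h hb)).sub continuous_const).norm continuous_const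

theorem closure_Uo (μ : Col Q → ℤ) : closure (ℓ ⁻¹' Uo n μ) ⊆ ℓ ⁻¹' Uc n μ :=
  closure_minimal (preimage_mono (Uo_subset μ)) (isClosed_Uc h hb μ)

theorem isClosed_Lmu (μ : Col Q → ℤ) : IsClosed {x | ℓ x = Lmu μ} := by
  by_cases h1 : QBd n (Lmu μ)
  · exact isClosed_eqL h continuous_const hb fun _ => h1
  · rw [show {x | ℓ x = Lmu μ} = ∅ from eq_empty_of_forall_notMem fun x hx => h1 (hx ▸ hb x)]
    exact isClosed_empty

end fam

/-! ### the order of the cells -/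

section key

variable [Fintype I]

/-- the second invariant -/
def scQ (μ : Col Q → ℤ) : ℤ := ∑ i, sc1 fun a => μ ⟨i, a⟩

/-- the order of the cells -/
def key (μ : Col Q → ℤ) : ℤ ×ₗ ℤ := toLex (∑ c, μ c ^ 2, scQ μ)

theorem key_lt_of_nrm {μ ν : Col Q → ℤ} (h : ∑ c, μ c ^ 2 < ∑ c, ν c ^ 2) : key μ < key ν :=
  Prod.Lex.left _ _ h

theorem nrm_le_of_key {μ ν : Col Q → ℤ} (h : key μ ≤ key ν) : ∑ c, μ c ^ 2 ≤ ∑ c, ν c ^ 2 :=
  not_lt.1 fun h1 => (key_lt_of_nrm h1).not_ge h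

theorem monotone_of_key {μ : Col Q → ℤ}
    (h : ∀ σ : ∀ i, Equiv.Perm (Fin (Q.v i)), key (μ ∘ Equiv.sigmaCongrRight σ) ≤ key μ) (i : I) :
    Monotone fun a => μ ⟨i, a⟩ := by
  classical
  refine monotone_iff_forall_lt.2 fun a b hab => not_lt.1 fun h1 => ?_
  refine (h (Pi.mulSingle i (Equiv.swap a b))).not_gt ?_
  rw [key, key, show ∑ c, (μ ∘ Equiv.sigmaCongrRight (Pi.mulSingle i (Equiv.swap a b))) c ^ 2 =
    ∑ c, μ c ^ 2 from Equiv.sum_comp (Equiv.sigmaCongrRight _) fun c => μ c ^ 2]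
  refine Prod.Lex.right _ (Finset.sum_lt_sum (fun j _ => ?_) ⟨i, Finset.mem_univ _, ?_⟩)
  · rcases eq_or_ne j i with rfl | hj
    · simp only [Function.comp_apply, Equiv.sigmaCongrRight_apply, Pi.mulSingle_eq_same]
      exact (sc1_swap_lt hab h1).le
    · simp only [Function.comp_apply, Equiv.sigmaCongrRight_apply, Pi.mulSingle_eq_of_ne hj]
      exact le_rfl
  · simp only [Function.comp_apply, Equiv.sigmaCongrRight_apply, Pi.mulSingle_eq_same]
    exact sc1_swap_lt hab h1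

variable {X : Type*} [TopologicalSpace X] {ℓ : X → Q.Lat} (h : Continuous ℓ)
  (hb : ∀ x, QBd n (ℓ x))
include h hb

theorem eventually_key (x₀ : X) :
    ∀ᶠ x in 𝓝 x₀, lam (ℓ x) = lam (ℓ x₀) ∨ key (lam (ℓ x₀)) < key (lam (ℓ x)) := by
  filter_upwards [eventually_all.2 fun i => (cl_of h i).eventually_lam1 (fun x => hb x i) x₀]
    with x hx
  have h1 : ∑ c, lam (ℓ x₀) c ^ 2 ≤ ∑ c, lam (ℓ x) c ^ 2 := by
    rw [Fintype.sum_sigma, Fintype.sum_sigma]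
    exact Finset.sum_le_sum fun i _ => (hx i).1
  rcases h1.lt_or_eq with h2 | h2
  · exact Or.inr (key_lt_of_nrm h2)
  by_cases h3 : ∀ i, sc1 (lam1 (ℓ x₀ i)) = sc1 (lam1 (ℓ x i))
  · exact Or.inl (funext fun c => (congrFun ((hx c.1).2.2 (h3 c.1)) c.2).symm)
  · obtain ⟨i, hi⟩ := not_forall.1 h3
    rw [key, key, h2]
    exact Or.inr (Prod.Lex.right _ (Finset.sum_lt_sum (fun j _ => (hx j).2.1)
      ⟨i, Finset.mem_univ _, (hx i).2.1.lt_of_ne hi⟩))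

theorem isOpen_cells {S : Set (Col Q → ℤ)} (hS : ∀ μ ∈ S, ∀ ν, key μ < key ν → ν ∈ S) :
    IsOpen {x | lam (ℓ x) ∈ S} := isOpen_iff_mem_nhds.2 fun x hx =>
  (eventually_key h hb x).mono fun y hy => hy.elim (fun e => e ▸ hx) (hS _ hx _)

theorem isClosed_cells {S : Set (Col Q → ℤ)} (hS : ∀ ν ∈ S, ∀ μ, key μ < key ν → μ ∈ S) :
    IsClosed {x | lam (ℓ x) ∈ S} :=
  ⟨isOpen_cells h hb (S := Sᶜ) fun μ hμ ν h1 h2 => hμ (hS ν h2 μ h1)⟩

theorem isLocallyClosed_cell (μ : Col Q → ℤ) : IsLocallyClosed {x | lam (ℓ x) = μ} :=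
  ⟨_, _, isOpen_cells h hb (S := {ν | ν = μ ∨ key μ < key ν})
    fun _ h1 _ h2 => Or.inr (h1.elim (fun e => e ▸ h2) (·.trans h2)),
    isClosed_cells h hb (S := {ν | ν = μ ∨ key ν < key μ})
    fun _ h1 _ h2 => Or.inr (h1.elim (fun e => e ▸ h2) h2.trans), Set.ext fun x =>
    ⟨fun e => ⟨Or.inl e, Or.inl e⟩, fun h1 => h1.1.elim id fun h2 => h1.2.elim id
      fun h3 => absurd h2 h3.not_gt⟩⟩

end key

end Vale.Agent.P291Z.Lt
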